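import Vale.Agent.P348.H997.Chan

/-! Numerical certificate (generated): bounds of the scalar quantities at the nodes of a dyadic grid. -/

namespace Vale.Agent.P348

namespace TwoChannel

variable {D : TwoChannel}

theorem q484 (h4 : D.z (15) 24 ≤ 1 + 8221 / 50000) :
    D.ph (15) ≤ 31747 / 5000000 :=
  s_zp _ h4 (by norm_num) (by norm_num) (by norm_num [lg])

theorem q34 (h3 : D.z (15) 12 ≤ 1 + 12139 / 50000) :
    D.c (15) 12 ≤ 12139 / 50000 :=
  (s_zc _ h3 (by norm_num) (by norm_num)).trans (by norm_num)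

theorem q44 (h8 : D.z (30) 24 ≤ 1 + 2201 / 20000) :
    D.c (30) 24 ≤ 2201 / 20000 :=
  (s_zc _ h8 (by norm_num) (by norm_num)).trans (by norm_num)

theorem q56 (h12 : D.z (60) 48 ≤ 1 + 32987 / 1000000) :
    D.c (60) 48 ≤ 32987 / 1000000 :=
  (s_zc _ h12 (by norm_num) (by norm_num)).trans (by norm_num)

theorem q83 (h56 : D.c (60) 48 ≤ 32987 / 1000000) :
    D.c (60) 96 ≤ 5441 / 5000000 :=
  s_cp 2 _ _ h56 (by norm_num) (by norm_num) (by norm_num) (by norm_num) (by norm_num)

theorem q84 (h83 : D.c (60) 96 ≤ 5441 / 5000000) :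
    D.c (60) 192 ≤ 5921 / 5000000000 :=
  s_cp 2 _ _ h83 (by norm_num) (by norm_num) (by norm_num) (by norm_num) (by norm_num)

theorem q85 (h84 : D.c (60) 192 ≤ 5921 / 5000000000) :
    D.c (60) 384 ≤ 1753 / 1250000000000000 :=
  s_cp 2 _ _ h84 (by norm_num) (by norm_num) (by norm_num) (by norm_num) (by norm_num)

theorem q116 (h20 : D.ph (60) ≤ 32931 / 100000000) (h85 : D.c (60) 384 ≤ 1753 / 1250000000000000) :
    D.z (60) 384 ≤ 1 + 1349 / 10000 :=
  s_pc _ h20 h85 (by norm_num) (by norm_num) (by norm_num) (by norm_num [ex])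

theorem q133 (h116 : D.z (60) 384 ≤ 1 + 1349 / 10000) :
    D.b (60) 384 ≤ 1349 / 10000 :=
  (s_zb _ h116 (by norm_num) (by norm_num)).trans (by norm_num)

theorem q148 (h133 : D.b (60) 384 ≤ 1349 / 10000) :
    D.b (120) 384 ≤ 18199 / 1000000 :=
  s_bp 2 _ _ h133 (by norm_num) (by norm_num) (by norm_num)

theorem q154 (h148 : D.b (120) 384 ≤ 18199 / 1000000) :
    D.b (240) 384 ≤ 33121 / 100000000 :=
  s_bp 2 _ _ h148 (by norm_num) (by norm_num) (by norm_num)

theorem q221 (h12 : D.z (60) 48 ≤ 1 + 32987 / 1000000) :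
    D.f 48 ≤ 13523 / 25000000 :=
  s_zf _ h12 (by norm_num) (by norm_num) (by norm_num [lg])

theorem q45 (h14 : D.z (30) 48 ≤ 1 + 65321 / 1000000) :
    D.b (30) 48 ≤ 65321 / 1000000 :=
  (s_zb _ h14 (by norm_num) (by norm_num)).trans (by norm_num)

theorem q185 (h45 : D.b (30) 48 ≤ 65321 / 1000000) :
    D.b (120) 48 ≤ 9103 / 500000000 :=
  s_bp 4 _ _ h45 (by norm_num) (by norm_num) (by norm_num)

theorem q187 (h185 : D.b (120) 48 ≤ 9103 / 500000000) :
    D.b (240) 48 ≤ 16573 / 50000000000000 :=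
  s_bp 2 _ _ h185 (by norm_num) (by norm_num) (by norm_num)

theorem q232 (h221 : D.f 48 ≤ 13523 / 25000000) (h187 : D.b (240) 48 ≤ 16573 / 50000000000000) :
    D.z (240) 48 ≤ 1 + 6937 / 50000 :=
  s_fb _ h221 h187 (by norm_num) (by norm_num) (by norm_num) (by norm_num [ex])

theorem q241 (h232 : D.z (240) 48 ≤ 1 + 6937 / 50000) :
    D.c (240) 48 ≤ 6937 / 50000 :=
  (s_zc _ h232 (by norm_num) (by norm_num)).trans (by norm_num)

theorem q250 (h241 : D.c (240) 48 ≤ 6937 / 50000) :
    D.c (240) 96 ≤ 19249 / 1000000 :=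
  s_cp 2 _ _ h241 (by norm_num) (by norm_num) (by norm_num) (by norm_num) (by norm_num)

theorem q251 (h250 : D.c (240) 96 ≤ 19249 / 1000000) :
    D.c (240) 192 ≤ 37053 / 100000000 :=
  s_cp 2 _ _ h250 (by norm_num) (by norm_num) (by norm_num) (by norm_num) (by norm_num)

theorem q260 (h154 : D.b (240) 384 ≤ 33121 / 100000000) (h251 : D.c (240) 192 ≤ 37053 / 100000000) :
    D.ph (240) ≤ 36543 / 10000000000 :=
  s_I2 _ h154 h251 (by norm_num) (by norm_num) (by norm_num) (by norm_num [lg])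

theorem q272 (h260 : D.ph (240) ≤ 36543 / 10000000000) (h251 : D.c (240) 192 ≤ 37053 / 100000000) :
    D.z (240) 192 ≤ 1 + 10727 / 10000000 :=
  s_pc _ h260 h251 (by norm_num) (by norm_num) (by norm_num) (by norm_num [ex])

theorem q287 (h272 : D.z (240) 192 ≤ 1 + 10727 / 10000000) :
    D.f 192 ≤ 349 / 78125000 :=
  s_zf _ h272 (by norm_num) (by norm_num) (by norm_num [lg])

theorem q59 (h16 : D.z (60) 192 ≤ 1 + 16317 / 250000) :
    D.b (60) 192 ≤ 16317 / 250000 :=
  (s_zb _ h16 (by norm_num) (by norm_num)).trans (by norm_num)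

theorem q94 (h59 : D.b (60) 192 ≤ 16317 / 250000) :
    D.b (120) 192 ≤ 213 / 50000 :=
  s_bp 2 _ _ h59 (by norm_num) (by norm_num) (by norm_num)

theorem q291 (h287 : D.f 192 ≤ 349 / 78125000) (h94 : D.b (120) 192 ≤ 213 / 50000) :
    D.z (120) 192 ≤ 1 + 9597 / 2000000 :=
  s_fb _ h287 h94 (by norm_num) (by norm_num) (by norm_num) (by norm_num [ex])

theorem q300 (h291 : D.z (120) 192 ≤ 1 + 9597 / 2000000) :
    D.ph (120) ≤ 24933 / 1000000000 :=
  s_zp _ h291 (by norm_num) (by norm_num) (by norm_num [lg])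

theorem q226 (h221 : D.f 48 ≤ 13523 / 25000000) (h185 : D.b (120) 48 ≤ 9103 / 500000000) :
    D.z (120) 48 ≤ 1 + 33549 / 500000 :=
  s_fb _ h221 h185 (by norm_num) (by norm_num) (by norm_num) (by norm_num [ex])

theorem q239 (h226 : D.z (120) 48 ≤ 1 + 33549 / 500000) :
    D.c (120) 48 ≤ 33549 / 500000 :=
  (s_zc _ h226 (by norm_num) (by norm_num)).trans (by norm_num)

theorem q245 (h239 : D.c (120) 48 ≤ 33549 / 500000) :
    D.c (120) 96 ≤ 22511 / 5000000 :=
  s_cp 2 _ _ h239 (by norm_num) (by norm_num) (by norm_num) (by norm_num) (by norm_num)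

theorem q246 (h245 : D.c (120) 96 ≤ 22511 / 5000000) :
    D.c (120) 192 ≤ 2027 / 100000000 :=
  s_cp 2 _ _ h245 (by norm_num) (by norm_num) (by norm_num) (by norm_num) (by norm_num)

theorem q247 (h246 : D.c (120) 192 ≤ 2027 / 100000000) :
    D.c (120) 384 ≤ 321 / 781250000000 :=
  s_cp 2 _ _ h246 (by norm_num) (by norm_num) (by norm_num) (by norm_num) (by norm_num)

theorem q248 (h247 : D.c (120) 384 ≤ 321 / 781250000000) :
    D.c (120) 768 ≤ 16883 / 100000000000000000000000 :=
  s_cp 2 _ _ h247 (by norm_num) (by norm_num) (by norm_num) (by norm_num) (by norm_num)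

theorem q249 (h248 : D.c (120) 768 ≤ 16883 / 100000000000000000000000) :
    D.c (120) 1536 ≤ 3563 / 125000000000000000000000000000000000000000 :=
  s_cp 2 _ _ h248 (by norm_num) (by norm_num) (by norm_num) (by norm_num) (by norm_num)

theorem q307 (h300 : D.ph (120) ≤ 24933 / 1000000000) (h249 : D.c (120) 1536 ≤ 3563 / 125000000000000000000000000000000000000000) :
    D.z (120) 1536 ≤ 1 + 39043 / 1000000 :=
  s_pc _ h300 h249 (by norm_num) (by norm_num) (by norm_num) (by norm_num [ex])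

theorem q310 (h307 : D.z (120) 1536 ≤ 1 + 39043 / 1000000) :
    D.b (120) 1536 ≤ 39043 / 1000000 :=
  (s_zb _ h307 (by norm_num) (by norm_num)).trans (by norm_num)

theorem q312 (h310 : D.b (120) 1536 ≤ 39043 / 1000000) :
    D.b (240) 1536 ≤ 3811 / 2500000 :=
  s_bp 2 _ _ h310 (by norm_num) (by norm_num) (by norm_num)

theorem q314 (h312 : D.b (240) 1536 ≤ 3811 / 2500000) :
    D.b (480) 1536 ≤ 11619 / 5000000000 :=
  s_bp 2 _ _ h312 (by norm_num) (by norm_num) (by norm_num)

theorem q100 (h94 : D.b (120) 192 ≤ 213 / 50000) :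
    D.b (240) 192 ≤ 4537 / 250000000 :=
  s_bp 2 _ _ h94 (by norm_num) (by norm_num) (by norm_num)

theorem q106 (h100 : D.b (240) 192 ≤ 4537 / 250000000) :
    D.b (480) 192 ≤ 6587 / 20000000000000 :=
  s_bp 2 _ _ h100 (by norm_num) (by norm_num) (by norm_num)

theorem q292 (h287 : D.f 192 ≤ 349 / 78125000) (h106 : D.b (480) 192 ≤ 6587 / 20000000000000) :
    D.z (480) 192 ≤ 1 + 10733 / 5000000 :=
  s_fb _ h287 h106 (by norm_num) (by norm_num) (by norm_num) (by norm_num [ex])

theorem q296 (h292 : D.z (480) 192 ≤ 1 + 10733 / 5000000) :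
    D.c (480) 192 ≤ 10733 / 5000000 :=
  (s_zc _ h292 (by norm_num) (by norm_num)).trans (by norm_num)

theorem q297 (h296 : D.c (480) 192 ≤ 10733 / 5000000) :
    D.c (480) 384 ≤ 46079 / 10000000000 :=
  s_cp 2 _ _ h296 (by norm_num) (by norm_num) (by norm_num) (by norm_num) (by norm_num)

theorem q298 (h297 : D.c (480) 384 ≤ 46079 / 10000000000) :
    D.c (480) 768 ≤ 21233 / 1000000000000000 :=
  s_cp 2 _ _ h297 (by norm_num) (by norm_num) (by norm_num) (by norm_num) (by norm_num)

theorem q316 (h314 : D.b (480) 1536 ≤ 11619 / 5000000000) (h298 : D.c (480) 768 ≤ 21233 / 1000000000000000) :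
    D.ph (480) ≤ 30259 / 10000000000000 :=
  s_I2 _ h314 h298 (by norm_num) (by norm_num) (by norm_num) (by norm_num [lg])

theorem q304 (h300 : D.ph (120) ≤ 24933 / 1000000000) (h245 : D.c (120) 96 ≤ 22511 / 5000000) :
    D.z (120) 96 ≤ 1 + 13819 / 2000000 :=
  s_pc _ h300 h245 (by norm_num) (by norm_num) (by norm_num) (by norm_num [ex])

theorem q317 (h304 : D.z (120) 96 ≤ 1 + 13819 / 2000000) :
    D.f 96 ≤ 28691 / 500000000 :=
  s_zf _ h304 (by norm_num) (by norm_num) (by norm_num [lg])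

theorem q47 (h9 : D.z (30) 96 ≤ 1 + 6759 / 50000) :
    D.b (30) 96 ≤ 6759 / 50000 :=
  (s_zb _ h9 (by norm_num) (by norm_num)).trans (by norm_num)

theorem q93 (h47 : D.b (30) 96 ≤ 6759 / 50000) :
    D.b (120) 96 ≤ 33393 / 100000000 :=
  s_bp 4 _ _ h47 (by norm_num) (by norm_num) (by norm_num)

theorem q99 (h93 : D.b (120) 96 ≤ 33393 / 100000000) :
    D.b (240) 96 ≤ 11151 / 100000000000 :=
  s_bp 2 _ _ h93 (by norm_num) (by norm_num) (by norm_num)

theorem q105 (h99 : D.b (240) 96 ≤ 11151 / 100000000000) :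
    D.b (480) 96 ≤ 2487 / 200000000000000000 :=
  s_bp 2 _ _ h99 (by norm_num) (by norm_num) (by norm_num)

theorem q323 (h317 : D.f 96 ≤ 28691 / 500000000) (h105 : D.b (480) 96 ≤ 2487 / 200000000000000000) :
    D.z (480) 96 ≤ 1 + 3491 / 125000 :=
  s_fb _ h317 h105 (by norm_num) (by norm_num) (by norm_num) (by norm_num [ex])

theorem q327 (h323 : D.z (480) 96 ≤ 1 + 3491 / 125000) :
    D.c (480) 96 ≤ 3491 / 125000 :=
  (s_zc _ h323 (by norm_num) (by norm_num)).trans (by norm_num)

theorem q328 (h327 : D.c (480) 96 ≤ 3491 / 125000) :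
    D.c (480) 192 ≤ 38999 / 50000000 :=
  s_cp 2 _ _ h327 (by norm_num) (by norm_num) (by norm_num) (by norm_num) (by norm_num)

theorem q335 (h316 : D.ph (480) ≤ 30259 / 10000000000000) (h328 : D.c (480) 192 ≤ 38999 / 50000000) :
    D.z (480) 192 ≤ 1 + 78057 / 100000000 :=
  s_pc _ h316 h328 (by norm_num) (by norm_num) (by norm_num) (by norm_num [ex])

theorem q337 (h335 : D.z (480) 192 ≤ 1 + 78057 / 100000000) :
    D.f 192 ≤ 127 / 78125000 :=
  s_zf _ h335 (by norm_num) (by norm_num) (by norm_num [lg])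

theorem q183 (h47 : D.b (30) 96 ≤ 6759 / 50000) :
    D.b (60) 96 ≤ 9137 / 500000 :=
  s_bp 2 _ _ h47 (by norm_num) (by norm_num) (by norm_num)

theorem q319 (h317 : D.f 96 ≤ 28691 / 500000000) (h183 : D.b (60) 96 ≤ 9137 / 500000) :
    D.z (60) 96 ≤ 1 + 10893 / 500000 :=
  s_fb _ h317 h183 (by norm_num) (by norm_num) (by norm_num) (by norm_num [ex])

theorem q343 (h319 : D.z (60) 96 ≤ 1 + 10893 / 500000) :
    D.ph (60) ≤ 22451 / 100000000 :=
  s_zp _ h319 (by norm_num) (by norm_num) (by norm_num [lg])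

theorem q350 (h343 : D.ph (60) ≤ 22451 / 100000000) (h84 : D.c (60) 192 ≤ 5921 / 5000000000) :
    D.z (60) 192 ≤ 1 + 8811 / 200000 :=
  s_pc _ h343 h84 (by norm_num) (by norm_num) (by norm_num) (by norm_num [ex])

theorem q365 (h350 : D.z (60) 192 ≤ 1 + 8811 / 200000) :
    D.b (60) 192 ≤ 8811 / 200000 :=
  (s_zb _ h350 (by norm_num) (by norm_num)).trans (by norm_num)

theorem q373 (h365 : D.b (60) 192 ≤ 8811 / 200000) :
    D.b (120) 192 ≤ 19409 / 10000000 :=
  s_bp 2 _ _ h365 (by norm_num) (by norm_num) (by norm_num)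

theorem q389 (h337 : D.f 192 ≤ 127 / 78125000) (h373 : D.b (120) 192 ≤ 19409 / 10000000) :
    D.z (120) 192 ≤ 1 + 5341 / 2500000 :=
  s_fb _ h337 h373 (by norm_num) (by norm_num) (by norm_num) (by norm_num [ex])

theorem q403 (h389 : D.z (120) 192 ≤ 1 + 5341 / 2500000) :
    D.ph (120) ≤ 2779 / 250000000 :=
  s_zp _ h389 (by norm_num) (by norm_num) (by norm_num [lg])

theorem q411 (h403 : D.ph (120) ≤ 2779 / 250000000) (h245 : D.c (120) 96 ≤ 22511 / 5000000) :
    D.z (120) 96 ≤ 1 + 13937 / 2500000 :=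
  s_pc _ h403 h245 (by norm_num) (by norm_num) (by norm_num) (by norm_num [ex])

theorem q437 (h411 : D.z (120) 96 ≤ 1 + 13937 / 2500000) :
    D.f 96 ≤ 5791 / 125000000 :=
  s_zf _ h411 (by norm_num) (by norm_num) (by norm_num [lg])

theorem q486 (h437 : D.f 96 ≤ 5791 / 125000000) (h183 : D.b (60) 96 ≤ 9137 / 500000) :
    D.z (60) 96 ≤ 1 + 21109 / 1000000 :=
  s_fb _ h437 h183 (by norm_num) (by norm_num) (by norm_num) (by norm_num [ex])

theorem q490 (h486 : D.z (60) 96 ≤ 1 + 21109 / 1000000) :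
    D.ph (60) ≤ 17 / 78125 :=
  s_zp _ h486 (by norm_num) (by norm_num) (by norm_num [lg])

theorem q329 (h328 : D.c (480) 192 ≤ 38999 / 50000000) :
    D.c (480) 384 ≤ 60837 / 100000000000 :=
  s_cp 2 _ _ h328 (by norm_num) (by norm_num) (by norm_num) (by norm_num) (by norm_num)

theorem q336 (h316 : D.ph (480) ≤ 30259 / 10000000000000) (h329 : D.c (480) 384 ≤ 60837 / 100000000000) :
    D.z (480) 384 ≤ 1 + 2213 / 1250000000 :=
  s_pc _ h316 h329 (by norm_num) (by norm_num) (by norm_num) (by norm_num [ex])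

theorem q338 (h336 : D.z (480) 384 ≤ 1 + 2213 / 1250000000) :
    D.f 384 ≤ 9221 / 2500000000000 :=
  s_zf _ h336 (by norm_num) (by norm_num) (by norm_num [lg])

theorem q305 (h300 : D.ph (120) ≤ 24933 / 1000000000) (h247 : D.c (120) 384 ≤ 321 / 781250000000) :
    D.z (120) 384 ≤ 1 + 24051 / 2500000 :=
  s_pc _ h300 h247 (by norm_num) (by norm_num) (by norm_num) (by norm_num [ex])

theorem q340 (h305 : D.z (120) 384 ≤ 1 + 24051 / 2500000) :
    D.b (120) 384 ≤ 24051 / 2500000 :=
  (s_zb _ h305 (by norm_num) (by norm_num)).trans (by norm_num)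

theorem q341 (h340 : D.b (120) 384 ≤ 24051 / 2500000) :
    D.b (240) 384 ≤ 92553 / 1000000000 :=
  s_bp 2 _ _ h340 (by norm_num) (by norm_num) (by norm_num)

theorem q357 (h338 : D.f 384 ≤ 9221 / 2500000000000) (h341 : D.b (240) 384 ≤ 92553 / 1000000000) :
    D.z (240) 384 ≤ 1 + 93439 / 1000000000 :=
  s_fb _ h338 h341 (by norm_num) (by norm_num) (by norm_num) (by norm_num [ex])

theorem q384 (h357 : D.z (240) 384 ≤ 1 + 93439 / 1000000000) :
    D.ph (240) ≤ 6083 / 25000000000 :=
  s_zp _ h357 (by norm_num) (by norm_num) (by norm_num [lg])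

theorem q356 (h317 : D.f 96 ≤ 28691 / 500000000) (h99 : D.b (240) 96 ≤ 11151 / 100000000000) :
    D.z (240) 96 ≤ 1 + 3467 / 250000 :=
  s_fb _ h317 h99 (by norm_num) (by norm_num) (by norm_num) (by norm_num [ex])

theorem q371 (h356 : D.z (240) 96 ≤ 1 + 3467 / 250000) :
    D.c (240) 96 ≤ 3467 / 250000 :=
  (s_zc _ h356 (by norm_num) (by norm_num)).trans (by norm_num)

theorem q376 (h371 : D.c (240) 96 ≤ 3467 / 250000) :
    D.c (240) 192 ≤ 19233 / 100000000 :=
  s_cp 2 _ _ h371 (by norm_num) (by norm_num) (by norm_num) (by norm_num) (by norm_num)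

theorem q378 (h376 : D.c (240) 192 ≤ 19233 / 100000000) :
    D.c (240) 384 ≤ 36991 / 1000000000000 :=
  s_cp 2 _ _ h376 (by norm_num) (by norm_num) (by norm_num) (by norm_num) (by norm_num)

theorem q379 (h378 : D.c (240) 384 ≤ 36991 / 1000000000000) :
    D.c (240) 768 ≤ 3421 / 2500000000000000000 :=
  s_cp 2 _ _ h378 (by norm_num) (by norm_num) (by norm_num) (by norm_num) (by norm_num)

theorem q380 (h379 : D.c (240) 768 ≤ 3421 / 2500000000000000000) :
    D.c (240) 1536 ≤ 9363 / 5000000000000000000000000000000000 :=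
  s_cp 2 _ _ h379 (by norm_num) (by norm_num) (by norm_num) (by norm_num) (by norm_num)

theorem q394 (h384 : D.ph (240) ≤ 6083 / 25000000000) (h380 : D.c (240) 1536 ≤ 9363 / 5000000000000000000000000000000000) :
    D.z (240) 1536 ≤ 1 + 37381 / 100000000 :=
  s_pc _ h384 h380 (by norm_num) (by norm_num) (by norm_num) (by norm_num [ex])

theorem q400 (h394 : D.z (240) 1536 ≤ 1 + 37381 / 100000000) :
    D.b (240) 1536 ≤ 37381 / 100000000 :=
  (s_zb _ h394 (by norm_num) (by norm_num)).trans (by norm_num)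

theorem q402 (h400 : D.b (240) 1536 ≤ 37381 / 100000000) :
    D.b (480) 1536 ≤ 6987 / 50000000000 :=
  s_bp 2 _ _ h400 (by norm_num) (by norm_num) (by norm_num)

theorem q330 (h329 : D.c (480) 384 ≤ 60837 / 100000000000) :
    D.c (480) 768 ≤ 9253 / 25000000000000000 :=
  s_cp 2 _ _ h329 (by norm_num) (by norm_num) (by norm_num) (by norm_num) (by norm_num)

theorem q405 (h402 : D.b (480) 1536 ≤ 6987 / 50000000000) (h330 : D.c (480) 768 ≤ 9253 / 25000000000000000) :
    D.ph (480) ≤ 4549 / 25000000000000 :=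
  s_I2 _ h402 h330 (by norm_num) (by norm_num) (by norm_num) (by norm_num [lg])

theorem q418 (h405 : D.ph (480) ≤ 4549 / 25000000000000) (h329 : D.c (480) 384 ≤ 60837 / 100000000000) :
    D.z (480) 384 ≤ 1 + 2713 / 4000000000 :=
  s_pc _ h405 h329 (by norm_num) (by norm_num) (by norm_num) (by norm_num [ex])

theorem q438 (h418 : D.z (480) 384 ≤ 1 + 2713 / 4000000000) :
    D.f 384 ≤ 14131 / 10000000000000 :=
  s_zf _ h418 (by norm_num) (by norm_num) (by norm_num [lg])

theorem q412 (h403 : D.ph (120) ≤ 2779 / 250000000) (h247 : D.c (120) 384 ≤ 321 / 781250000000) :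
    D.z (120) 384 ≤ 1 + 42777 / 10000000 :=
  s_pc _ h403 h247 (by norm_num) (by norm_num) (by norm_num) (by norm_num [ex])

theorem q422 (h412 : D.z (120) 384 ≤ 1 + 42777 / 10000000) :
    D.b (120) 384 ≤ 42777 / 10000000 :=
  (s_zb _ h412 (by norm_num) (by norm_num)).trans (by norm_num)

theorem q428 (h422 : D.b (120) 384 ≤ 42777 / 10000000) :
    D.b (240) 384 ≤ 18299 / 1000000000 :=
  s_bp 2 _ _ h422 (by norm_num) (by norm_num) (by norm_num)

theorem q443 (h438 : D.f 384 ≤ 14131 / 10000000000000) (h428 : D.b (240) 384 ≤ 18299 / 1000000000) :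
    D.z (240) 384 ≤ 1 + 18639 / 1000000000 :=
  s_fb _ h438 h428 (by norm_num) (by norm_num) (by norm_num) (by norm_num [ex])

theorem q456 (h443 : D.z (240) 384 ≤ 1 + 18639 / 1000000000) :
    D.ph (240) ≤ 48539 / 1000000000000 :=
  s_zp _ h443 (by norm_num) (by norm_num) (by norm_num [lg])

theorem q442 (h437 : D.f 96 ≤ 5791 / 125000000) (h99 : D.b (240) 96 ≤ 11151 / 100000000000) :
    D.z (240) 96 ≤ 1 + 11181 / 1000000 :=
  s_fb _ h437 h99 (by norm_num) (by norm_num) (by norm_num) (by norm_num [ex])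

theorem q450 (h442 : D.z (240) 96 ≤ 1 + 11181 / 1000000) :
    D.c (240) 96 ≤ 11181 / 1000000 :=
  (s_zc _ h442 (by norm_num) (by norm_num)).trans (by norm_num)

theorem q452 (h450 : D.c (240) 96 ≤ 11181 / 1000000) :
    D.c (240) 192 ≤ 6251 / 50000000 :=
  s_cp 2 _ _ h450 (by norm_num) (by norm_num) (by norm_num) (by norm_num) (by norm_num)

theorem q460 (h456 : D.ph (240) ≤ 48539 / 1000000000000) (h452 : D.c (240) 192 ≤ 6251 / 50000000) :
    D.z (240) 192 ≤ 1 + 2687 / 20000000 :=
  s_pc _ h456 h452 (by norm_num) (by norm_num) (by norm_num) (by norm_num [ex])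

theorem q468 (h460 : D.z (240) 192 ≤ 1 + 2687 / 20000000) :
    D.f 192 ≤ 6997 / 12500000000 :=
  s_zf _ h460 (by norm_num) (by norm_num) (by norm_num [lg])

theorem q493 (h490 : D.ph (60) ≤ 17 / 78125) (h84 : D.c (60) 192 ≤ 5921 / 5000000000) :
    D.z (60) 192 ≤ 1 + 4267 / 100000 :=
  s_pc _ h490 h84 (by norm_num) (by norm_num) (by norm_num) (by norm_num [ex])

theorem q503 (h493 : D.z (60) 192 ≤ 1 + 4267 / 100000) :
    D.b (60) 192 ≤ 4267 / 100000 :=
  (s_zb _ h493 (by norm_num) (by norm_num)).trans (by norm_num)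

theorem q512 (h503 : D.b (60) 192 ≤ 4267 / 100000) :
    D.b (120) 192 ≤ 569 / 312500 :=
  s_bp 2 _ _ h503 (by norm_num) (by norm_num) (by norm_num)

theorem q521 (h468 : D.f 192 ≤ 6997 / 12500000000) (h512 : D.b (120) 192 ≤ 569 / 312500) :
    D.z (120) 192 ≤ 1 + 18881 / 10000000 :=
  s_fb _ h468 h512 (by norm_num) (by norm_num) (by norm_num) (by norm_num [ex])

theorem q534 (h521 : D.z (120) 192 ≤ 1 + 18881 / 10000000) :
    D.ph (120) ≤ 49123 / 5000000000 :=
  s_zp _ h521 (by norm_num) (by norm_num) (by norm_num [lg])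

theorem q346 (h8 : D.z (30) 24 ≤ 1 + 2201 / 20000) :
    D.f 24 ≤ 34813 / 10000000 :=
  s_zf _ h8 (by norm_num) (by norm_num) (by norm_num [lg])

theorem q538 (h534 : D.ph (120) ≤ 49123 / 5000000000) (h245 : D.c (120) 96 ≤ 22511 / 5000000) :
    D.z (120) 96 ≤ 1 + 54501 / 10000000 :=
  s_pc _ h534 h245 (by norm_num) (by norm_num) (by norm_num) (by norm_num [ex])

theorem q555 (h538 : D.z (120) 96 ≤ 1 + 54501 / 10000000) :
    D.f 96 ≤ 9059 / 200000000 :=
  s_zf _ h538 (by norm_num) (by norm_num) (by norm_num [lg])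

theorem q453 (h452 : D.c (240) 192 ≤ 6251 / 50000000) :
    D.c (240) 384 ≤ 15631 / 1000000000000 :=
  s_cp 2 _ _ h452 (by norm_num) (by norm_num) (by norm_num) (by norm_num) (by norm_num)

theorem q454 (h453 : D.c (240) 384 ≤ 15631 / 1000000000000) :
    D.c (240) 768 ≤ 24433 / 100000000000000000000 :=
  s_cp 2 _ _ h453 (by norm_num) (by norm_num) (by norm_num) (by norm_num) (by norm_num)

theorem q455 (h454 : D.c (240) 768 ≤ 24433 / 100000000000000000000) :
    D.c (240) 1536 ≤ 29849 / 500000000000000000000000000000000000 :=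
  s_cp 2 _ _ h454 (by norm_num) (by norm_num) (by norm_num) (by norm_num) (by norm_num)

theorem q462 (h456 : D.ph (240) ≤ 48539 / 1000000000000) (h455 : D.c (240) 1536 ≤ 29849 / 500000000000000000000000000000000000) :
    D.z (240) 1536 ≤ 1 + 74559 / 1000000000 :=
  s_pc _ h456 h455 (by norm_num) (by norm_num) (by norm_num) (by norm_num [ex])

theorem q464 (h462 : D.z (240) 1536 ≤ 1 + 74559 / 1000000000) :
    D.b (240) 1536 ≤ 74559 / 1000000000 :=
  (s_zb _ h462 (by norm_num) (by norm_num)).trans (by norm_num)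

theorem q466 (h464 : D.b (240) 1536 ≤ 74559 / 1000000000) :
    D.b (480) 1536 ≤ 55591 / 10000000000000 :=
  s_bp 2 _ _ h464 (by norm_num) (by norm_num) (by norm_num)

theorem q391 (h384 : D.ph (240) ≤ 6083 / 25000000000) (h376 : D.c (240) 192 ≤ 19233 / 100000000) :
    D.z (240) 192 ≤ 1 + 11953 / 50000000 :=
  s_pc _ h384 h376 (by norm_num) (by norm_num) (by norm_num) (by norm_num [ex])

theorem q406 (h391 : D.z (240) 192 ≤ 1 + 11953 / 50000000) :
    D.f 192 ≤ 99597 / 100000000000 :=
  s_zf _ h391 (by norm_num) (by norm_num) (by norm_num [lg])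

theorem q375 (h373 : D.b (120) 192 ≤ 19409 / 10000000) :
    D.b (240) 192 ≤ 37671 / 10000000000 :=
  s_bp 2 _ _ h373 (by norm_num) (by norm_num) (by norm_num)

theorem q381 (h375 : D.b (240) 192 ≤ 37671 / 10000000000) :
    D.b (480) 192 ≤ 887 / 62500000000000 :=
  s_bp 2 _ _ h375 (by norm_num) (by norm_num) (by norm_num)

theorem q417 (h406 : D.f 192 ≤ 99597 / 100000000000) (h381 : D.b (480) 192 ≤ 887 / 62500000000000) :
    D.z (480) 192 ≤ 1 + 23909 / 50000000 :=
  s_fb _ h406 h381 (by norm_num) (by norm_num) (by norm_num) (by norm_num [ex])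

theorem q427 (h417 : D.z (480) 192 ≤ 1 + 23909 / 50000000) :
    D.c (480) 192 ≤ 23909 / 50000000 :=
  (s_zc _ h417 (by norm_num) (by norm_num)).trans (by norm_num)

theorem q431 (h427 : D.c (480) 192 ≤ 23909 / 50000000) :
    D.c (480) 384 ≤ 11433 / 50000000000 :=
  s_cp 2 _ _ h427 (by norm_num) (by norm_num) (by norm_num) (by norm_num) (by norm_num)

theorem q433 (h431 : D.c (480) 384 ≤ 11433 / 50000000000) :
    D.c (480) 768 ≤ 26143 / 500000000000000000 :=
  s_cp 2 _ _ h431 (by norm_num) (by norm_num) (by norm_num) (by norm_num) (by norm_num)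

theorem q467 (h466 : D.b (480) 1536 ≤ 55591 / 10000000000000) (h433 : D.c (480) 768 ≤ 26143 / 500000000000000000) :
    D.ph (480) ≤ 14477 / 2000000000000000 :=
  s_I2 _ h466 h433 (by norm_num) (by norm_num) (by norm_num) (by norm_num [lg])

theorem q469 (h468 : D.f 192 ≤ 6997 / 12500000000) (h381 : D.b (480) 192 ≤ 887 / 62500000000000) :
    D.z (480) 192 ≤ 1 + 26873 / 100000000 :=
  s_fb _ h468 h381 (by norm_num) (by norm_num) (by norm_num) (by norm_num [ex])

theorem q474 (h469 : D.z (480) 192 ≤ 1 + 26873 / 100000000) :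
    D.c (480) 192 ≤ 26873 / 100000000 :=
  (s_zc _ h469 (by norm_num) (by norm_num)).trans (by norm_num)

theorem q475 (h474 : D.c (480) 192 ≤ 26873 / 100000000) :
    D.c (480) 384 ≤ 9027 / 125000000000 :=
  s_cp 2 _ _ h474 (by norm_num) (by norm_num) (by norm_num) (by norm_num) (by norm_num)

theorem q482 (h467 : D.ph (480) ≤ 14477 / 2000000000000000) (h475 : D.c (480) 384 ≤ 9027 / 125000000000) :
    D.z (480) 384 ≤ 1 + 18749 / 250000000000 :=
  s_pc _ h467 h475 (by norm_num) (by norm_num) (by norm_num) (by norm_num [ex])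

theorem q483 (h482 : D.z (480) 384 ≤ 1 + 18749 / 250000000000) :
    D.f 384 ≤ 1 / 6400000000 :=
  s_zf _ h482 (by norm_num) (by norm_num) (by norm_num [lg])

theorem q539 (h534 : D.ph (120) ≤ 49123 / 5000000000) (h247 : D.c (120) 384 ≤ 321 / 781250000000) :
    D.z (120) 384 ≤ 1 + 18899 / 5000000 :=
  s_pc _ h534 h247 (by norm_num) (by norm_num) (by norm_num) (by norm_num [ex])

theorem q545 (h539 : D.z (120) 384 ≤ 1 + 18899 / 5000000) :
    D.b (120) 384 ≤ 18899 / 5000000 :=
  (s_zb _ h539 (by norm_num) (by norm_num)).trans (by norm_num)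

theorem q550 (h545 : D.b (120) 384 ≤ 18899 / 5000000) :
    D.b (240) 384 ≤ 14287 / 1000000000 :=
  s_bp 2 _ _ h545 (by norm_num) (by norm_num) (by norm_num)

theorem q558 (h483 : D.f 384 ≤ 1 / 6400000000) (h550 : D.b (240) 384 ≤ 14287 / 1000000000) :
    D.z (240) 384 ≤ 1 + 573 / 40000000 :=
  s_fb _ h483 h550 (by norm_num) (by norm_num) (by norm_num) (by norm_num [ex])

theorem q574 (h558 : D.z (240) 384 ≤ 1 + 573 / 40000000) :
    D.ph (240) ≤ 7461 / 200000000000 :=
  s_zp _ h558 (by norm_num) (by norm_num) (by norm_num [lg])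

theorem q557 (h555 : D.f 96 ≤ 9059 / 200000000) (h99 : D.b (240) 96 ≤ 11151 / 100000000000) :
    D.z (240) 96 ≤ 1 + 10931 / 1000000 :=
  s_fb _ h555 h99 (by norm_num) (by norm_num) (by norm_num) (by norm_num [ex])

theorem q564 (h557 : D.z (240) 96 ≤ 1 + 10931 / 1000000) :
    D.c (240) 96 ≤ 10931 / 1000000 :=
  (s_zc _ h557 (by norm_num) (by norm_num)).trans (by norm_num)

theorem q567 (h564 : D.c (240) 96 ≤ 10931 / 1000000) :
    D.c (240) 192 ≤ 11949 / 100000000 :=
  s_cp 2 _ _ h564 (by norm_num) (by norm_num) (by norm_num) (by norm_num) (by norm_num)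

theorem q577 (h574 : D.ph (240) ≤ 7461 / 200000000000) (h567 : D.c (240) 192 ≤ 11949 / 100000000) :
    D.z (240) 192 ≤ 1 + 6333 / 50000000 :=
  s_pc _ h574 h567 (by norm_num) (by norm_num) (by norm_num) (by norm_num [ex])

theorem q586 (h577 : D.z (240) 192 ≤ 1 + 6333 / 50000000) :
    D.f 192 ≤ 13193 / 25000000000 :=
  s_zf _ h577 (by norm_num) (by norm_num) (by norm_num [lg])

theorem q568 (h567 : D.c (240) 192 ≤ 11949 / 100000000) :
    D.c (240) 384 ≤ 7139 / 500000000000 :=
  s_cp 2 _ _ h567 (by norm_num) (by norm_num) (by norm_num) (by norm_num) (by norm_num)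

theorem q569 (h568 : D.c (240) 384 ≤ 7139 / 500000000000) :
    D.c (240) 768 ≤ 20387 / 100000000000000000000 :=
  s_cp 2 _ _ h568 (by norm_num) (by norm_num) (by norm_num) (by norm_num) (by norm_num)

theorem q570 (h569 : D.c (240) 768 ≤ 20387 / 100000000000000000000) :
    D.c (240) 1536 ≤ 41563 / 1000000000000000000000000000000000000 :=
  s_cp 2 _ _ h569 (by norm_num) (by norm_num) (by norm_num) (by norm_num) (by norm_num)

theorem q579 (h574 : D.ph (240) ≤ 7461 / 200000000000) (h570 : D.c (240) 1536 ≤ 41563 / 1000000000000000000000000000000000000) :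
    D.z (240) 1536 ≤ 1 + 57303 / 1000000000 :=
  s_pc _ h574 h570 (by norm_num) (by norm_num) (by norm_num) (by norm_num [ex])

theorem q582 (h579 : D.z (240) 1536 ≤ 1 + 57303 / 1000000000) :
    D.b (240) 1536 ≤ 57303 / 1000000000 :=
  (s_zb _ h579 (by norm_num) (by norm_num)).trans (by norm_num)

theorem q584 (h582 : D.b (240) 1536 ≤ 57303 / 1000000000) :
    D.b (480) 1536 ≤ 32837 / 10000000000000 :=
  s_bp 2 _ _ h582 (by norm_num) (by norm_num) (by norm_num)

theorem q487 (h468 : D.f 192 ≤ 6997 / 12500000000) (h373 : D.b (120) 192 ≤ 19409 / 10000000) :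
    D.z (120) 192 ≤ 1 + 20083 / 10000000 :=
  s_fb _ h468 h373 (by norm_num) (by norm_num) (by norm_num) (by norm_num [ex])

theorem q491 (h487 : D.z (120) 192 ≤ 1 + 20083 / 10000000) :
    D.ph (120) ≤ 209 / 20000000 :=
  s_zp _ h487 (by norm_num) (by norm_num) (by norm_num [lg])

theorem q498 (h491 : D.ph (120) ≤ 209 / 20000000) (h247 : D.c (120) 384 ≤ 321 / 781250000000) :
    D.z (120) 384 ≤ 1 + 40209 / 10000000 :=
  s_pc _ h491 h247 (by norm_num) (by norm_num) (by norm_num) (by norm_num [ex])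

theorem q507 (h498 : D.z (120) 384 ≤ 1 + 40209 / 10000000) :
    D.b (120) 384 ≤ 40209 / 10000000 :=
  (s_zb _ h498 (by norm_num) (by norm_num)).trans (by norm_num)

theorem q514 (h507 : D.b (120) 384 ≤ 40209 / 10000000) :
    D.b (240) 384 ≤ 2021 / 125000000 :=
  s_bp 2 _ _ h507 (by norm_num) (by norm_num) (by norm_num)

theorem q523 (h483 : D.f 384 ≤ 1 / 6400000000) (h514 : D.b (240) 384 ≤ 2021 / 125000000) :
    D.z (240) 384 ≤ 1 + 8103 / 500000000 :=
  s_fb _ h483 h514 (by norm_num) (by norm_num) (by norm_num) (by norm_num [ex])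

theorem q535 (h523 : D.z (240) 384 ≤ 1 + 8103 / 500000000) :
    D.ph (240) ≤ 42203 / 1000000000000 :=
  s_zp _ h523 (by norm_num) (by norm_num) (by norm_num [lg])

theorem q497 (h491 : D.ph (120) ≤ 209 / 20000000) (h245 : D.c (120) 96 ≤ 22511 / 5000000) :
    D.z (120) 96 ≤ 1 + 11021 / 2000000 :=
  s_pc _ h491 h245 (by norm_num) (by norm_num) (by norm_num) (by norm_num [ex])

theorem q520 (h497 : D.z (120) 96 ≤ 1 + 11021 / 2000000) :
    D.f 96 ≤ 9159 / 200000000 :=
  s_zf _ h497 (by norm_num) (by norm_num) (by norm_num [lg])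

theorem q522 (h520 : D.f 96 ≤ 9159 / 200000000) (h99 : D.b (240) 96 ≤ 11151 / 100000000000) :
    D.z (240) 96 ≤ 1 + 2763 / 250000 :=
  s_fb _ h520 h99 (by norm_num) (by norm_num) (by norm_num) (by norm_num [ex])

theorem q528 (h522 : D.z (240) 96 ≤ 1 + 2763 / 250000) :
    D.c (240) 96 ≤ 2763 / 250000 :=
  (s_zc _ h522 (by norm_num) (by norm_num)).trans (by norm_num)

theorem q530 (h528 : D.c (240) 96 ≤ 2763 / 250000) :
    D.c (240) 192 ≤ 2443 / 20000000 :=
  s_cp 2 _ _ h528 (by norm_num) (by norm_num) (by norm_num) (by norm_num) (by norm_num)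

theorem q542 (h535 : D.ph (240) ≤ 42203 / 1000000000000) (h530 : D.c (240) 192 ≤ 2443 / 20000000) :
    D.z (240) 192 ≤ 1 + 6513 / 50000000 :=
  s_pc _ h535 h530 (by norm_num) (by norm_num) (by norm_num) (by norm_num [ex])

theorem q556 (h542 : D.z (240) 192 ≤ 1 + 6513 / 50000000) :
    D.f 192 ≤ 53 / 97656250 :=
  s_zf _ h542 (by norm_num) (by norm_num) (by norm_num [lg])

theorem q513 (h512 : D.b (120) 192 ≤ 569 / 312500) :
    D.b (240) 192 ≤ 16577 / 5000000000 :=
  s_bp 2 _ _ h512 (by norm_num) (by norm_num) (by norm_num)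

theorem q515 (h513 : D.b (240) 192 ≤ 16577 / 5000000000) :
    D.b (480) 192 ≤ 687 / 62500000000000 :=
  s_bp 2 _ _ h513 (by norm_num) (by norm_num) (by norm_num)

theorem q560 (h556 : D.f 192 ≤ 53 / 97656250) (h515 : D.b (480) 192 ≤ 687 / 62500000000000) :
    D.z (480) 192 ≤ 1 + 13027 / 50000000 :=
  s_fb _ h556 h515 (by norm_num) (by norm_num) (by norm_num) (by norm_num [ex])

theorem q566 (h560 : D.z (480) 192 ≤ 1 + 13027 / 50000000) :
    D.c (480) 192 ≤ 13027 / 50000000 :=
  (s_zc _ h560 (by norm_num) (by norm_num)).trans (by norm_num)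

theorem q571 (h566 : D.c (480) 192 ≤ 13027 / 50000000) :
    D.c (480) 384 ≤ 33941 / 500000000000 :=
  s_cp 2 _ _ h566 (by norm_num) (by norm_num) (by norm_num) (by norm_num) (by norm_num)

theorem q572 (h571 : D.c (480) 384 ≤ 33941 / 500000000000) :
    D.c (480) 768 ≤ 9 / 1953125000000000 :=
  s_cp 2 _ _ h571 (by norm_num) (by norm_num) (by norm_num) (by norm_num) (by norm_num)

theorem q585 (h584 : D.b (480) 1536 ≤ 32837 / 10000000000000) (h572 : D.c (480) 768 ≤ 9 / 1953125000000000) :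
    D.ph (480) ≤ 42757 / 10000000000000000 :=
  s_I2 _ h584 h572 (by norm_num) (by norm_num) (by norm_num) (by norm_num [lg])

theorem q588 (h586 : D.f 192 ≤ 13193 / 25000000000) (h515 : D.b (480) 192 ≤ 687 / 62500000000000) :
    D.z (480) 192 ≤ 1 + 12667 / 50000000 :=
  s_fb _ h586 h515 (by norm_num) (by norm_num) (by norm_num) (by norm_num [ex])

theorem q592 (h588 : D.z (480) 192 ≤ 1 + 12667 / 50000000) :
    D.c (480) 192 ≤ 12667 / 50000000 :=
  (s_zc _ h588 (by norm_num) (by norm_num)).trans (by norm_num)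

theorem q593 (h592 : D.c (480) 192 ≤ 12667 / 50000000) :
    D.c (480) 384 ≤ 32091 / 500000000000 :=
  s_cp 2 _ _ h592 (by norm_num) (by norm_num) (by norm_num) (by norm_num) (by norm_num)

theorem q598 (h585 : D.ph (480) ≤ 42757 / 10000000000000000) (h593 : D.c (480) 384 ≤ 32091 / 500000000000) :
    D.z (480) 384 ≤ 1 + 2057 / 31250000000 :=
  s_pc _ h585 h593 (by norm_num) (by norm_num) (by norm_num) (by norm_num [ex])

theorem q599 (h598 : D.z (480) 384 ≤ 1 + 2057 / 31250000000) :
    D.f 384 ≤ 6857 / 50000000000000 :=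
  s_zf _ h598 (by norm_num) (by norm_num) (by norm_num [lg])

theorem q551 (h550 : D.b (240) 384 ≤ 14287 / 1000000000) :
    D.b (480) 384 ≤ 5103 / 25000000000000 :=
  s_bp 2 _ _ h550 (by norm_num) (by norm_num) (by norm_num)

/-- the initial data of the certificate -/
structure Init (D : TwoChannel) : Prop where
  h17 : D.ph (15 / 2) ≤ 19237 / 1000000
  h4 : D.z (15) 24 ≤ 1 + 8221 / 50000
  h3 : D.z (15) 12 ≤ 1 + 12139 / 50000
  h19 : D.ph (30) ≤ 13183 / 10000000
  h8 : D.z (30) 24 ≤ 1 + 2201 / 20000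
  h20 : D.ph (60) ≤ 32931 / 100000000
  h12 : D.z (60) 48 ≤ 1 + 32987 / 1000000
  h14 : D.z (30) 48 ≤ 1 + 65321 / 1000000
  h16 : D.z (60) 192 ≤ 1 + 16317 / 250000
  h9 : D.z (30) 96 ≤ 1 + 6759 / 50000
  h22 : D.f 12 ≤ 13477 / 1000000

/-- the output of the certificate -/
structure Out (D : TwoChannel) : Prop where
  p15o2 : D.ph (15 / 2) ≤ 19237 / 1000000
  p15 : D.ph (15) ≤ 31747 / 5000000
  c15_12 : D.c (15) 12 ≤ 12139 / 50000
  p30 : D.ph (30) ≤ 13183 / 10000000
  c30_24 : D.c (30) 24 ≤ 2201 / 20000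
  p60 : D.ph (60) ≤ 17 / 78125
  c60_48 : D.c (60) 48 ≤ 32987 / 1000000
  p120 : D.ph (120) ≤ 49123 / 5000000000
  c120_96 : D.c (120) 96 ≤ 22511 / 5000000
  c120_192 : D.c (120) 192 ≤ 2027 / 100000000
  f12 : D.f 12 ≤ 13477 / 1000000
  f24 : D.f 24 ≤ 34813 / 10000000
  f48 : D.f 48 ≤ 13523 / 25000000
  f96 : D.f 96 ≤ 9059 / 200000000
  f192 : D.f 192 ≤ 13193 / 25000000000
  p240 : D.ph (240) ≤ 7461 / 200000000000
  b240_384 : D.b (240) 384 ≤ 14287 / 1000000000
  f384 : D.f 384 ≤ 6857 / 50000000000000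
  c240_384 : D.c (240) 384 ≤ 7139 / 500000000000
  p480 : D.ph (480) ≤ 42757 / 10000000000000000
  b480_384 : D.b (480) 384 ≤ 5103 / 25000000000000
  c480_384 : D.c (480) 384 ≤ 32091 / 500000000000

theorem out_of_init (h : Init D) : Out D := by
  have h17 := h.h17
  have h4 := h.h4
  have h3 := h.h3
  have h19 := h.h19
  have h8 := h.h8
  have h20 := h.h20
  have h12 := h.h12
  have h14 := h.h14
  have h16 := h.h16
  have h9 := h.h9
  have h22 := h.h22
  have h484 := q484 h4
  have h34 := q34 h3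
  have h44 := q44 h8
  have h56 := q56 h12
  have h83 := q83 h56
  have h84 := q84 h83
  have h85 := q85 h84
  have h116 := q116 h20 h85
  have h133 := q133 h116
  have h148 := q148 h133
  have h154 := q154 h148
  have h221 := q221 h12
  have h45 := q45 h14
  have h185 := q185 h45
  have h187 := q187 h185
  have h232 := q232 h221 h187
  have h241 := q241 h232
  have h250 := q250 h241
  have h251 := q251 h250
  have h260 := q260 h154 h251
  have h272 := q272 h260 h251
  have h287 := q287 h272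
  have h59 := q59 h16
  have h94 := q94 h59
  have h291 := q291 h287 h94
  have h300 := q300 h291
  have h226 := q226 h221 h185
  have h239 := q239 h226
  have h245 := q245 h239
  have h246 := q246 h245
  have h247 := q247 h246
  have h248 := q248 h247
  have h249 := q249 h248
  have h307 := q307 h300 h249
  have h310 := q310 h307
  have h312 := q312 h310
  have h314 := q314 h312
  have h100 := q100 h94
  have h106 := q106 h100
  have h292 := q292 h287 h106
  have h296 := q296 h292
  have h297 := q297 h296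
  have h298 := q298 h297
  have h316 := q316 h314 h298
  have h304 := q304 h300 h245
  have h317 := q317 h304
  have h47 := q47 h9
  have h93 := q93 h47
  have h99 := q99 h93
  have h105 := q105 h99
  have h323 := q323 h317 h105
  have h327 := q327 h323
  have h328 := q328 h327
  have h335 := q335 h316 h328
  have h337 := q337 h335
  have h183 := q183 h47
  have h319 := q319 h317 h183
  have h343 := q343 h319
  have h350 := q350 h343 h84
  have h365 := q365 h350
  have h373 := q373 h365
  have h389 := q389 h337 h373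
  have h403 := q403 h389
  have h411 := q411 h403 h245
  have h437 := q437 h411
  have h486 := q486 h437 h183
  have h490 := q490 h486
  have h329 := q329 h328
  have h336 := q336 h316 h329
  have h338 := q338 h336
  have h305 := q305 h300 h247
  have h340 := q340 h305
  have h341 := q341 h340
  have h357 := q357 h338 h341
  have h384 := q384 h357
  have h356 := q356 h317 h99
  have h371 := q371 h356
  have h376 := q376 h371
  have h378 := q378 h376
  have h379 := q379 h378
  have h380 := q380 h379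
  have h394 := q394 h384 h380
  have h400 := q400 h394
  have h402 := q402 h400
  have h330 := q330 h329
  have h405 := q405 h402 h330
  have h418 := q418 h405 h329
  have h438 := q438 h418
  have h412 := q412 h403 h247
  have h422 := q422 h412
  have h428 := q428 h422
  have h443 := q443 h438 h428
  have h456 := q456 h443
  have h442 := q442 h437 h99
  have h450 := q450 h442
  have h452 := q452 h450
  have h460 := q460 h456 h452
  have h468 := q468 h460
  have h493 := q493 h490 h84
  have h503 := q503 h493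
  have h512 := q512 h503
  have h521 := q521 h468 h512
  have h534 := q534 h521
  have h346 := q346 h8
  have h538 := q538 h534 h245
  have h555 := q555 h538
  have h453 := q453 h452
  have h454 := q454 h453
  have h455 := q455 h454
  have h462 := q462 h456 h455
  have h464 := q464 h462
  have h466 := q466 h464
  have h391 := q391 h384 h376
  have h406 := q406 h391
  have h375 := q375 h373
  have h381 := q381 h375
  have h417 := q417 h406 h381
  have h427 := q427 h417
  have h431 := q431 h427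
  have h433 := q433 h431
  have h467 := q467 h466 h433
  have h469 := q469 h468 h381
  have h474 := q474 h469
  have h475 := q475 h474
  have h482 := q482 h467 h475
  have h483 := q483 h482
  have h539 := q539 h534 h247
  have h545 := q545 h539
  have h550 := q550 h545
  have h558 := q558 h483 h550
  have h574 := q574 h558
  have h557 := q557 h555 h99
  have h564 := q564 h557
  have h567 := q567 h564
  have h577 := q577 h574 h567
  have h586 := q586 h577
  have h568 := q568 h567
  have h569 := q569 h568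
  have h570 := q570 h569
  have h579 := q579 h574 h570
  have h582 := q582 h579
  have h584 := q584 h582
  have h487 := q487 h468 h373
  have h491 := q491 h487
  have h498 := q498 h491 h247
  have h507 := q507 h498
  have h514 := q514 h507
  have h523 := q523 h483 h514
  have h535 := q535 h523
  have h497 := q497 h491 h245
  have h520 := q520 h497
  have h522 := q522 h520 h99
  have h528 := q528 h522
  have h530 := q530 h528
  have h542 := q542 h535 h530
  have h556 := q556 h542
  have h513 := q513 h512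
  have h515 := q515 h513
  have h560 := q560 h556 h515
  have h566 := q566 h560
  have h571 := q571 h566
  have h572 := q572 h571
  have h585 := q585 h584 h572
  have h588 := q588 h586 h515
  have h592 := q592 h588
  have h593 := q593 h592
  have h598 := q598 h585 h593
  have h599 := q599 h598
  have h551 := q551 h550
  exact ⟨h17, h484, h34, h19, h44, h490, h56, h534, h245, h246, h22, h346, h221, h555, h586, h574, h550, h599, h568, h585, h551, h593⟩

end TwoChannel

end Vale.Agent.P348
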