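import Vale.Agent.P348.Bdl.B3

/-! Scalar inequalities of a two-channel structure. -/

namespace Vale.Agent.P348

open Filter Finset

namespace TwoChannel

variable (D : TwoChannel)

/-- logarithm of the top eigenvalue of the space channel -/
noncomputable def ph (T : ℝ) : ℝ := Real.log (D.Lam T)

/-- the excited part in the space channel -/
noncomputable def c (T : ℝ) (k : ℕ) : ℝ := D.z T k * Real.exp (-(k * D.ph T)) - 1

/-- third-order upper bound of `log (1 + w)` -/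
noncomputable def lg (w : ℝ) : ℝ := w - w ^ 2 / 2 + w ^ 3 / 3

/-- third-order upper bound of `exp u` on `[0, 1]` -/
noncomputable def ex (u : ℝ) : ℝ := 1 + u + u ^ 2 / 2 + 2 / 9 * u ^ 3

lemma log_le_lg {w : ℝ} (hw : 0 ≤ w) : Real.log (1 + w) ≤ lg w := by
  -- the function `lg w - log (1+w)` is monotone: derivative `w ^ 3 / (1 + w) ≥ 0`
  have hmono : MonotoneOn (fun x : ℝ => lg x - Real.log (1 + x)) (Set.Ici 0) := by
    have hd : ∀ x ∈ interior (Set.Ici (0 : ℝ)),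
        HasDerivWithinAt (fun x : ℝ => lg x - Real.log (1 + x))
          (1 - x + x ^ 2 - 1 / (1 + x)) (interior (Set.Ici (0 : ℝ))) x := by
      intro x hx
      rw [interior_Ici, Set.mem_Ioi] at hx
      have h1 : HasDerivAt (fun x : ℝ => lg x) (1 - x + x ^ 2) x := by
        unfold lg
        have := ((hasDerivAt_id x).sub ((hasDerivAt_pow 2 x).div_const 2)).add
          ((hasDerivAt_pow 3 x).div_const 3)
        refine this.congr_deriv ?_
        norm_num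
        try ring
      have h2 : HasDerivAt (fun x : ℝ => Real.log (1 + x)) (1 / (1 + x)) x := by
        have h3 : HasDerivAt (fun x : ℝ => 1 + x) 1 x := by
          simpa using (hasDerivAt_id x).const_add 1
        exact h3.log (by positivity)
      exact (h1.sub h2).hasDerivWithinAt
    refine monotoneOn_of_hasDerivWithinAt_nonneg (convex_Ici 0) ?_ hd ?_
    · apply ContinuousOn.sub
      · unfold lg; fun_prop
      · apply ContinuousOn.log (by fun_prop)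
        intro x hx
        have : (0 : ℝ) ≤ x := hx
        positivity
    · intro x hx
      rw [interior_Ici, Set.mem_Ioi] at hx
      have : (1 - x + x ^ 2 - 1 / (1 + x)) = x ^ 3 / (1 + x) := by
        field_simp
        ring
      rw [this]
      positivity
  have h := hmono (Set.mem_Ici.2 le_rfl) (Set.mem_Ici.2 hw) hw
  simp only [lg, add_zero, Real.log_one] at h
  unfold lg
  norm_num at h
  linarith

lemma exp_le_ex {u : ℝ} (h0 : 0 ≤ u) (h1 : u ≤ 1) : Real.exp u ≤ ex u := by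
  have h := Real.exp_bound' h0 h1 (n := 3) (by norm_num)
  refine h.trans (le_of_eq ?_)
  simp only [Finset.sum_range_succ, Finset.sum_range_zero, ex, Nat.factorial]
  norm_num
  ring

lemma ex_mono {u v : ℝ} (h0 : 0 ≤ u) (h : u ≤ v) : ex u ≤ ex v := by
  unfold ex
  have h2 := pow_le_pow_left₀ h0 h 2
  have h3 := pow_le_pow_left₀ h0 h 3
  linarith

lemma lg_mono {u v : ℝ} (_h0 : 0 ≤ u) (h : u ≤ v) : lg u ≤ lg v := by
  unfold lg
  nlinarith [mul_nonneg (sub_nonneg.2 h) (sq_nonneg (u + v - 1)), mul_nonneg (sub_nonneg.2 h) (sq_nonneg (u - 1)),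
    mul_nonneg (sub_nonneg.2 h) (sq_nonneg (v - 1)),
    mul_nonneg (sub_nonneg.2 h) (sq_nonneg (u + v))]

lemma ph_nonneg {T : ℝ} (hT : 0 < T) : 0 ≤ D.ph T := Real.log_nonneg (D.one_le_Lam hT)

lemma exp_ph {T : ℝ} (hT : 0 < T) (k : ℕ) : Real.exp (k * D.ph T) = D.Lam T ^ k := by
  have h := D.one_le_Lam hT
  unfold ph
  rw [← Real.log_pow, Real.exp_log (by positivity)]

lemma z_eq_c (T : ℝ) (k : ℕ) : D.z T k = Real.exp (k * D.ph T) * (1 + D.c T k) := by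
  unfold c
  have : Real.exp (k * D.ph T) * (1 + (D.z T k * Real.exp (-(k * D.ph T)) - 1))
      = D.z T k * (Real.exp (k * D.ph T) * Real.exp (-(k * D.ph T))) := by ring
  rw [this, ← Real.exp_add]; simp

lemma c_nonneg {T : ℝ} (hT : 0 < T) {k : ℕ} (hk : 1 ≤ k) : 0 ≤ D.c T k := by
  have h := D.Lam_pow_le hT hk
  rw [← D.exp_ph hT, z_eq_c] at h
  have h2 : Real.exp (k * D.ph T) * 1 ≤ Real.exp (k * D.ph T) * (1 + D.c T k) := by linarith
  have := le_of_mul_le_mul_left h2 (Real.exp_pos _)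
  linarith

lemma ph_anti {T S : ℝ} (hT : 0 < T) (h : T ≤ S) : D.ph S ≤ D.ph T :=
  Real.log_le_log (lt_of_lt_of_le one_pos (D.one_le_Lam (hT.trans_le h))) (D.Lam_anti hT h)

lemma f_anti' {j k : ℕ} (hj : 1 ≤ j) (h : j ≤ k) : D.f k ≤ D.f j := by
  obtain ⟨i, rfl⟩ : ∃ i, k = i + j := ⟨k - j, by omega⟩
  exact D.f_anti hj

lemma c_anti {T : ℝ} (hT : 0 < T) {j k : ℕ} (hj : 1 ≤ j) (h : j ≤ k) : D.c T k ≤ D.c T j := by
  obtain ⟨i, rfl⟩ : ∃ i, k = i + j := ⟨k - j, by omega⟩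
  have h1 := (D.Lam_spec hT).2.2 i j hj
  unfold c
  rw [← D.exp_ph hT] at h1
  have h2 := mul_le_mul_of_nonneg_right h1 (Real.exp_pos (-(((i + j : ℕ) : ℝ) * D.ph T))).le
  have h3 : Real.exp (i * D.ph T) * D.z T j * Real.exp (-(((i + j : ℕ) : ℝ) * D.ph T)) =
      D.z T j * Real.exp (-(j * D.ph T)) := by
    rw [mul_comm (Real.exp (i * D.ph T)), mul_assoc, ← Real.exp_add]
    congr 2; push_cast; ring
  linarith

lemma b_anti {T S : ℝ} (h : T ≤ S) (k : ℕ) : D.b S k ≤ D.b T k := by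
  obtain ⟨s, _, hb⟩ := D.exists_b_sum k
  rw [hb, hb]
  refine Finset.sum_le_sum fun i _ => Real.exp_le_exp.2 ?_
  have := mul_le_mul_of_nonneg_right h (sub_nonneg.2 (D.E0_le k i))
  linarith

lemma b_mul_le (T : ℝ) (k : ℕ) {m : ℕ} (hm : 1 ≤ m) : D.b (m * T) k ≤ D.b T k ^ m := by
  obtain ⟨s, _, hb⟩ := D.exists_b_sum k
  rw [hb, hb]
  have h2 : ∀ i, Real.exp (-(m * T * (D.E k i - D.E0 k)))
      = Real.exp (-(T * (D.E k i - D.E0 k))) ^ m := by
    intro i; rw [← Real.exp_nat_mul]; congr 1; ring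
  simp_rw [h2]
  have h3 := sum_pow_mul_le (ι := s) (x := fun i => Real.exp (-(T * (D.E k i - D.E0 k))))
    (fun i => (Real.exp_pos _).le) 1 m hm
  simp only [mul_one, pow_one] at h3
  rw [Finset.sum_coe_sort s (fun i => Real.exp (-(T * (D.E k i - D.E0 k))) ^ m),
    Finset.sum_coe_sort s (fun i => Real.exp (-(T * (D.E k i - D.E0 k))))] at h3
  exact h3

lemma c_mul_le {T : ℝ} (hT : 0 < T) {k : ℕ} (hk : 1 ≤ k) {m : ℕ} (hm : 1 ≤ m) :
    D.c T (m * k) ≤ D.c T k ^ m := by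
  have h1 := (D.Lam_spec hT).2.1.mul_le (m := m) hk hm
  rw [← D.exp_ph hT, ← D.exp_ph hT] at h1
  have e1 : D.z T (m * k) - Real.exp ((m * k : ℕ) * D.ph T) =
      Real.exp ((m * k : ℕ) * D.ph T) * D.c T (m * k) := by rw [z_eq_c]; ring
  have e2 : D.z T k - Real.exp (k * D.ph T) = Real.exp (k * D.ph T) * D.c T k := by
    rw [z_eq_c]; ring
  rw [e1, e2, mul_pow, ← Real.exp_nat_mul] at h1
  have e3 : (m : ℝ) * (k * D.ph T) = (m * k : ℕ) * D.ph T := by push_cast; ring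
  rw [e3] at h1
  exact le_of_mul_le_mul_left h1 (Real.exp_pos _)

lemma log_z_b {T : ℝ} {k : ℕ} : Real.log (D.z T k) = T * D.f k + Real.log (1 + D.b T k) := by
  have := D.b_nonneg T k
  rw [z_eq, Real.log_mul (Real.exp_pos _).ne' (by positivity), Real.log_exp]

lemma log_z_c {T : ℝ} (hT : 0 < T) {k : ℕ} (hk : 1 ≤ k) :
    Real.log (D.z T k) = k * D.ph T + Real.log (1 + D.c T k) := by
  have := D.c_nonneg hT hk
  rw [z_eq_c, Real.log_mul (Real.exp_pos _).ne' (by positivity), Real.log_exp]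

/-- comparison of two times at one length -/
lemma f_le_I1 {T S : ℝ} (hT : 0 < T) (h : T ≤ S) {k : ℕ} (hk : 1 ≤ k) :
    (S - T) * D.f k ≤ Real.log (1 + D.b T k) + Real.log (1 + D.c S k) := by
  have hS := hT.trans_le h
  have h1 := D.log_z_b (T := S) (k := k)
  have h2 := D.log_z_c hS hk
  have h3 := D.log_z_b (T := T) (k := k)
  have h4 := D.log_z_c hT hk
  have h5 : (k : ℝ) * D.ph S ≤ k * D.ph T :=
    mul_le_mul_of_nonneg_left (D.ph_anti hT h) (Nat.cast_nonneg _)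
  have h6 : 0 ≤ Real.log (1 + D.b S k) := Real.log_nonneg (by have := D.b_nonneg S k; linarith)
  have h7 : 0 ≤ Real.log (1 + D.c T k) := Real.log_nonneg (by have := D.c_nonneg hT hk; linarith)
  nlinarith

/-- comparison of two lengths at one time -/
lemma ph_le_I2 {T : ℝ} (hT : 0 < T) {j k : ℕ} (hj : 1 ≤ j) (h : j ≤ k) :
    ((k : ℝ) - j) * D.ph T ≤ Real.log (1 + D.b T k) + Real.log (1 + D.c T j) := by
  have hk : 1 ≤ k := hj.trans h
  have h1 := D.log_z_b (T := T) (k := k)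
  have h2 := D.log_z_c hT hk
  have h3 := D.log_z_b (T := T) (k := j)
  have h4 := D.log_z_c hT hj
  have h5 : T * D.f k ≤ T * D.f j := mul_le_mul_of_nonneg_left (D.f_anti' hj h) hT.le
  have h6 : 0 ≤ Real.log (1 + D.b T j) := Real.log_nonneg (by have := D.b_nonneg T j; linarith)
  have h7 : 0 ≤ Real.log (1 + D.c T k) := Real.log_nonneg (by have := D.c_nonneg hT hk; linarith)
  nlinarith

/-! ### steps of the numerical certificate -/

section steps

variable {D}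

lemma s_phm {T : ℝ} (S : ℝ) {p : ℝ} (h : D.ph T ≤ p) (hT : 0 < T) (hS : T ≤ S) : D.ph S ≤ p :=
  (D.ph_anti hT hS).trans h

lemma s_fm {j : ℕ} (k : ℕ) {q : ℝ} (h : D.f j ≤ q) (hj : 1 ≤ j) (hk : j ≤ k) : D.f k ≤ q :=
  (D.f_anti' hj hk).trans h

lemma s_bm {T : ℝ} (S : ℝ) {k : ℕ} {q : ℝ} (h : D.b T k ≤ q) (hS : T ≤ S) : D.b S k ≤ q :=
  (D.b_anti hS k).trans h

lemma s_cm {T : ℝ} {j : ℕ} (k : ℕ) {q : ℝ} (h : D.c T j ≤ q) (hT : 0 < T) (hj : 1 ≤ j)
    (hk : j ≤ k) : D.c T k ≤ q := (D.c_anti hT hj hk).trans h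

lemma s_zb {T : ℝ} {k : ℕ} (w : ℝ) (h : D.z T k ≤ 1 + w) (hT : 0 < T) (hk : 1 ≤ k) :
    D.b T k ≤ w := by
  have := D.b_le T hT.le hk; linarith

lemma s_zc {T : ℝ} {k : ℕ} (w : ℝ) (h : D.z T k ≤ 1 + w) (hT : 0 < T) (hk : 1 ≤ k) :
    D.c T k ≤ w := by
  have h1 := D.z_eq_c T k
  have h2 : 1 ≤ Real.exp (k * D.ph T) :=
    Real.one_le_exp (mul_nonneg (Nat.cast_nonneg _) (D.ph_nonneg hT))
  have h3 := D.c_nonneg hT hk
  nlinarith

lemma s_zf {T : ℝ} {k : ℕ} {w : ℝ} (q : ℝ) (h : D.z T k ≤ 1 + w) (hT : 0 < T) (hk : 1 ≤ k)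
    (hq : lg w ≤ T * q) : D.f k ≤ q := by
  have h0 := D.one_le_z hT.le hk
  have h1 := D.log_z_b (T := T) (k := k)
  have h2 : Real.log (D.z T k) ≤ Real.log (1 + w) := Real.log_le_log (by linarith) h
  have h3 := log_le_lg (w := w) (by linarith)
  have h6 : 0 ≤ Real.log (1 + D.b T k) := Real.log_nonneg (by have := D.b_nonneg T k; linarith)
  exact le_of_mul_le_mul_left (by linarith) hT

lemma s_zp {T : ℝ} {k : ℕ} {w : ℝ} (q : ℝ) (h : D.z T k ≤ 1 + w) (hT : 0 < T) (hk : 1 ≤ k)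
    (hq : lg w ≤ k * q) : D.ph T ≤ q := by
  have h0 := D.one_le_z hT.le hk
  have h1 := D.log_z_c hT hk
  have h2 : Real.log (D.z T k) ≤ Real.log (1 + w) := Real.log_le_log (by linarith) h
  have h3 := log_le_lg (w := w) (by linarith)
  have h6 : 0 ≤ Real.log (1 + D.c T k) := Real.log_nonneg (by have := D.c_nonneg hT hk; linarith)
  have hk' : (0 : ℝ) < k := by exact_mod_cast hk
  exact le_of_mul_le_mul_left (by linarith) hk'

lemma s_fb {T : ℝ} {k : ℕ} {q β : ℝ} (w : ℝ) (hf : D.f k ≤ q) (hb : D.b T k ≤ β) (hT : 0 < T)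
    (hk : 1 ≤ k) (hq : T * q ≤ 1) (hw : ex (T * q) * (1 + β) ≤ 1 + w) : D.z T k ≤ 1 + w := by
  have h0 := D.f_nonneg hk
  have h1 := D.b_nonneg T k
  have h2 : T * D.f k ≤ T * q := mul_le_mul_of_nonneg_left hf hT.le
  have h3 : Real.exp (T * D.f k) ≤ ex (T * q) :=
    (Real.exp_le_exp.2 h2).trans (exp_le_ex ((mul_nonneg hT.le h0).trans h2) hq)
  rw [z_eq]
  exact (mul_le_mul h3 (by linarith) (by linarith) ((Real.exp_pos _).le.trans h3)).trans hw

lemma s_pc {T : ℝ} {k : ℕ} {q β : ℝ} (w : ℝ) (hf : D.ph T ≤ q) (hb : D.c T k ≤ β) (hT : 0 < T)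
    (hk : 1 ≤ k) (hq : k * q ≤ 1) (hw : ex (k * q) * (1 + β) ≤ 1 + w) : D.z T k ≤ 1 + w := by
  have h0 := D.ph_nonneg hT
  have h1 := D.c_nonneg hT hk
  have h2 : (k : ℝ) * D.ph T ≤ k * q := mul_le_mul_of_nonneg_left hf (Nat.cast_nonneg _)
  have h3 : Real.exp (k * D.ph T) ≤ ex (k * q) :=
    (Real.exp_le_exp.2 h2).trans (exp_le_ex ((mul_nonneg (Nat.cast_nonneg _) h0).trans h2) hq)
  rw [z_eq_c]
  exact (mul_le_mul h3 (by linarith) (by linarith) ((Real.exp_pos _).le.trans h3)).trans hw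

lemma s_bp {T : ℝ} {k : ℕ} {β : ℝ} (m : ℕ) (S β' : ℝ) (h : D.b T k ≤ β) (hm : 1 ≤ m)
    (hS : m * T = S) (hβ : β ^ m ≤ β') : D.b S k ≤ β' := by
  rw [← hS]
  exact ((D.b_mul_le T k hm).trans (pow_le_pow_left₀ (D.b_nonneg T k) h m)).trans hβ

lemma s_cp {T : ℝ} {k : ℕ} {β : ℝ} (m K : ℕ) (β' : ℝ) (h : D.c T k ≤ β) (hT : 0 < T)
    (hk : 1 ≤ k) (hm : 1 ≤ m) (hK : m * k = K) (hβ : β ^ m ≤ β') : D.c T K ≤ β' := by
  rw [← hK]
  exact ((D.c_mul_le hT hk hm).trans (pow_le_pow_left₀ (D.c_nonneg hT hk) h m)).trans hβ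

lemma s_I1 {T S : ℝ} {k : ℕ} {β γ : ℝ} (q : ℝ) (hb : D.b T k ≤ β) (hc : D.c S k ≤ γ) (hT : 0 < T)
    (hS : T < S) (hk : 1 ≤ k) (hq : lg β + lg γ ≤ (S - T) * q) : D.f k ≤ q := by
  have h1 := D.f_le_I1 hT hS.le hk
  have h2 := (log_le_lg (D.b_nonneg T k)).trans (lg_mono (D.b_nonneg T k) hb)
  have h3 := (log_le_lg (D.c_nonneg (hT.trans hS) hk)).trans
    (lg_mono (D.c_nonneg (hT.trans hS) hk) hc)
  exact le_of_mul_le_mul_left (by linarith) (sub_pos.2 hS)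

lemma s_I2 {T : ℝ} {j k : ℕ} {β γ : ℝ} (q : ℝ) (hb : D.b T k ≤ β) (hc : D.c T j ≤ γ) (hT : 0 < T)
    (hj : 1 ≤ j) (hk : j < k) (hq : lg β + lg γ ≤ ((k : ℝ) - j) * q) : D.ph T ≤ q := by
  have h1 := D.ph_le_I2 hT hj hk.le
  have h2 := (log_le_lg (D.b_nonneg T k)).trans (lg_mono (D.b_nonneg T k) hb)
  have h3 := (log_le_lg (D.c_nonneg hT hj)).trans (lg_mono (D.c_nonneg hT hj) hc)
  have h4 : (0 : ℝ) < (k : ℝ) - j := by
    have : (j : ℝ) < k := by exact_mod_cast hk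
    linarith
  exact le_of_mul_le_mul_left (by linarith) h4

end steps

end TwoChannel

end Vale.Agent.P348
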