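import Vale.Agent.P348.H997.Uniq

/-! The statements about the rings. -/

namespace Vale.Agent.P348

open Matrix Finset Filter

noncomputable section

lemma DD_gap {l : ℕ} (hl : 6 ≤ l) (i : DD.ι l) (hi : DD.E l i ≠ DD.E0 l) :
    DD.E0 l + 1 / 25 ≤ DD.E l i := by
  obtain ⟨S, hS, hb, _⟩ := DD_b' hl
  exact TwoChannel.gap_of_b hS hb i hi

/-- `E0` of the channel is the ground energy of the ring -/
lemma DD_E0 (m : ℕ) : DD.E0 (m + 1) = E0 (Lk (m + 1)) := by
  have hE := energies_eq (Lk (m + 1)) (two_le_Lk _)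
  have h1 : IsLeast (energies (Lk (m + 1))) (E0 (Lk (m + 1))) := by
    have hfin : (energies (Lk (m + 1))).Finite := by rw [hE]; exact Set.finite_range _
    have hne : (energies (Lk (m + 1))).Nonempty := by rw [hE]; exact Set.range_nonempty _
    exact ⟨hne.csInf_mem hfin, fun x hx => csInf_le hfin.bddBelow hx⟩
  obtain ⟨i, hi⟩ := DD.exists_E0 (m + 1)
  apply le_antisymm
  · obtain ⟨j, hj⟩ := (Set.ext_iff.1 hE _).1 h1.1
    have := DD.E0_le (m + 1) j
    calc DD.E0 (m + 1) ≤ DD.E (m + 1) j := this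
      _ = E0 (Lk (m + 1)) := hj
  · have : DD.E (m + 1) i ∈ energies (Lk (m + 1)) := by
      rw [hE]; exact ⟨i, rfl⟩
    rw [← hi]
    exact h1.2 this

/-- an even length is `Lk (m + 1)` -/
lemma even_Lk {L : ℕ} (hev : Even L) (hL : 2 ≤ L) : ∃ m, L = Lk (m + 1) ∧ L = 2 * (m + 1) := by
  obtain ⟨k, hk⟩ := hev
  exact ⟨k - 1, by unfold Lk; omega, by omega⟩

theorem gap_ge_25 (L : ℕ) [NeZero L] (hev : Even L) (hL : 12 ≤ L) : 1 / 25 ≤ gap L :=
  (gap_ge_of (hps := fun _ hT => PS_zF hT.le) (γ := 1 / 25) (k₀ := 6)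
    (fun _ hk i hi => DD_gap hk i hi) L hev (by omega) (by omega)).2.2

theorem Delta1_ge_25 : ((1 / 25 : ℝ) : EReal) ≤ Delta1 := by
  unfold Delta1
  refine Filter.le_liminf_of_le (by isBoundedDefault) ?_
  filter_upwards [Filter.eventually_ge_atTop 4] with m hm
  exact EReal.coe_le_coe_iff.2 (gap_ge_25 (2 * m + 4) ⟨m + 2, by ring⟩ (by omega))

/-- the ground state is unique and a spin singlet -/
theorem ground_unique (L : ℕ) [NeZero L] (hev : Even L) (hL : 12 ≤ L) :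
    ∃ ψ : (Fin L → Fin 3) → ℂ, ψ ≠ 0 ∧ (haldaneH L).mulVec ψ = (E0 L : ℂ) • ψ ∧
      (∀ φ : (Fin L → Fin 3) → ℂ, (haldaneH L).mulVec φ = (E0 L : ℂ) • φ → ∃ c : ℂ, φ = c • ψ) ∧
      ∀ a : Fin 3, (totalSpin L a).mulVec ψ = 0 := by
  obtain ⟨m, rfl, hm⟩ := even_Lk hev (by omega)
  have hm6 : 6 ≤ m + 1 := by omega
  obtain ⟨S, hS, _, hb⟩ := DD_b' hm6
  obtain ⟨i₀, hi₀⟩ := DD.exists_E0 (m + 1)
  have hu : ∀ i, (ringH_isHermitian (Lk (m + 1)) u1).eigenvalues i =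
      (ringH_isHermitian (Lk (m + 1)) u1).eigenvalues i₀ → i = i₀ := by
    intro i hi
    exact TwoChannel.unique_of_b (D := DD) hb (i := i) (j := i₀) (hi.trans hi₀) hi₀
  obtain ⟨v, hv0, hv1, hv2⟩ := simple_of_unique _ (ringH_isHermitian (Lk (m + 1)) u1) i₀ hu
  have he : (ringH_isHermitian (Lk (m + 1)) u1).eigenvalues i₀ = E0 (Lk (m + 1)) := by
    rw [← DD_E0]; exact hi₀
  rw [he] at hv1 hv2
  set TW := tensC (fun _ : Fin (Lk (m + 1)) => W) with hTW
  set TW' := tensC (fun _ : Fin (Lk (m + 1)) => W') with hTW'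
  have hH := haldaneH_conj (Lk (m + 1)) (by omega)
  rw [← hTW, ← hTW'] at hH
  have c1 : TW * TW' = 1 := TW_mul _
  have c2 : TW' * TW = 1 := TW_mul' _
  have hE : (haldaneH (Lk (m + 1))).mulVec (TW'.mulVec v) =
      (E0 (Lk (m + 1)) : ℂ) • TW'.mulVec v := by
    rw [hH, Matrix.mulVec_mulVec, Matrix.mul_assoc, c1, Matrix.mul_one, ← Matrix.mulVec_mulVec]
    unfold AC
    rw [hv1, Matrix.mulVec_smul]
  have hψ0 : TW'.mulVec v ≠ 0 := by
    intro h0
    apply hv0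
    have : TW.mulVec (TW'.mulVec v) = v := by rw [Matrix.mulVec_mulVec, c1, Matrix.one_mulVec]
    rw [← this, h0, Matrix.mulVec_zero]
  have hun : ∀ φ : (Fin (Lk (m + 1)) → Fin 3) → ℂ,
      (haldaneH (Lk (m + 1))).mulVec φ = (E0 (Lk (m + 1)) : ℂ) • φ →
        ∃ c : ℂ, φ = c • TW'.mulVec v := by
    intro φ hφ
    have h1 : (AC (Lk (m + 1))).mulVec (TW.mulVec φ) = (E0 (Lk (m + 1)) : ℂ) • TW.mulVec φ := by
      have h2 := congrArg (fun w => TW.mulVec w) hφ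
      rw [hH, Matrix.mulVec_mulVec, ← Matrix.mul_assoc, ← Matrix.mul_assoc, c1, Matrix.one_mul,
        Matrix.mulVec_smul] at h2
      rw [Matrix.mulVec_mulVec]
      exact h2
    obtain ⟨c, hc⟩ := hv2 _ h1
    refine ⟨c, ?_⟩
    have h3 : φ = TW'.mulVec (TW.mulVec φ) := by
      rw [Matrix.mulVec_mulVec, c2, Matrix.one_mulVec]
    rw [h3, hc, Matrix.mulVec_smul]
  exact ⟨_, hψ0, hE, hun, fun a => singlet_of_simple _ (by omega) hψ0 hE hun a⟩

/-- exponentially small finite-size corrections -/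
theorem energy_corr (L : ℕ) [NeZero L] (hev : Even L) (hL : 12 ≤ L) :
    0 ≤ DD.e0 / 2 * L - E0 L ∧ DD.e0 / 2 * L - E0 L ≤ Real.exp (-(L / 54)) := by
  obtain ⟨m, rfl, hm⟩ := even_Lk hev (by omega)
  have hm6 : 6 ≤ m + 1 := by omega
  have h1 := DD_f' hm6
  have h2 := DD.f_nonneg (show 1 ≤ m + 1 by omega)
  have hR : ((Lk (m + 1) : ℕ) : ℝ) = 2 * ((m : ℝ) + 1) := by
    have := congrArg (fun n : ℕ => (n : ℝ)) hm
    push_cast at this ⊢
    linarith
  have h3 : DD.e0 / 2 * (Lk (m + 1) : ℕ) - E0 (Lk (m + 1)) = DD.f (m + 1) := by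
    unfold TwoChannel.f
    rw [DD_E0, hR]
    push_cast
    ring
  have h4 : -(((Lk (m + 1) : ℕ) : ℝ) / 54) = -(1 / 27 * ((m + 1 : ℕ) : ℝ)) := by
    rw [hR]; push_cast; ring
  rw [h3, h4]
  exact ⟨h2, h1⟩

/-- the pressure -/
theorem pressure {β : ℝ} (hβ : 15 / 2 ≤ β) :
    ∃ p : ℝ, Tendsto (fun m : ℕ => Real.log (partitionFn (2 * m + 4) β).re / (2 * m + 4)) atTop
      (nhds p) ∧ 0 ≤ p + β * (DD.e0 / 2) ∧ p + β * (DD.e0 / 2) ≤ Real.exp (-(β / 25)) := by
  have hβ0 : 0 < β := by linarith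
  have hph := DD_ph hβ
  have hph0 := DD.ph_nonneg hβ0
  refine ⟨DD.ph β / 2 - β * (DD.e0 / 2), ?_, by linarith, ?_⟩
  · -- `log z / k → ph`
    have hz : ∀ k, 1 ≤ k → Real.log (DD.z β k) = k * DD.ph β + Real.log (1 + DD.c β k) :=
      fun k hk => DD.log_z_c hβ0 hk
    have hlim : Tendsto (fun k : ℕ => Real.log (1 + DD.c β (k + 1)) / ((k + 1 : ℕ) : ℝ)) atTop
        (nhds 0) := by
      have hup : Tendsto (fun k : ℕ => DD.c β 1 / ((k + 1 : ℕ) : ℝ)) atTop (nhds 0) :=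
        (tendsto_const_div_atTop_nhds_zero_nat (DD.c β 1)).comp (tendsto_add_atTop_nat 1)
      refine squeeze_zero (fun k => ?_) (fun k => ?_) hup
      · have := DD.c_nonneg hβ0 (show 1 ≤ k + 1 by omega)
        exact div_nonneg (Real.log_nonneg (by linarith)) (Nat.cast_nonneg _)
      · refine div_le_div_of_nonneg_right ?_ (Nat.cast_nonneg _)
        exact (TwoChannel.log_one_add_le (DD.c_nonneg hβ0 (show 1 ≤ k + 1 by omega))).trans
          (DD.c_anti hβ0 le_rfl (by omega))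
    have hlim2 := (hlim.comp (tendsto_add_atTop_nat 1)).const_add (DD.ph β)
    rw [add_zero] at hlim2
    have hlim3 := (hlim2.div_const 2).sub_const (β * (DD.e0 / 2))
    refine hlim3.congr fun m => ?_
    have hL : (2 : ℕ) * m + 4 = Lk (m + 2) := by unfold Lk; omega
    have h1 : (partitionFn (2 * m + 4) β).re = DD.Z β (m + 2) := by
      have h2 := partitionFn_eq (2 * m + 4) (by omega) β
      rw [h2, Complex.ofReal_re]
      rfl
    rw [h1]
    have h3 : DD.Z β (m + 2) = DD.z β (m + 2) * Real.exp (-(β * ((m + 2 : ℕ) * DD.e0))) := by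
      unfold TwoChannel.z
      rw [mul_assoc, ← Real.exp_add, add_neg_cancel, Real.exp_zero, mul_one]
    have hzp := DD.z_pos β (m + 2)
    rw [h3, Real.log_mul hzp.ne' (Real.exp_pos _).ne', Real.log_exp, hz _ (by omega)]
    have hm0 : ((m : ℝ) + 2) ≠ 0 := by positivity
    simp only [Function.comp]
    push_cast
    have e1 : (m : ℝ) + 1 + 1 = m + 2 := by ring
    have e2 : (2 * (m : ℝ) + 4) = 2 * (m + 2) := by ring
    rw [e1, e2]
    field_simp
    ring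
  · have : -(β / 25) = -(1 / 25 * β) := by ring
    rw [this]
    have := Real.exp_pos (-(1 / 25 * β))
    linarith

end

end Vale.Agent.P348
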