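import Vale.Agent.P348.H997.Fin

/-! Scalar bounds at long times, for the correlation functions. -/

namespace Vale.Agent.P348

open Filter Finset

open TwoChannel

theorem Su.c_le_of' {D : TwoChannel} {T Q : ℝ} {k : ℕ} (h : D.Su T k Q) {S : ℝ} (h1 : T ≤ S)
    (h2 : S ≤ 2 * T) : D.c S k ≤ 206 / 100 * Q := by
  have hQ0 := h.Q_nonneg
  have hQ := h.hQ
  have hT := h.hT
  have hk := h.hk
  have hS : 0 < S := hT.trans_le h1
  have h3 : D.b S k ≤ Q / 20 := (D.b_anti h1 k).trans (by linarith [h.hb])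
  have h4 : S * D.f k ≤ 2 * Q := by
    have h5 := mul_le_mul_of_nonneg_right h2 (D.f_nonneg hk)
    linarith [h.hf]
  have h5 : D.z S k ≤ 1 + 206 / 100 * Q := by
    rw [z_eq]
    have h6 : Real.exp (S * D.f k) ≤ ex (2 * Q) :=
      (Real.exp_le_exp.2 h4).trans (exp_le_ex (by linarith) (by linarith))
    have h7 := D.b_nonneg S k
    refine (mul_le_mul h6 (show 1 + D.b S k ≤ 1 + Q / 20 by linarith) (by linarith)
      ((Real.exp_pos _).le.trans h6)).trans ?_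
    have e2 : Q ^ 2 ≤ Q / 10000 := by nlinarith
    have e3 : Q ^ 3 ≤ Q / 10000 := by nlinarith [mul_nonneg hQ0 hQ0]
    have e4 : Q ^ 4 ≤ Q / 10000 := by
      nlinarith [mul_nonneg hQ0 hQ0, mul_nonneg (mul_nonneg hQ0 hQ0) hQ0]
    unfold ex
    nlinarith
  exact s_zc _ h5 hS hk

/-- the excited part in the time channel -/
theorem DD_b_exp {k : ℕ} (hk : 384 ≤ k) {T : ℝ} (hT : 5 / 8 * k ≤ T) :
    DD.b T k ≤ Real.exp (-(1 / 25 * T)) := by
  obtain ⟨n, hn1, hn2, hb⟩ := St_base.exists_b_le hk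
  have hS0 : (0 : ℝ) < 2 ^ n * 240 := by positivity
  have hS : (2 : ℝ) ^ n * 240 ≤ T := by
    have : ((2 ^ n * 384 : ℕ) : ℝ) ≤ k := by exact_mod_cast hn1
    push_cast at this
    linarith
  have h1 : (9 / 2 * (14326 / 1000000000 : ℝ)) ^ (2 ^ n) ≤
      Real.exp (-(1 / 25 * 240)) ^ (2 ^ n) := pow_le_pow_left₀ (by norm_num) q_P _
  have h2 : Real.exp (-(1 / 25 * 240)) ^ (2 ^ n) = Real.exp (-(1 / 25 * (2 ^ n * 240))) := by
    rw [← Real.exp_nat_mul]; congr 1; push_cast; ring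
  have h3 : DD.b (2 ^ n * 240) k ≤ Real.exp (-(1 / 25 * (2 ^ n * 240))) := by
    rw [← h2]
    have h4 : 0 ≤ (9 / 2 * (14326 / 1000000000 : ℝ)) ^ (2 ^ n) := by positivity
    linarith
  refine (DD.b_le_rpow hS0 hS k).trans ?_
  refine (Real.rpow_le_rpow (DD.b_nonneg _ _) h3 (div_nonneg (hS0.trans_le hS).le hS0.le)).trans
    (le_of_eq ?_)
  rw [← Real.exp_mul]
  congr 1
  field_simp

theorem q_Q' : 9 / 2 * (6583 / 100000000000 : ℝ) ≤ Real.exp (-(1 / 26 * (384 : ℕ))) := by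
  have := le_exp_neg_of (w := 9 / 2 * (6583 / 100000000000)) (by norm_num) (a := 192) (b := 13)
    (by norm_num) (by norm_num)
  refine this.trans (le_of_eq ?_)
  congr 1; norm_num

/-- the excited part in the space channel -/
theorem DD_c_exp {T : ℝ} (hT : 480 ≤ T) :
    ∃ m : ℕ, 1 ≤ m ∧ DD.c T m ≤ Real.exp (-(1 / 26 * m)) := by
  have hx : 1 ≤ T / 480 := by rw [le_div_iff₀ (by norm_num), one_mul]; exact hT
  obtain ⟨n, hn1, hn2⟩ := exists_nat_pow_near hx (by norm_num : (1 : ℝ) < 2)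
  rw [le_div_iff₀ (by norm_num)] at hn1
  rw [div_lt_iff₀ (by norm_num)] at hn2
  have h1 := Su_base.iter n
  have h2 := Su.c_le_of' h1 hn1 (by rw [pow_succ] at hn2; linarith)
  refine ⟨2 ^ n * 384, h1.hk, h2.trans ?_⟩
  have h3 : (9 / 2 * (6583 / 100000000000 : ℝ)) ^ (2 ^ n) ≤
      Real.exp (-(1 / 26 * (384 : ℕ))) ^ (2 ^ n) := pow_le_pow_left₀ (by norm_num) q_Q' _
  have h4 : Real.exp (-(1 / 26 * (384 : ℕ))) ^ (2 ^ n) =
      Real.exp (-(1 / 26 * ((2 ^ n * 384 : ℕ) : ℝ))) := by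
    rw [← Real.exp_nat_mul]; congr 1; push_cast; ring
  rw [h4] at h3
  have h5 : 0 ≤ (9 / 2 * (6583 / 100000000000 : ℝ)) ^ (2 ^ n) := by positivity
  linarith

/-- bounded partition functions -/
theorem DD_z_le {j : ℕ} (hj : 384 ≤ j) {T M : ℝ} (h1 : 5 / 8 * j ≤ T) (h2 : T ≤ M * j) :
    DD.z T j ≤ 2 * Real.exp (27 * M) := by
  have hj0 : (384 : ℝ) ≤ j := by exact_mod_cast hj
  have hT0 : 0 < T := by linarith
  have hM : 0 ≤ M := by
    by_contra h
    push Not at h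
    nlinarith
  have hb : DD.b T j ≤ 1 := by
    refine (DD_b_exp hj h1).trans ?_
    rw [Real.exp_le_one_iff]
    linarith
  have hf := DD_f (l := j) (by omega)
  have hf0 := DD.f_nonneg (show 1 ≤ j by omega)
  have h3 : T * DD.f j ≤ 27 * M := by
    have h4 : T * DD.f j ≤ M * j * Real.exp (-(1 / 27 * j)) :=
      mul_le_mul h2 hf hf0 (by positivity)
    have h5 : (1 / 27 * (j : ℝ)) * Real.exp (-(1 / 27 * j)) ≤ 1 := by
      have h6 := Real.add_one_le_exp (1 / 27 * (j : ℝ))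
      have h7 := Real.exp_pos (-(1 / 27 * (j : ℝ)))
      have h8 : Real.exp (1 / 27 * (j : ℝ)) * Real.exp (-(1 / 27 * j)) = 1 := by
        rw [← Real.exp_add, add_neg_cancel, Real.exp_zero]
      nlinarith
    nlinarith
  rw [z_eq]
  have h6 := Real.exp_le_exp.2 h3
  have h7 := DD.b_nonneg T j
  have h8 := Real.exp_pos (T * DD.f j)
  nlinarith

end Vale.Agent.P348
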