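import Vale.Agent.P348.H997.Lim
import Vale.Agent.P348.H997.Num
import Vale.Agent.P348.H997.Main

/-! Decay of the ground-state correlations: the real symmetric form. -/

namespace Vale.Agent.P348

open Matrix Finset Filter

noncomputable section

/-- the orthonormal eigenvectors of the ring -/
def vcol (L : ℕ) [NeZero L] (i : Fin L → Fin 3) : (Fin L → Fin 3) → ℝ :=
  fun s => ((ringH_isHermitian L u1).eigenvectorUnitary : Matrix _ _ ℝ) s i

lemma vcol_norm (L : ℕ) [NeZero L] (i : Fin L → Fin 3) : vcol L i ⬝ᵥ vcol L i = 1 :=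
  eigvec_norm _ (ringH_isHermitian L u1) i

section
variable {L : ℕ} [NeZero L] {m : ℕ}

lemma sum_exp_eq (hL : L = Lk (m + 1)) (T : ℝ) :
    ∑ i, Real.exp (-(T * (ringH_isHermitian L u1).eigenvalues i)) =
      Real.exp (-(T * E0 L)) * (1 + DD.b T (m + 1)) := by
  subst hL
  have h1 : DD.Z T (m + 1) = Real.exp (-(T * DD.E0 (m + 1))) * (1 + DD.b T (m + 1)) := by
    unfold TwoChannel.b TwoChannel.z TwoChannel.f
    rw [add_sub_cancel, mul_assoc, ← Real.exp_add, mul_left_comm, ← Real.exp_add]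
    have : -(T * DD.E0 (m + 1)) + (T * (((m + 1 : ℕ) : ℝ) * DD.e0) +
        -(T * (((m + 1 : ℕ) : ℝ) * DD.e0 - DD.E0 (m + 1)))) = 0 := by ring
    rw [this, Real.exp_zero, mul_one]
  rw [← DD_E0, ← h1]
  rfl

lemma ground_index (hL : L = Lk (m + 1)) (hm : 6 ≤ m + 1) :
    ∃ i₀, (ringH_isHermitian L u1).eigenvalues i₀ = E0 L ∧
      ∀ i, (ringH_isHermitian L u1).eigenvalues i =
        (ringH_isHermitian L u1).eigenvalues i₀ → i = i₀ := by
  subst hL
  obtain ⟨S, hS, _, hb⟩ := DD_b' hm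
  obtain ⟨i₀, hi₀⟩ := DD.exists_E0 (m + 1)
  refine ⟨i₀, ?_, fun i hi => ?_⟩
  · rw [← DD_E0]; exact hi₀
  · exact TwoChannel.unique_of_b (D := DD) hb (i := i) (j := i₀) (hi.trans hi₀) hi₀

/-- the ground-state expectation against the thermal one -/
lemma ground_le (hL : L = Lk (m + 1)) {i₀ : Fin L → Fin 3}
    (h0 : (ringH_isHermitian L u1).eigenvalues i₀ = E0 L)
    {X : Matrix (Fin L → Fin 3) (Fin L → Fin 3) ℝ} (hX : ∀ v, |v ⬝ᵥ X.mulVec v| ≤ v ⬝ᵥ v)
    (T : ℝ) :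
    |vcol L i₀ ⬝ᵥ X.mulVec (vcol L i₀)| ≤
      |(X * NormedSpace.exp ((-T) • ringH L u1)).trace| * Real.exp (T * E0 L) +
        DD.b T (m + 1) := by
  have h1 := trace_exp_expand _ (ringH_isHermitian L u1) X T
  have h2 := sum_exp_eq hL T
  set lam := (ringH_isHermitian L u1).eigenvalues with hlam
  have h3 : (X * NormedSpace.exp ((-T) • ringH L u1)).trace =
      ∑ i, (vcol L i ⬝ᵥ X.mulVec (vcol L i)) * Real.exp (-(T * lam i)) := h1
  rw [← Finset.add_sum_erase _ _ (Finset.mem_univ i₀), h0] at h3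
  rw [← Finset.add_sum_erase _ _ (Finset.mem_univ i₀), h0] at h2
  have h4 : |∑ i ∈ univ.erase i₀, (vcol L i ⬝ᵥ X.mulVec (vcol L i)) * Real.exp (-(T * lam i))| ≤
      ∑ i ∈ univ.erase i₀, Real.exp (-(T * lam i)) := by
    refine (Finset.abs_sum_le_sum_abs _ _).trans (Finset.sum_le_sum fun i _ => ?_)
    rw [abs_mul, abs_of_pos (Real.exp_pos _)]
    have h5 := hX (vcol L i)
    rw [vcol_norm] at h5
    have := mul_le_mul_of_nonneg_right h5 (Real.exp_pos (-(T * lam i))).le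
    linarith
  set t := (X * NormedSpace.exp ((-T) • ringH L u1)).trace
  set x := vcol L i₀ ⬝ᵥ X.mulVec (vcol L i₀)
  set e := Real.exp (-(T * E0 L)) with he
  have he0 : 0 < e := Real.exp_pos _
  have h6 : |x| * e ≤ |t| + e * DD.b T (m + 1) := by
    have h7 : x * e = t - ∑ i ∈ univ.erase i₀, (vcol L i ⬝ᵥ X.mulVec (vcol L i)) *
        Real.exp (-(T * lam i)) := by linarith
    have h8 : |x| * e = |x * e| := by rw [abs_mul, abs_of_pos he0]
    rw [h8, h7]
    refine (abs_sub _ _).trans ?_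
    linarith
  have h9 : e * Real.exp (T * E0 L) = 1 := by
    rw [he, ← Real.exp_add, neg_add_cancel, Real.exp_zero]
  have h10 := mul_le_mul_of_nonneg_right h6 (Real.exp_pos (T * E0 L)).le
  calc |x| = |x| * (e * Real.exp (T * E0 L)) := by rw [h9, mul_one]
    _ = |x| * e * Real.exp (T * E0 L) := by ring
    _ ≤ (|t| + e * DD.b T (m + 1)) * Real.exp (T * E0 L) := h10
    _ = |t| * Real.exp (T * E0 L) + (e * Real.exp (T * E0 L)) * DD.b T (m + 1) := by ring
    _ = _ := by rw [h9, one_mul]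

end

/-- the constant -/
def Cc : ℝ := 13 * Real.exp (27 * 69)

/-- long rings -/
theorem corr_large {n m : ℕ} (hL : n + 1 = Lk (m + 1)) (hm : 20736 ≤ m + 1)
    {i₀ : Fin (n + 1) → Fin 3} (h0 : (ringH_isHermitian (n + 1) u1).eigenvalues i₀ = E0 (n + 1))
    {i j : Fin (n + 1)} (hij : i < j) (a : Fin 3) {d : ℕ}
    (hd : d = min ((j : ℕ) - i) (n + 1 - ((j : ℕ) - i))) :
    |vcol (n + 1) i₀ ⬝ᵥ (tens (U2 i j (J a))).mulVec (vcol (n + 1) i₀)| ≤
      Cc * Real.exp (-((d : ℝ) / 54)) := by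
  have hL2 : n + 1 = 2 * (m + 1) := by rw [hL]; unfold Lk; omega
  have hij' : (i : ℕ) < j := hij
  have hjn : (j : ℕ) < n + 1 := j.isLt
  set k := m + 1 with hk
  have hdk : d ≤ k := by omega
  have hd1 : 1 ≤ d := by omega
  have hn : 1 ≤ n := by omega
  have hCe : 1 ≤ Real.exp (27 * 69) := Real.one_le_exp (by norm_num)
  have hquad := U2_quad i j a (vcol (n + 1) i₀)
  rw [vcol_norm] at hquad
  by_cases hd2 : d = 1
  · subst hd2
    refine hquad.trans ?_
    have : (1 : ℝ) / 2 ≤ Real.exp (-(((1 : ℕ) : ℝ) / 54)) := by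
      have := Real.add_one_le_exp (-(((1 : ℕ) : ℝ) / 54))
      push_cast at this ⊢
      linarith
    unfold Cc
    have h1 := mul_le_mul hCe this (by norm_num) (Real.exp_pos _).le
    linarith
  have hd3 : 2 ≤ d := by omega
  have hkr : (20736 : ℝ) ≤ k := by exact_mod_cast hm
  have hdr : (d : ℝ) ≤ k := by exact_mod_cast hdk
  set T : ℝ := 5 / 4 * k with hT
  have hT480 : 480 ≤ T := by rw [hT]; linarith
  have hT0 : 0 < T := by linarith
  set c := k / 54 with hc
  have hc1 : 384 ≤ c := by omega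
  have hc2 : 54 * c ≤ k := by omega
  have hc3 : k < 54 * (c + 1) := by omega
  have hc2r : 54 * (c : ℝ) ≤ k := by exact_mod_cast hc2
  have hc3r : (k : ℝ) < 54 * (c + 1) := by exact_mod_cast hc3
  obtain ⟨m₁, hm₁, hcm⟩ := DD_c_exp hT480
  set ρ : ℝ := Real.exp (-(1 / 52)) with hρ
  have hρ0 : 0 < ρ := Real.exp_pos _
  have hρ2 : ∀ x : ℕ, ρ ^ x = Real.exp (-((x : ℝ) / 52)) := by
    intro x
    rw [hρ, ← Real.exp_nat_mul]
    congr 1; ring
  have hcρ : 2 / 3 * DD.c T m₁ ≤ ρ ^ (2 * m₁) := by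
    have h1 := DD.c_nonneg hT0 hm₁
    have h2 : ρ ^ (2 * m₁) = Real.exp (-(1 / 26 * m₁)) := by
      rw [hρ2]; congr 1; push_cast; ring
    rw [h2]
    linarith
  have hpq : (d - 1 = (j : ℕ) - i - 1 ∧ 2 * k - d - 1 = n + i - j) ∨
      (2 * k - d - 1 = (j : ℕ) - i - 1 ∧ d - 1 = n + i - j) := by omega
  have hG := Gf_bound hT0 hn hij a hρ0 hm₁ hcρ (j₁ := c) (j₂ := c) (by omega) (by omega)
    hpq (by omega) (by omega) (by omega)
  -- the partition function of the shorter ring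
  have hz : 1 + DD.c T c ≤ 2 * Real.exp (27 * 69) := by
    have h1 := DD_z_le (j := c) hc1 (T := T) (M := 69) (by rw [hT]; linarith)
      (by rw [hT]; linarith)
    have h2 := DD.c_nonneg hT0 (show 1 ≤ c by omega)
    have h3 := DD.z_eq_c T c
    have h4 : 1 ≤ Real.exp (c * DD.ph T) :=
      Real.one_le_exp (mul_nonneg (Nat.cast_nonneg _) (DD.ph_nonneg hT0))
    nlinarith only [h1, h2, h3, h4]
  have hz0 : 0 ≤ 1 + DD.c T c := by
    have := DD.c_nonneg hT0 (show 1 ≤ c by omega); linarith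
  have hb := DD_b_exp (k := k) (by omega) (T := T) (by rw [hT]; linarith)
  have hb0 := DD.b_nonneg T k
  have hb1 : DD.b T k ≤ Real.exp (-((d : ℝ) / 54)) := by
    refine hb.trans (Real.exp_le_exp.2 ?_)
    rw [hT]; linarith
  have hb2 : DD.b T k ≤ 1 := hb.trans (by rw [Real.exp_le_one_iff]; linarith)
  -- normalisation
  have hnorm : gt T ^ (n + 1) * Real.exp (T * E0 (n + 1)) ≤ 2 := by
    have h1 := sum_exp_eq hL T
    rw [← zF_eq_sum, zF_cast hL, zF_gt] at h1
    have h2 := DD.c_nonneg hT0 (show 1 ≤ m + 1 by omega)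
    have h3 : gt T ^ (n + 1) ≤ Real.exp (-(T * E0 (n + 1))) * (1 + DD.b T (m + 1)) := by
      rw [← h1, hL2]
      have := pow_pos (gt_pos T) (2 * (m + 1))
      nlinarith only [this, h2]
    have h4 := mul_le_mul_of_nonneg_right h3 (Real.exp_pos (T * E0 (n + 1))).le
    have h5 : Real.exp (-(T * E0 (n + 1))) * Real.exp (T * E0 (n + 1)) = 1 := by
      rw [← Real.exp_add, neg_add_cancel, Real.exp_zero]
    calc _ ≤ _ := h4
      _ = (Real.exp (-(T * E0 (n + 1))) * Real.exp (T * E0 (n + 1))) *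
          (1 + DD.b T (m + 1)) := by ring
      _ ≤ 2 := by rw [h5, one_mul]; linarith
  -- the rates
  have hr1 : ρ ^ (d - 1) ≤ 2 * Real.exp (-((d : ℝ) / 54)) := by
    rw [hρ2]
    have h1 : ((d - 1 : ℕ) : ℝ) = d - 1 := by rw [Nat.cast_sub hd1, Nat.cast_one]
    rw [h1]
    have h2 : Real.exp (-(((d : ℝ) - 1) / 52)) = Real.exp (1 / 52) * Real.exp (-((d : ℝ) / 52)) := by
      rw [← Real.exp_add]; congr 1; ring
    have h3 : Real.exp (1 / 52) ≤ 2 := by
      have h4 := Real.exp_one_lt_d9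
      have h5 : Real.exp (1 / 52 : ℝ) ^ 2 ≤ Real.exp 1 := by
        rw [← Real.exp_nat_mul]
        exact Real.exp_le_exp.2 (by norm_num)
      nlinarith only [Real.exp_pos (1 / 52 : ℝ), h4, h5]
    have h6 : Real.exp (-((d : ℝ) / 52)) ≤ Real.exp (-((d : ℝ) / 54)) := by
      refine Real.exp_le_exp.2 (neg_le_neg ?_)
      have : (0 : ℝ) ≤ d := Nat.cast_nonneg _
      linarith
    rw [h2]
    exact mul_le_mul h3 h6 (Real.exp_pos _).le (by norm_num)
  have hr2 : ρ ^ (2 * k - d - 1 - (2 * c - 2)) ≤ Real.exp (-((d : ℝ) / 54)) := by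
    rw [hρ2]
    refine Real.exp_le_exp.2 (neg_le_neg ?_)
    have h1 : k - 2 * c ≤ 2 * k - d - 1 - (2 * c - 2) := by omega
    have h2 : ((k - 2 * c : ℕ) : ℝ) ≤ ((2 * k - d - 1 - (2 * c - 2) : ℕ) : ℝ) := by
      exact_mod_cast h1
    rw [Nat.cast_sub (by omega)] at h2
    push_cast at h2
    linarith
  have hmain := ground_le hL h0 (X := tens (U2 i j (J a))) (fun v => U2_quad i j a v) T
  rw [← exp_XR hn] at hmain
  have hG2 : |Gf n i j a T| * Real.exp (T * E0 (n + 1)) ≤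
      2 * ((ρ ^ (d - 1) + ρ ^ (2 * k - d - 1 - (2 * c - 2))) * (1 + DD.c T c)) := by
    have h1 := mul_le_mul_of_nonneg_right hG (Real.exp_pos (T * E0 (n + 1))).le
    refine h1.trans ?_
    have h2 : 0 ≤ (ρ ^ (d - 1) + ρ ^ (2 * k - d - 1 - (2 * c - 2))) * (1 + DD.c T c) := by
      positivity
    have h3 := mul_le_mul_of_nonneg_right hnorm h2
    refine le_trans (le_of_eq ?_) h3
    ring
  have he := Real.exp_pos (-((d : ℝ) / 54))
  have hG3 : |Gf n i j a T| * Real.exp (T * E0 (n + 1)) ≤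
      2 * ((3 * Real.exp (-((d : ℝ) / 54))) * (2 * Real.exp (27 * 69))) := by
    refine hG2.trans (mul_le_mul_of_nonneg_left ?_ (by norm_num))
    exact mul_le_mul (by linarith) hz hz0 (by positivity)
  have hG4 : |(tens (U2 i j (J a)) * NormedSpace.exp (T • XR n 1)).trace| = |Gf n i j a T| := rfl
  rw [hG4] at hmain
  refine hmain.trans ?_
  unfold Cc
  nlinarith only [hG3, hb1, he, hCe, mul_le_mul_of_nonneg_right hCe he.le]

end

end Vale.Agent.P348
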