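import Vale.Agent.P348.Bdl.B3

/-! The crossed channel with operators inserted at single sites. -/

namespace Vale.Agent.P348

open Matrix Finset Filter Topology

noncomputable section

section paths
variable {W : Type*} [Fintype W] [DecidableEq W]

theorem path_sum' (n : ℕ) (M : Fin n → Matrix W W ℝ) (f : W → W → ℝ) :
    ∑ O : Fin (n + 1) → W, (∏ i : Fin n, M i (O i.castSucc) (O i.succ)) * f (O 0) (O (Fin.last n)) =
      ∑ x, ∑ y, (List.ofFn M).prod x y * f x y := by
  induction n generalizing f with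
  | zero =>
    simp only [Finset.univ_eq_empty, Finset.prod_empty, one_mul, List.ofFn_zero, List.prod_nil,
      Matrix.one_apply]
    rw [← (Equiv.funUnique (Fin 1) W).symm.sum_comp]
    simp
  | succ n ih =>
    rw [← (Fin.consEquiv (fun _ : Fin (n + 2) => W)).sum_comp, Fintype.sum_prod_type]
    have : ∀ x : W, ∑ O : Fin (n + 1) → W,
        (∏ i : Fin (n + 1), M i ((Fin.cons x O : Fin (n + 2) → W) i.castSucc)
          ((Fin.cons x O : Fin (n + 2) → W) i.succ)) *
          f ((Fin.cons x O : Fin (n + 2) → W) 0) ((Fin.cons x O : Fin (n + 2) → W) (Fin.last (n + 1)))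
        = ∑ y, ∑ z, (List.ofFn (fun i : Fin n => M i.succ)).prod y z * (M 0 x y * f x z) := by
      intro x
      rw [← ih (fun i => M i.succ) (fun y z => M 0 x y * f x z)]
      refine Finset.sum_congr rfl (fun O _ => ?_)
      rw [Fin.prod_univ_succ]
      have h1 : (Fin.cons x O : Fin (n + 2) → W) (Fin.last (n + 1)) = O (Fin.last n) := by
        rw [← Fin.succ_last, Fin.cons_succ]
      rw [h1]
      simp only [Fin.castSucc_zero, Fin.cons_zero, Fin.cons_succ, ← Fin.succ_castSucc]
      ring
    refine (Finset.sum_congr rfl (fun x _ => this x)).trans ?_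
    refine Finset.sum_congr rfl (fun x _ => ?_)
    rw [Finset.sum_comm]
    refine Finset.sum_congr rfl (fun z _ => ?_)
    rw [List.ofFn_succ, List.prod_cons, Matrix.mul_apply, Finset.sum_mul]
    refine Finset.sum_congr rfl (fun y _ => ?_)
    ring

end paths

/-- crossed channel identity with a matrix `U x` at every site `x` (no space twist) -/
theorem ring_cross_site (n N : ℕ) (t : ℝ) (U : Fin (n + 1) → Matrix (Fin 3) (Fin 3) ℝ) :
    (tens U * (Aring n t 1) ^ N).trace =
      ((List.ofFn (fun i : Fin n => Kr N t (U i.succ))).prod * Kr N t (U 0)).trace := by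
  unfold Aring
  rw [sum_tens_pow, Finset.mul_sum, Matrix.trace_sum]
  have h1 : ∀ g : Fin N → RW n × RW n,
      (tens U * ((∏ j, ∏ i, Rh (tw n 1 i) ((g j).1 i) ((g j).2 i)) •
        tens (fun x => (List.ofFn (fun j => slot t ((g j).2 (x - 1)) ((g j).1 x))).prod))).trace =
      (∏ i, Vc N (tw n 1 i) ((wordEquiv2 n N g).1 i) ((wordEquiv2 n N g).2 i)) *
       ∏ x, Kr N t (U x) ((wordEquiv2 n N g).2 (x - 1)) ((wordEquiv2 n N g).1 x) := by
    intro g
    rw [mul_smul_comm, tens_mul, Matrix.trace_smul, trace_tens, smul_eq_mul]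
    congr 1
    simp only [Vc, wordEquiv2, Equiv.coe_fn_mk]
    rw [Finset.prod_comm]
  rw [Finset.sum_congr rfl (fun g _ => h1 g)]
  rw [(wordEquiv2 n N).sum_comp (fun h => (∏ i, Vc N (tw n 1 i) (h.1 i) (h.2 i)) *
       ∏ x, Kr N t (U x) (h.2 (x - 1)) (h.1 x))]
  rw [Fintype.sum_prod_type]
  have htw : ∀ i, Vc N (tw n 1 i) = 1 := by
    intro i
    have : tw n 1 i = 1 := by unfold tw; split_ifs <;> rfl
    rw [this, Vc_one]
  have h2 : ∀ O : Fin (n + 1) → Fin N → Fin 4,
      ∑ O' : Fin (n + 1) → Fin N → Fin 4, (∏ i, Vc N (tw n 1 i) (O i) (O' i)) *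
        ∏ x, Kr N t (U x) (O' (x - 1)) (O x) = ∏ x, Kr N t (U x) (O (x - 1)) (O x) := by
    intro O
    rw [Finset.sum_eq_single O]
    · simp only [htw, Matrix.one_apply_eq, Finset.prod_const_one, one_mul]
    · intro O' _ hO
      obtain ⟨i, hi⟩ := Function.ne_iff.mp hO
      have : ∏ i, Vc N (tw n 1 i) (O i) (O' i) = 0 := by
        refine Finset.prod_eq_zero (Finset.mem_univ i) ?_
        rw [htw, Matrix.one_apply_ne (Ne.symm hi)]
      rw [this, zero_mul]
    · intro h; exact absurd (Finset.mem_univ _) h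
  rw [Finset.sum_congr rfl (fun O _ => h2 O)]
  have h3 : ∀ O : Fin (n + 1) → Fin N → Fin 4, ∏ x, Kr N t (U x) (O (x - 1)) (O x) =
      (∏ i : Fin n, Kr N t (U i.succ) (O i.castSucc) (O i.succ)) *
        Kr N t (U 0) (O (Fin.last n)) (O 0) := by
    intro O
    rw [Fin.prod_univ_succ, mul_comm]
    congr 1
    · refine Finset.prod_congr rfl (fun i _ => ?_)
      congr 2
      rw [sub_eq_iff_eq_add, Fin.coeSucc_eq_succ]
    · congr 2
      rw [sub_eq_iff_eq_add, Fin.last_add_one]
  rw [Finset.sum_congr rfl (fun O _ => h3 O),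
    path_sum' n (fun i => Kr N t (U i.succ)) (fun x y => Kr N t (U 0) y x)]
  simp only [Matrix.trace, Matrix.diag_apply, Matrix.mul_apply]

section
attribute [local instance] Matrix.linftyOpNormedRing Matrix.linftyOpNormedAlgebra

/-- limit of the crossed-channel traces with insertions -/
theorem cross_limit_site {n : ℕ} (hn : 1 ≤ n) (U : Fin (n + 1) → Matrix (Fin 3) (Fin 3) ℝ)
    {T : ℝ} (hT : 0 ≤ T) :
    Tendsto (fun N : ℕ => ((List.ofFn (fun i : Fin n => Kr N (T / N) (U i.succ))).prod *
        Kr N (T / N) (U 0)).trace) atTop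
      (𝓝 (tens U * NormedSpace.exp (T • XR n 1)).trace) := by
  have h1 : ∀ N : ℕ, ((List.ofFn (fun i : Fin n => Kr N (T / N) (U i.succ))).prod *
        Kr N (T / N) (U 0)).trace = (tens U * (Aring n (T / N) 1) ^ N).trace := fun N =>
    (ring_cross_site n N (T / N) U).symm
  simp only [h1]
  have h2 : Continuous (fun M : Matrix (Fin (n + 1) → Fin 3) (Fin (n + 1) → Fin 3) ℝ =>
      (tens U * M).trace) := by fun_prop
  exact (h2.tendsto _).comp (Aring_trotter hn 1 hT)

end

section lists
variable {R : Type*} [Monoid R]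

lemma ofFn_const (n : ℕ) (K : R) : (List.ofFn (fun _ : Fin n => K)).prod = K ^ n := by
  rw [List.ofFn_const, List.prod_replicate]

lemma ofFn_one (M K : R) (n l : ℕ) (hl : l < n) :
    (List.ofFn (fun m : Fin n => if (m : ℕ) = l then M else K)).prod =
      K ^ l * (M * K ^ (n - 1 - l)) := by
  induction n generalizing l with
  | zero => omega
  | succ n ih =>
    rw [List.ofFn_succ, List.prod_cons]
    rcases Nat.eq_zero_or_pos l with rfl | h0
    · have e0 : (if ((0 : Fin (n + 1)) : ℕ) = 0 then M else K) = M := if_pos (by simp)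
      have e1 : (fun i : Fin n => if ((i.succ : Fin (n + 1)) : ℕ) = 0 then M else K) =
          fun _ => K := by
        funext i; exact if_neg (by simp)
      rw [e0, e1, ofFn_const]
      simp
    · obtain ⟨l', rfl⟩ : ∃ l', l = l' + 1 := ⟨l - 1, by omega⟩
      have e0 : (if ((0 : Fin (n + 1)) : ℕ) = l' + 1 then M else K) = K := if_neg (by simp)
      have e1 : (fun i : Fin n => if ((i.succ : Fin (n + 1)) : ℕ) = l' + 1 then M else K) =
          fun i : Fin n => if (i : ℕ) = l' then M else K := by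
        funext i
        simp only [Fin.val_succ, Nat.add_right_cancel_iff]
      rw [e0, e1, ih l' (by omega), pow_succ', mul_assoc]
      have e2 : n + 1 - 1 - (l' + 1) = n - 1 - l' := by omega
      rw [e2]

lemma ofFn_two (M K : R) (n p q : ℕ) (hpq : p < q) (hq : q < n) :
    (List.ofFn (fun m : Fin n => if (m : ℕ) = p ∨ (m : ℕ) = q then M else K)).prod =
      K ^ p * (M * (K ^ (q - p - 1) * (M * K ^ (n - 1 - q)))) := by
  induction n generalizing p q with
  | zero => omega
  | succ n ih =>
    rw [List.ofFn_succ, List.prod_cons]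
    obtain ⟨q', rfl⟩ : ∃ q', q = q' + 1 := ⟨q - 1, by omega⟩
    rcases Nat.eq_zero_or_pos p with rfl | h0
    · have e0 : (if ((0 : Fin (n + 1)) : ℕ) = 0 ∨ ((0 : Fin (n + 1)) : ℕ) = q' + 1 then M
          else K) = M := if_pos (by simp)
      have e1 : (fun i : Fin n => if ((i.succ : Fin (n + 1)) : ℕ) = 0 ∨
          ((i.succ : Fin (n + 1)) : ℕ) = q' + 1 then M else K) =
          fun i : Fin n => if (i : ℕ) = q' then M else K := by
        funext i
        simp
      rw [e0, e1, ofFn_one M K n q' (by omega)]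
      have e2 : n + 1 - 1 - (q' + 1) = n - 1 - q' := by omega
      have e3 : q' + 1 - 0 - 1 = q' := by omega
      rw [e2, e3, pow_zero, one_mul]
    · obtain ⟨p', rfl⟩ : ∃ p', p = p' + 1 := ⟨p - 1, by omega⟩
      have e0 : (if ((0 : Fin (n + 1)) : ℕ) = p' + 1 ∨ ((0 : Fin (n + 1)) : ℕ) = q' + 1 then M
          else K) = K := if_neg (by simp)
      have e1 : (fun i : Fin n => if ((i.succ : Fin (n + 1)) : ℕ) = p' + 1 ∨
          ((i.succ : Fin (n + 1)) : ℕ) = q' + 1 then M else K) =
          fun i : Fin n => if (i : ℕ) = p' ∨ (i : ℕ) = q' then M else K := by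
        funext i
        simp
      rw [e0, e1, ih p' q' (by omega) (by omega), pow_succ', mul_assoc]
      have e2 : n + 1 - 1 - (q' + 1) = n - 1 - q' := by omega
      have e3 : q' + 1 - (p' + 1) - 1 = q' - p' - 1 := by omega
      rw [e2, e3]

end lists

end

end Vale.Agent.P348
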