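import Vale.Agent.P348.H997.Rec

/-! Real powers, the mirrored recursion, and exponential bounds. -/

namespace Vale.Agent.P348

open Filter Finset

lemma sum_rpow_le_rpow_sum {ι : Type} [Fintype ι] {x : ι → ℝ} (hx : ∀ i, 0 ≤ x i) {p : ℝ}
    (hp : 1 ≤ p) : ∑ i, x i ^ p ≤ (∑ i, x i) ^ p := by
  have key : ∀ y : ℝ, 0 ≤ y → y ^ p = y * y ^ (p - 1) := by
    intro y hy
    have := Real.rpow_add_of_nonneg hy (zero_le_one) (sub_nonneg.2 hp)
    rw [Real.rpow_one] at this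
    rw [← this]; congr 1; ring
  have hS : 0 ≤ ∑ i, x i := Finset.sum_nonneg fun i _ => hx i
  rw [key _ hS, Finset.sum_mul]
  refine Finset.sum_le_sum fun i _ => ?_
  rw [key _ (hx i)]
  refine mul_le_mul_of_nonneg_left ?_ (hx i)
  exact Real.rpow_le_rpow (hx i) (Finset.single_le_sum (fun j _ => hx j) (mem_univ i))
    (by linarith)

lemma IsPS.le_rpow {a : ℕ → ℝ} (h : IsPS a) {k l : ℕ} (hk : 1 ≤ k) (hl : k ≤ l) :
    a l ≤ a k ^ ((l : ℝ) / k) := by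
  obtain ⟨ι, inst, x, hx, hlim⟩ := h
  have hk0 : (0 : ℝ) < k := by exact_mod_cast hk
  have hp : 1 ≤ (l : ℝ) / k := by
    rw [le_div_iff₀ hk0, one_mul]; exact_mod_cast hl
  have h2 : Tendsto (fun N => (∑ i, x N i ^ k) ^ ((l : ℝ) / k)) atTop
      (nhds (a k ^ ((l : ℝ) / k))) :=
    (hlim k hk).rpow_const (Or.inr (by linarith))
  refine le_of_tendsto_of_tendsto' (hlim l (hk.trans hl)) h2 fun N => ?_
  have h3 := sum_rpow_le_rpow_sum (x := fun i => x N i ^ k) (fun i => pow_nonneg (hx N i) k) hp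
  refine le_trans (le_of_eq ?_) h3
  refine Finset.sum_congr rfl fun i _ => ?_
  rw [← Real.rpow_natCast (x N i) k, ← Real.rpow_mul (hx N i), mul_div_cancel₀ _ hk0.ne',
    Real.rpow_natCast]

namespace TwoChannel

variable (D : TwoChannel)

lemma b_le_rpow {T S : ℝ} (hT : 0 < T) (hS : T ≤ S) (k : ℕ) : D.b S k ≤ D.b T k ^ (S / T) := by
  obtain ⟨s, _, hb⟩ := D.exists_b_sum k
  rw [hb, hb]
  have hp : 1 ≤ S / T := by rw [le_div_iff₀ hT, one_mul]; exact hS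
  have h3 := sum_rpow_le_rpow_sum (ι := s)
    (x := fun i => Real.exp (-(T * (D.E k i - D.E0 k)))) (fun i => (Real.exp_pos _).le) hp
  rw [Finset.sum_coe_sort s (fun i => Real.exp (-(T * (D.E k i - D.E0 k))) ^ (S / T)),
    Finset.sum_coe_sort s (fun i => Real.exp (-(T * (D.E k i - D.E0 k))))] at h3
  refine le_trans (le_of_eq ?_) h3
  refine Finset.sum_congr rfl fun i _ => ?_
  rw [← Real.exp_mul]
  congr 1
  field_simp

lemma ps_c {T : ℝ} (hT : 0 < T) : IsPS (fun k => D.c T k) := by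
  obtain ⟨κ, inst, x, hx, hl⟩ := (D.Lam_spec hT).2.1
  have hL : 0 < D.Lam T := lt_of_lt_of_le one_pos (D.one_le_Lam hT)
  refine ⟨κ, inst, fun N i => x N i / D.Lam T, fun N i => div_nonneg (hx N i) hL.le,
    fun k hk => ?_⟩
  have h := (hl k hk).div_const (D.Lam T ^ k)
  have e : (D.z T k - D.Lam T ^ k) / D.Lam T ^ k = D.c T k := by
    unfold c
    rw [Real.exp_neg, D.exp_ph hT, sub_div, div_self (pow_pos hL k).ne', div_eq_mul_inv]
  rw [e] at h
  refine h.congr fun N => ?_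
  rw [Finset.sum_div]
  refine Finset.sum_congr rfl fun i _ => ?_
  rw [div_pow]

lemma c_le_rpow {T : ℝ} (hT : 0 < T) {k l : ℕ} (hk : 1 ≤ k) (hl : k ≤ l) :
    D.c T l ≤ D.c T k ^ ((l : ℝ) / k) := (D.ps_c hT).le_rpow hk hl

/-- a good node of the other kind -/
structure Su (T : ℝ) (k : ℕ) (Q : ℝ) : Prop where
  hT : 0 < T
  hk : 1 ≤ k
  hQ : Q ≤ 1 / 10000
  hf : T * D.f k ≤ Q
  hc : D.c T k ≤ Q
  hp : 20 * (k * D.ph T) ≤ Q
  hb : 20 * D.b T k ≤ Q

variable {D}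

namespace Su

variable {T Q : ℝ} {k : ℕ}

lemma Q_nonneg (h : D.Su T k Q) : 0 ≤ Q := (D.c_nonneg h.hT h.hk).trans h.hc

lemma c_two (h : D.Su T k Q) : D.c (2 * T) k ≤ 2001 / 1000 * Q := by
  have hQ0 := h.Q_nonneg
  have hQ := h.hQ
  have hT := h.hT
  have hk := h.hk
  have h4 : D.b (2 * T) k ≤ Q / 10000 := by
    have h5 := D.b_two_mul_le T k
    have h6 : D.b T k ≤ Q / 20 := by linarith [h.hb]
    have h7 : D.b T k ^ 2 ≤ (Q / 20) ^ 2 := pow_le_pow_left₀ (D.b_nonneg T k) h6 2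
    nlinarith
  have h1 : 2 * T * D.f k ≤ 2 * Q := by linarith [h.hf]
  have h5 : D.z (2 * T) k ≤ 1 + 2001 / 1000 * Q := by
    rw [z_eq]
    have h6 : Real.exp (2 * T * D.f k) ≤ ex (2 * Q) :=
      (Real.exp_le_exp.2 h1).trans (exp_le_ex (by linarith) (by linarith))
    have h7 := D.b_nonneg (2 * T) k
    refine (mul_le_mul h6 (show 1 + D.b (2 * T) k ≤ 1 + Q / 10000 by linarith) (by linarith)
      ((Real.exp_pos _).le.trans h6)).trans ?_
    have e2 : Q ^ 2 ≤ Q / 10000 := by nlinarith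
    have e3 : Q ^ 3 ≤ Q / 10000 := by nlinarith [mul_nonneg hQ0 hQ0]
    have e4 : Q ^ 4 ≤ Q / 10000 := by
      nlinarith [mul_nonneg hQ0 hQ0, mul_nonneg (mul_nonneg hQ0 hQ0) hQ0]
    unfold ex
    nlinarith
  exact s_zc _ h5 (by linarith) hk

/-- the other channel, up to six times the length -/
lemma b_le_of (h : D.Su T k Q) {m : ℕ} (hm2 : 2 ≤ m) (hm : m ≤ 6) :
    D.b T (m * k) ≤ 31 / 100 * Q := by
  have hQ0 := h.Q_nonneg
  have hQ := h.hQ
  have hT := h.hT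
  have hk := h.hk
  have hmk : 1 ≤ m * k := Nat.mul_pos (by omega) hk
  have hc2 : D.c T (m * k) ≤ Q / 10000 := by
    have h1 : D.c T (m * k) ≤ D.c T (2 * k) :=
      D.c_anti hT (by omega) (Nat.mul_le_mul_right _ hm2)
    have h2 := D.c_mul_le hT hk (m := 2) (by norm_num)
    have h3 : D.c T k ^ 2 ≤ Q ^ 2 := pow_le_pow_left₀ (D.c_nonneg hT hk) h.hc 2
    nlinarith
  have h1 : ((m * k : ℕ) : ℝ) * D.ph T ≤ 30 / 100 * Q := by
    have h2 := D.ph_nonneg hT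
    have h3 : (m : ℝ) * (k * D.ph T) ≤ 6 * (k * D.ph T) :=
      mul_le_mul_of_nonneg_right (by exact_mod_cast hm) (mul_nonneg (Nat.cast_nonneg _) h2)
    have := h.hp
    push_cast
    nlinarith
  have h5 : D.z T (m * k) ≤ 1 + 31 / 100 * Q := by
    rw [z_eq_c]
    have h6 : Real.exp ((m * k : ℕ) * D.ph T) ≤ ex (30 / 100 * Q) :=
      (Real.exp_le_exp.2 h1).trans (exp_le_ex (by linarith) (by linarith))
    have h7 := D.c_nonneg hT hmk
    refine (mul_le_mul h6 (show 1 + D.c T (m * k) ≤ 1 + Q / 10000 by linarith) (by linarith)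
      ((Real.exp_pos _).le.trans h6)).trans ?_
    have e2 : Q ^ 2 ≤ Q / 10000 := by nlinarith
    have e3 : Q ^ 3 ≤ Q / 10000 := by nlinarith [mul_nonneg hQ0 hQ0]
    have e4 : Q ^ 4 ≤ Q / 10000 := by
      nlinarith [mul_nonneg hQ0 hQ0, mul_nonneg (mul_nonneg hQ0 hQ0) hQ0]
    unfold ex
    nlinarith
  exact s_zb _ h5 hT hmk

lemma p_two (h : D.Su T k Q) : ((2 * k : ℕ) : ℝ) * D.ph (2 * T) ≤ 1 / 10 * Q ^ 2 := by
  have hQ0 := h.Q_nonneg
  have hQ := h.hQ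
  have hT := h.hT
  have hk := h.hk
  have hT2 : 0 < 2 * T := by linarith
  have h1 := D.ph_le_I2 (T := 2 * T) hT2 (j := 4 * k) (k := 6 * k) (by omega) (by omega)
  have h2 : D.b (2 * T) (6 * k) ≤ (31 / 100 * Q) ^ 2 :=
    (D.b_two_mul_le T (6 * k)).trans
      (pow_le_pow_left₀ (D.b_nonneg _ _) (h.b_le_of (by norm_num) le_rfl) 2)
  have h3 : D.c (2 * T) (4 * k) ≤ (2001 / 1000 * Q) ^ 4 :=
    (D.c_mul_le hT2 hk (m := 4) (by norm_num)).trans
      (pow_le_pow_left₀ (D.c_nonneg hT2 hk) h.c_two 4)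
  have h4 := log_one_add_le (D.b_nonneg (2 * T) (6 * k))
  have h5 := log_one_add_le (D.c_nonneg hT2 (show 1 ≤ 4 * k by omega))
  have e2 : Q ^ 4 ≤ Q ^ 2 / 10 ^ 8 := by
    have : Q ^ 2 ≤ 1 / 10 ^ 8 := by nlinarith
    nlinarith [sq_nonneg Q]
  push_cast at h1 ⊢
  have e3 : (6 * (k : ℝ) - 4 * k) = 2 * k := by ring
  rw [e3] at h1
  nlinarith [sq_nonneg Q]

theorem step (h : D.Su T k Q) : D.Su (2 * T) (2 * k) (9 / 2 * Q ^ 2) := by
  have hQ0 := h.Q_nonneg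
  have hQ := h.hQ
  have hT := h.hT
  have hk := h.hk
  have hk2 : 1 ≤ 2 * k := by omega
  have hT2 : 0 < 2 * T := by linarith
  have hp := h.p_two
  have hc : D.c (2 * T) (2 * k) ≤ 401 / 100 * Q ^ 2 := by
    have h1 := D.c_mul_le hT2 hk (m := 2) (by norm_num)
    have h2 := pow_le_pow_left₀ (D.c_nonneg hT2 hk) h.c_two 2
    nlinarith [sq_nonneg Q]
  refine ⟨hT2, hk2, by nlinarith, ?_, by nlinarith [sq_nonneg Q], by nlinarith [sq_nonneg Q], ?_⟩
  · have h1 := D.log_z_c hT2 hk2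
    have h2 := D.log_z_b (T := 2 * T) (k := 2 * k)
    have h3 := log_one_add_le (D.c_nonneg hT2 hk2)
    have h4 : 0 ≤ Real.log (1 + D.b (2 * T) (2 * k)) :=
      Real.log_nonneg (by have := D.b_nonneg (2 * T) (2 * k); linarith)
    nlinarith [sq_nonneg Q]
  · have h1 := D.b_two_mul_le T (2 * k)
    have h2 := pow_le_pow_left₀ (D.b_nonneg T (2 * k)) (h.b_le_of (m := 2) le_rfl (by norm_num)) 2
    nlinarith [sq_nonneg Q]

theorem iter (h : D.Su T k Q) (n : ℕ) :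
    D.Su (2 ^ n * T) (2 ^ n * k) ((9 / 2 * Q) ^ (2 ^ n) * (2 / 9)) := by
  induction n with
  | zero =>
    have : (9 / 2 * Q) ^ (2 ^ 0) * (2 / 9) = Q := by ring
    rw [this]
    simpa using h
  | succ n ih =>
    have h1 := ih.step
    have e1 : 2 * (2 ^ n * T) = 2 ^ (n + 1) * T := by ring
    have e2 : 2 * (2 ^ n * k) = 2 ^ (n + 1) * k := by ring
    have e3 : 9 / 2 * ((9 / 2 * Q) ^ (2 ^ n) * (2 / 9)) ^ 2 =
        (9 / 2 * Q) ^ (2 ^ (n + 1)) * (2 / 9) := by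
      rw [pow_succ 2 n, pow_mul]
      ring
    rw [e1, e2, e3] at h1
    exact h1

/-- exponential decay of the finite-size energy -/
theorem f_le_exp (h : D.Su T k Q) (hT1 : 1 ≤ T) {r : ℝ}
    (hq : 9 / 2 * Q ≤ Real.exp (-(r * k))) {l : ℕ} (hl : k ≤ l) :
    D.f l ≤ Real.exp (-(r * l)) := by
  obtain ⟨n, hn1, hn2⟩ := St.exists_dyadic h.hk hl
  have hk0 : (0 : ℝ) < k := by exact_mod_cast h.hk
  have h1 := h.iter n
  have h2 := h.iter (n + 1)
  have hQ0 := h.Q_nonneg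
  have hq1 : 9 / 2 * Q ≤ 1 := by linarith [h.hQ]
  set K := 2 ^ n * k with hK
  have hK1 : 1 ≤ K := h1.hk
  have hl1 : 1 ≤ l := hK1.trans hn1
  have hK0 : (0 : ℝ) < K := by exact_mod_cast hK1
  set S := 2 * (2 ^ n * T) with hS
  have hS2 : 2 ≤ S := by
    have : (1 : ℝ) ≤ 2 ^ n := one_le_pow₀ (by norm_num)
    nlinarith
  have hS0 : 0 < S := by linarith
  have eS : (2 : ℝ) ^ (n + 1) * T = S := by rw [hS]; ring
  have eK : 2 ^ (n + 1) * k = 2 * K := by rw [hK]; ring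
  rw [eS, eK] at h2
  set A := (9 / 2 * Q) ^ (2 ^ n) with hA
  have hA0 : 0 ≤ A := by positivity
  have hA1 : A ≤ 1 := pow_le_one₀ (by positivity) hq1
  have hA2 : (9 / 2 * Q) ^ (2 ^ (n + 1)) = A ^ 2 := by rw [hA, pow_succ 2 n, pow_mul]
  rw [hA2] at h2
  -- the exponent
  set s : ℝ := (l : ℝ) / K with hs
  have hs1 : 1 ≤ s := by rw [hs, le_div_iff₀ hK0, one_mul]; exact_mod_cast hn1
  have hs2 : s ≤ 2 := by rw [hs, div_le_iff₀ hK0]; exact_mod_cast hn2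
  have hAs : A ^ (2 : ℕ) ≤ A ^ s := by
    rcases eq_or_lt_of_le hA0 with h0 | h0
    · rw [← h0]; rw [Real.zero_rpow (by linarith)]; norm_num
    · rw [← Real.rpow_natCast]
      exact Real.rpow_le_rpow_of_exponent_ge h0 hA1 (by push_cast; exact hs2)
  have hc1 : D.c S l ≤ A ^ s := by
    refine (D.c_le_rpow hS0 hK1 hn1).trans ?_
    refine Real.rpow_le_rpow (D.c_nonneg hS0 hK1) ?_ (by linarith)
    have := h1.c_two
    rw [← hS] at this
    linarith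
  have hp1 : (l : ℝ) * D.ph S ≤ A ^ s := by
    have h3 := h2.hp
    have h4 : (l : ℝ) * D.ph S ≤ ((2 * K : ℕ) : ℝ) * D.ph S :=
      mul_le_mul_of_nonneg_right (by exact_mod_cast hn2) (D.ph_nonneg hS0)
    have h5 : 0 ≤ A ^ 2 := sq_nonneg _
    linarith
  have h6 := D.log_z_c hS0 hl1
  have h7 := D.log_z_b (T := S) (k := l)
  have h8 := log_one_add_le (D.c_nonneg hS0 hl1)
  have h9 : 0 ≤ Real.log (1 + D.b S l) :=
    Real.log_nonneg (by have := D.b_nonneg S l; linarith)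
  have h10 : S * D.f l ≤ 2 * A ^ s := by linarith
  have h11 := D.f_nonneg hl1
  have h12 : D.f l ≤ A ^ s := by nlinarith
  refine h12.trans ?_
  have h13 : A ≤ Real.exp (-(r * k)) ^ (2 ^ n) := pow_le_pow_left₀ (by positivity) hq _
  refine (Real.rpow_le_rpow hA0 h13 (by linarith)).trans (le_of_eq ?_)
  rw [← Real.exp_nat_mul, ← Real.exp_mul]
  congr 1
  rw [hs, hK]
  push_cast
  field_simp

end Su

namespace St

variable {T P : ℝ} {k : ℕ}

/-- the gap -/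
theorem gap_le (h : D.St T k P) {r : ℝ} (hq : 9 / 2 * P ≤ Real.exp (-(r * T))) {l : ℕ}
    (hl : k ≤ l) : ∃ S : ℝ, 0 < S ∧ D.b S l ≤ Real.exp (-(r * S)) ∧ D.b S l < 1 := by
  obtain ⟨n, hn1, hn2, hb⟩ := h.exists_b_le hl
  have hP0 := h.P_nonneg
  have h1 : (9 / 2 * P) ^ (2 ^ n) ≤ Real.exp (-(r * T)) ^ (2 ^ n) :=
    pow_le_pow_left₀ (by positivity) hq _
  have h2 : Real.exp (-(r * T)) ^ (2 ^ n) = Real.exp (-(r * (2 ^ n * T))) := by
    rw [← Real.exp_nat_mul]; congr 1; push_cast; ring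
  have h3 : (9 / 2 * P) ^ (2 ^ n) ≤ 1 := pow_le_one₀ (by positivity) (by linarith [h.hP])
  have h4 : 0 ≤ (9 / 2 * P) ^ (2 ^ n) := by positivity
  refine ⟨2 ^ n * T, mul_pos (by positivity) h.hT, ?_, by linarith⟩
  rw [← h2]
  linarith

/-- exponential decay of the thermal part of the pressure -/
theorem ph_le_exp (h : D.St T k P) {r : ℝ} (hq : 9 / 2 * P ≤ Real.exp (-(r * T)))
    {S : ℝ} (hS : T ≤ S) : D.ph S ≤ Real.exp (-(r * S)) := by
  have hT := h.hT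
  have hx : 1 ≤ S / T := by rw [le_div_iff₀ hT, one_mul]; exact hS
  obtain ⟨n, hn1, hn2⟩ := exists_nat_pow_near hx (by norm_num : (1 : ℝ) < 2)
  rw [le_div_iff₀ hT] at hn1
  rw [div_lt_iff₀ hT] at hn2
  have h1 := h.iter n
  have h2 := h.iter (n + 1)
  have hP0 := h.P_nonneg
  have hq1 : 9 / 2 * P ≤ 1 := by linarith [h.hP]
  set U := 2 ^ n * T with hU
  have hU0 : 0 < U := h1.hT
  have hS0 : 0 < S := hT.trans_le hS
  set K := 2 ^ n * k with hK
  have eU : (2 : ℝ) ^ (n + 1) * T = 2 * U := by rw [hU]; ring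
  have eK : 2 ^ (n + 1) * k = 2 * K := by rw [hK]; ring
  rw [eU] at hn2
  rw [eU, eK] at h2
  have hK1 : 1 ≤ 2 * K := h2.hk
  have hK2 : (2 : ℝ) ≤ ((2 * K : ℕ) : ℝ) := by
    have : 2 ≤ 2 * K := by have := h1.hk; omega
    exact_mod_cast this
  set A := (9 / 2 * P) ^ (2 ^ n) with hA
  have hA0 : 0 ≤ A := by positivity
  have hA1 : A ≤ 1 := pow_le_one₀ (by positivity) hq1
  have hA2 : (9 / 2 * P) ^ (2 ^ (n + 1)) = A ^ 2 := by rw [hA, pow_succ 2 n, pow_mul]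
  rw [hA2] at h2
  set s : ℝ := S / U with hs
  have hs1 : 1 ≤ s := by rw [hs, le_div_iff₀ hU0, one_mul]; exact hn1
  have hs2 : s ≤ 2 := by rw [hs, div_le_iff₀ hU0]; exact hn2.le
  have hAs : A ^ (2 : ℕ) ≤ A ^ s := by
    rcases eq_or_lt_of_le hA0 with h0 | h0
    · rw [← h0]; rw [Real.zero_rpow (by linarith)]; norm_num
    · rw [← Real.rpow_natCast]
      exact Real.rpow_le_rpow_of_exponent_ge h0 hA1 (by push_cast; exact hs2)
  have hb1 : D.b S (2 * K) ≤ A ^ s := by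
    refine (D.b_le_rpow hU0 hn1 (2 * K)).trans ?_
    refine Real.rpow_le_rpow (D.b_nonneg _ _) ?_ (by linarith)
    have := h1.b_two
    linarith
  have hf1 : S * D.f (2 * K) ≤ A ^ s := by
    have h3 := h2.hf
    have h4 : S * D.f (2 * K) ≤ 2 * U * D.f (2 * K) :=
      mul_le_mul_of_nonneg_right hn2.le (D.f_nonneg hK1)
    have h5 : 0 ≤ A ^ 2 := sq_nonneg _
    linarith
  have h6 := D.log_z_c hS0 hK1
  have h7 := D.log_z_b (T := S) (k := 2 * K)
  have h8 := log_one_add_le (D.b_nonneg S (2 * K))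
  have h9 : 0 ≤ Real.log (1 + D.c S (2 * K)) :=
    Real.log_nonneg (by have := D.c_nonneg hS0 hK1; linarith)
  have h10 : ((2 * K : ℕ) : ℝ) * D.ph S ≤ 2 * A ^ s := by linarith
  have h11 := D.ph_nonneg hS0
  have h12 : D.ph S ≤ A ^ s := by nlinarith
  refine h12.trans ?_
  have h13 : A ≤ Real.exp (-(r * T)) ^ (2 ^ n) := pow_le_pow_left₀ (by positivity) hq _
  refine (Real.rpow_le_rpow hA0 h13 (by linarith)).trans (le_of_eq ?_)
  rw [← Real.exp_nat_mul, ← Real.exp_mul]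
  congr 1
  rw [hs, hU]
  push_cast
  field_simp

end St

end TwoChannel

end Vale.Agent.P348
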