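import Vale.Agent.P348.H997.Cert
import Vale.Agent.P348.H997.RecU

/-! The initial data of the certificate for the spin-one Heisenberg rings. -/

namespace Vale.Agent.P348

open Filter Finset

open TwoChannel

lemma fz {n k : ℕ} {a a' b : ℤ} {T w : ℝ} (h : Sat (FC.W n k) ([a, a', 0, 0, 0, a, 0], b))
    (ha : 0 < a) (ha' : a' = 3 * a) (hT : n * Tb = T) (hw : (b : ℝ) ≤ a * (1 + w)) :
    DD.z T k ≤ 1 + w := by
  subst ha'
  have ha0 : (0 : ℝ) < a := by exact_mod_cast ha
  unfold Sat at h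
  rw [FiveChannel.ev7] at h
  push_cast at h
  rw [← hT, ← FC_z, FC.z_eq_W]
  refine le_of_mul_le_mul_left ?_ ha0
  linarith

lemma fx {n k : ℕ} {a b : ℤ} {T w p : ℝ} (h : Sat (FC.W n k) ([0, 0, 0, 0, 0, a, 0], b))
    (ha : 0 < a) (hT0 : 0 < T) (hT : n * Tb = T) (hk : 1 ≤ k) (hw : (b : ℝ) ≤ a * (1 + w))
    (hp : lg w ≤ k * p) : DD.ph T ≤ p := by
  have ha0 : (0 : ℝ) < a := by exact_mod_cast ha
  unfold Sat at h
  rw [FiveChannel.ev7] at h
  push_cast at h
  have h1 : DD.Lam T ^ k ≤ 1 + w := by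
    have e : FC.W n k 5 = DD.Lam T ^ k := by rw [← hT]; rfl
    rw [← e]
    refine le_of_mul_le_mul_left ?_ ha0
    linarith
  have hL := DD.one_le_Lam hT0
  have hL1 : 1 ≤ DD.Lam T ^ k := one_le_pow₀ hL
  have h2 := Real.log_le_log (by linarith) h1
  rw [Real.log_pow] at h2
  have h3 := log_le_lg (w := w) (by linarith)
  have hk0 : (0 : ℝ) < k := by exact_mod_cast hk
  exact le_of_mul_le_mul_left (h2.trans (h3.trans hp)) hk0

lemma fy {n k : ℕ} {a b : ℤ} {T w q : ℝ} (h : Sat (FC.W n k) ([0, 0, 0, 0, 0, 0, a], b))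
    (ha : 0 < a) (hT0 : 0 < T) (hT : n * Tb = T) (hk : 1 ≤ k) (hw : (b : ℝ) ≤ a * (1 + w))
    (hp : lg w ≤ T * q) : DD.f k ≤ q := by
  have ha0 : (0 : ℝ) < a := by exact_mod_cast ha
  unfold Sat at h
  rw [FiveChannel.ev7] at h
  push_cast at h
  have h1 : Real.exp (T * DD.f k) ≤ 1 + w := by
    have e : FC.W n k 6 = Real.exp (T * DD.f k) := by
      have : FC.W n k 6 = Real.exp (Tb * DD.f k) ^ n := rfl
      rw [this, ← Real.exp_nat_mul, ← hT]
      congr 1; ring
    rw [← e]
    refine le_of_mul_le_mul_left ?_ ha0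
    linarith
  have h0 := DD.f_nonneg hk
  have hE : 1 ≤ Real.exp (T * DD.f k) := Real.one_le_exp (mul_nonneg hT0.le h0)
  have h2 := Real.log_le_log (by linarith) h1
  rw [Real.log_exp] at h2
  have h3 := log_le_lg (w := w) (by linarith)
  exact le_of_mul_le_mul_left (h2.trans (h3.trans hp)) hT0

theorem init_DD : TwoChannel.Init DD := by
  obtain ⟨H, L, h0, h1, h2, h3, h4, _, hy, hw, hw'⟩ := hat_exists
  have I := ChainInit.of h0 h1 h2 h3 h4 hy hw hw'
  constructor
  · exact fx (f115 L I) (w := 12228761 / 100000000) (by norm_num) (by norm_num)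
      (by norm_num [Tb]) (by norm_num) (by norm_num) (by norm_num [lg])
  · exact fz (f1100 L I) (by norm_num) (by norm_num) (by norm_num [Tb]) (by norm_num)
  · exact fz (f335 L I) (by norm_num) (by norm_num) (by norm_num [Tb]) (by norm_num)
  · exact fx (f1139 L I) (w := 1594479 / 100000000) (by norm_num) (by norm_num)
      (by norm_num [Tb]) (by norm_num) (by norm_num) (by norm_num [lg])
  · exact fz (f1223 L I) (by norm_num) (by norm_num) (by norm_num [Tb]) (by norm_num)
  · exact fx (f1211 L I) (w := 793461 / 100000000) (by norm_num) (by norm_num)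
      (by norm_num [Tb]) (by norm_num) (by norm_num) (by norm_num [lg])
  · exact fz (f1253 L I) (by norm_num) (by norm_num) (by norm_num [Tb]) (by norm_num)
  · exact fz (f1134 L I) (by norm_num) (by norm_num) (by norm_num [Tb]) (by norm_num)
  · exact fz (f1207 L I) (by norm_num) (by norm_num) (by norm_num [Tb]) (by norm_num)
  · exact fz (f1144 L I) (by norm_num) (by norm_num) (by norm_num [Tb]) (by norm_num)
  · exact fy (f244 L I) (T := 15 / 2) (w := 10632515 / 100000000) (by norm_num) (by norm_num)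
      (by norm_num [Tb]) (by norm_num) (by norm_num) (by norm_num [lg])

theorem out_DD : TwoChannel.Out DD := out_of_init init_DD

theorem z_small : DD.z (15 / 2) 6 ≤ 1 + 61888 / 100000 ∧ DD.z (15 / 2) 12 ≤ 1 + 34205 / 100000 ∧
    DD.f 6 ≤ 54 / 1000 := by
  obtain ⟨H, L, h0, h1, h2, h3, h4, _, hy, hw, hw'⟩ := hat_exists
  have I := ChainInit.of h0 h1 h2 h3 h4 hy hw hw'
  refine ⟨?_, ?_, ?_⟩
  · exact fz (f113 L I) (by norm_num) (by norm_num) (by norm_num [Tb]) (by norm_num)
  · exact fz (f242 L I) (by norm_num) (by norm_num) (by norm_num [Tb]) (by norm_num)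
  · exact fy (f116 L I) (T := 15 / 2) (w := 4748038 / 10000000) (by norm_num) (by norm_num)
      (by norm_num [Tb]) (by norm_num) (by norm_num) (by norm_num [lg])

end Vale.Agent.P348
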