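import Vale.Agent.P348.Defs

/-! Definitions used by the statement of `Vale.Agent.Results.P348.HaldanePhase`. -/

namespace Vale.Agent.P348

open Matrix

noncomputable section

/-- The components `S^a_tot = ∑ j, S^a_j` of the total spin of the ring. -/
def totalSpin (L : ℕ) (a : Fin 3) : Matrix (Fin L → Fin 3) (Fin L → Fin 3) ℂ :=
  ∑ j : Fin L, onSite j (spin a)

/-- The partition function `Tr exp (-β H_L)` of the ring of length `L`. -/
def partitionFn (L : ℕ) [NeZero L] (β : ℝ) : ℂ :=
  Matrix.trace (NormedSpace.exp ((-(β : ℂ)) • haldaneH L))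

end

end Vale.Agent.P348
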