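import Vale.Agent.P348.H997.Data

/-! Consequences for the spin-one Heisenberg rings at all lengths `2 l ≥ 24`. -/

namespace Vale.Agent.P348

open Filter Finset

open TwoChannel

lemma pow_chord {x : ℝ} (hx : 0 ≤ x) {k l m : ℕ} (hkl : k ≤ l) (hlm : l ≤ m) :
    ((m : ℝ) - k) * x ^ l ≤ ((m : ℝ) - l) * x ^ k + ((l : ℝ) - k) * x ^ m := by
  obtain ⟨p, rfl⟩ := Nat.exists_eq_add_of_le hkl
  obtain ⟨r, rfl⟩ := Nat.exists_eq_add_of_le hlm
  rcases Nat.eq_zero_or_pos (p + r) with h0 | h0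
  · obtain ⟨rfl, rfl⟩ : p = 0 ∧ r = 0 := by omega
    simp
  have hq : (0 : ℝ) < ((p + r : ℕ) : ℝ) := by exact_mod_cast h0
  have h1 := Real.geom_mean_le_arith_mean2_weighted (w₁ := (p : ℝ) / ((p + r : ℕ) : ℝ))
    (w₂ := (r : ℝ) / ((p + r : ℕ) : ℝ)) (p₁ := x ^ (p + r)) (p₂ := 1)
    (by positivity) (by positivity) (by positivity) (by norm_num)
    (by rw [← add_div, ← Nat.cast_add, div_self hq.ne'])
  rw [Real.one_rpow, mul_one, ← Real.rpow_natCast, ← Real.rpow_mul hx,
    mul_div_cancel₀ _ hq.ne', Real.rpow_natCast, mul_one] at h1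
  have h2 := mul_le_mul_of_nonneg_left h1 (mul_nonneg hq.le (pow_nonneg hx k))
  have e1 : ((p + r : ℕ) : ℝ) * x ^ k * ((p : ℝ) / ((p + r : ℕ) : ℝ) * x ^ (((p + r : ℕ) : ℝ)) +
      (r : ℝ) / ((p + r : ℕ) : ℝ)) = r * x ^ k + p * (x ^ k * x ^ (p + r)) := by
    rw [Real.rpow_natCast]
    field_simp
    ring
  rw [e1] at h2
  push_cast at h2 ⊢
  have e2 : x ^ (k + p) = x ^ k * x ^ p := pow_add _ _ _
  have e3 : x ^ (k + p + r) = x ^ k * x ^ (p + r) := by rw [add_assoc, pow_add]
  rw [e2, e3]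
  nlinarith

lemma IsPS.chord {a : ℕ → ℝ} (h : IsPS a) {k l m : ℕ} (hk : 1 ≤ k) (hkl : k ≤ l) (hlm : l ≤ m) :
    ((m : ℝ) - k) * a l ≤ ((m : ℝ) - l) * a k + ((l : ℝ) - k) * a m := by
  obtain ⟨ι, inst, x, hx, hl⟩ := h
  refine le_of_tendsto_of_tendsto' ((hl l (by omega)).const_mul _)
    (((hl k hk).const_mul _).add ((hl m (by omega)).const_mul _)) fun N => ?_
  rw [Finset.mul_sum, Finset.mul_sum, Finset.mul_sum, ← Finset.sum_add_distrib]
  exact Finset.sum_le_sum fun i _ => pow_chord (hx N i) hkl hlm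

lemma le_exp_neg_of {w : ℝ} (hw : 0 < w) {a b : ℕ} (hb : 0 < b)
    (h : w ^ b * (27182818286 / 10000000000) ^ a ≤ 1) : w ≤ Real.exp (-((a : ℝ) / b)) := by
  have := log_le_of hw hb h
  rw [← Real.exp_log hw]
  exact Real.exp_le_exp.2 this

lemma b_le_range {D : TwoChannel} {T p γ : ℝ} (w : ℝ) {j : ℕ} (m : ℕ) {l : ℕ} (hp : D.ph T ≤ p)
    (hc : D.c T j ≤ γ) (hT : 0 < T) (hj : 1 ≤ j) (hjl : j ≤ l) (hlm : l ≤ m) (hq : m * p ≤ 1)
    (hw : ex (m * p) * (1 + γ) ≤ 1 + w) : D.b T l ≤ w := by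
  have hl : 1 ≤ l := hj.trans hjl
  have h0 := D.ph_nonneg hT
  have h1 : (l : ℝ) * p ≤ m * p :=
    mul_le_mul_of_nonneg_right (by exact_mod_cast hlm) (h0.trans hp)
  have h2 : 0 ≤ (l : ℝ) * p := mul_nonneg (Nat.cast_nonneg _) (h0.trans hp)
  have h3 := s_cm l hc hT hj hjl
  have h4 := D.c_nonneg hT hl
  exact s_zb _ (s_pc _ hp h3 hT hl (h1.trans hq)
    ((mul_le_mul_of_nonneg_right (ex_mono h2 h1) (by linarith)).trans hw)) hT hl

theorem St_base : DD.St 240 384 (14326 / 1000000000) := by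
  have o := out_DD
  refine ⟨by norm_num, by norm_num, by norm_num, ?_, ?_, ?_, ?_⟩
  · have := o.p240; push_cast; linarith
  · have := o.b240_384; linarith
  · have := o.f384; linarith
  · have := o.c240_384; linarith

theorem Su_base : DD.Su 480 384 (6583 / 100000000000) := by
  have o := out_DD
  refine ⟨by norm_num, by norm_num, by norm_num, ?_, ?_, ?_, ?_⟩
  · have := o.f384; linarith
  · have := o.c480_384; linarith
  · have := o.p480; push_cast; linarith
  · have := o.b480_384; linarith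

theorem q_P : 9 / 2 * (14326 / 1000000000 : ℝ) ≤ Real.exp (-(1 / 25 * 240)) := by
  have := le_exp_neg_of (w := 9 / 2 * (14326 / 1000000000)) (by norm_num) (a := 48) (b := 5)
    (by norm_num) (by norm_num)
  refine this.trans (le_of_eq ?_)
  congr 1; norm_num

theorem q_Q : 9 / 2 * (6583 / 100000000000 : ℝ) ≤ Real.exp (-(1 / 27 * (384 : ℕ))) := by
  have := le_exp_neg_of (w := 9 / 2 * (6583 / 100000000000)) (by norm_num) (a := 128) (b := 9)
    (by norm_num) (by norm_num)
  refine this.trans (le_of_eq ?_)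
  congr 1; norm_num

/-- at every length `2 l ≥ 24` some time certifies the gap `1/25` and uniqueness -/
theorem DD_b {l : ℕ} (hl : 12 ≤ l) :
    ∃ S : ℝ, 0 < S ∧ DD.b S l ≤ Real.exp (-(1 / 25 * S)) ∧ DD.b S l < 1 := by
  have o := out_DD
  by_cases h1 : 384 ≤ l
  · exact St_base.gap_le q_P h1
  by_cases h2 : 192 ≤ l
  · have h := b_le_range (4 / 1000) 384 o.p120 o.c120_192 (by norm_num) (by norm_num) h2
      (by omega) (by norm_num) (by norm_num [ex])
    refine ⟨120, by norm_num, h.trans ?_, by linarith⟩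
    refine (le_exp_neg_of (a := 24) (b := 5) (by norm_num) (by norm_num) (by norm_num)).trans
      (le_of_eq ?_)
    congr 1; norm_num
  by_cases h3 : 96 ≤ l
  · have h := b_le_range (65 / 10000) 192 o.p120 o.c120_96 (by norm_num) (by norm_num) h3
      (by omega) (by norm_num) (by norm_num [ex])
    refine ⟨120, by norm_num, h.trans ?_, by linarith⟩
    refine (le_exp_neg_of (a := 24) (b := 5) (by norm_num) (by norm_num) (by norm_num)).trans
      (le_of_eq ?_)
    congr 1; norm_num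
  by_cases h4 : 48 ≤ l
  · have h := b_le_range (56 / 1000) 96 o.p60 o.c60_48 (by norm_num) (by norm_num) h4
      (by omega) (by norm_num) (by norm_num [ex])
    refine ⟨60, by norm_num, h.trans ?_, by linarith⟩
    refine (le_exp_neg_of (a := 12) (b := 5) (by norm_num) (by norm_num) (by norm_num)).trans
      (le_of_eq ?_)
    congr 1; norm_num
  by_cases h5 : 24 ≤ l
  · have h := b_le_range (2 / 10) 48 o.p30 o.c30_24 (by norm_num) (by norm_num) h5
      (by omega) (by norm_num) (by norm_num [ex])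
    refine ⟨30, by norm_num, h.trans ?_, by linarith⟩
    refine (le_exp_neg_of (a := 6) (b := 5) (by norm_num) (by norm_num) (by norm_num)).trans
      (le_of_eq ?_)
    congr 1; norm_num
  · have h := b_le_range (45 / 100) 24 o.p15 o.c15_12 (by norm_num) (by norm_num) hl
      (by omega) (by norm_num) (by norm_num [ex])
    refine ⟨15, by norm_num, h.trans ?_, by linarith⟩
    refine (le_exp_neg_of (a := 3) (b := 5) (by norm_num) (by norm_num) (by norm_num)).trans
      (le_of_eq ?_)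
    congr 1; norm_num

/-- at every length `2 l ≥ 12` some time certifies the gap `1/25` and uniqueness -/
theorem DD_b' {l : ℕ} (hl : 6 ≤ l) :
    ∃ S : ℝ, 0 < S ∧ DD.b S l ≤ Real.exp (-(1 / 25 * S)) ∧ DD.b S l < 1 := by
  by_cases h12 : 12 ≤ l
  · exact DD_b h12
  push Not at h12
  have hz : DD.z (15 / 2) l ≤ 1 + 61888 / 100000 := by
    have h := (DD.ps_z (T := 15 / 2) (by norm_num)).chord (k := 6) (l := l) (m := 12)
      (by norm_num) hl h12.le
    obtain ⟨h1, h2, _⟩ := z_small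
    have e1 : (6 : ℝ) ≤ l := by exact_mod_cast hl
    have e2 : (l : ℝ) ≤ 12 := by exact_mod_cast h12.le
    push_cast at h
    have h3 := mul_le_mul_of_nonneg_left h1 (sub_nonneg.2 e2)
    have h4 := mul_le_mul_of_nonneg_left (h2.trans (show (1 : ℝ) + 34205 / 100000 ≤
      1 + 61888 / 100000 by norm_num)) (sub_nonneg.2 e1)
    linarith
  have h := s_zb _ hz (by norm_num) (by omega)
  refine ⟨15 / 2, by norm_num, h.trans ?_, by linarith⟩
  refine (le_exp_neg_of (a := 3) (b := 10) (by norm_num) (by norm_num) (by norm_num)).trans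
      (le_of_eq ?_)
  congr 1; norm_num

/-- exponential smallness of the finite-size energy -/
theorem DD_f {l : ℕ} (hl : 12 ≤ l) : DD.f l ≤ Real.exp (-(1 / 27 * l)) := by
  have o := out_DD
  have aux : ∀ (j m : ℕ) (q : ℝ) (a b : ℕ), DD.f j ≤ q → 1 ≤ j → j ≤ l → l ≤ m → 0 < q → 0 < b →
      (a : ℝ) / b = 1 / 27 * m → q ^ b * (27182818286 / 10000000000) ^ a ≤ 1 →
      DD.f l ≤ Real.exp (-(1 / 27 * l)) := by
    intro j m q a b hf hj hjl hlm hq hb hab h
    refine (s_fm l hf hj hjl).trans ((le_exp_neg_of hq hb h).trans ?_)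
    rw [hab]
    refine Real.exp_le_exp.2 (neg_le_neg (mul_le_mul_of_nonneg_left ?_ (by norm_num)))
    exact_mod_cast hlm
  by_cases h1 : 384 ≤ l
  · exact Su_base.f_le_exp (by norm_num) q_Q h1
  by_cases h2 : 192 ≤ l
  · exact aux 192 384 _ 128 9 o.f192 (by norm_num) h2 (by omega) (by norm_num) (by norm_num)
      (by norm_num) (by norm_num)
  by_cases h3 : 96 ≤ l
  · exact aux 96 192 _ 64 9 o.f96 (by norm_num) h3 (by omega) (by norm_num) (by norm_num)
      (by norm_num) (by norm_num)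
  by_cases h4 : 48 ≤ l
  · exact aux 48 96 _ 32 9 o.f48 (by norm_num) h4 (by omega) (by norm_num) (by norm_num)
      (by norm_num) (by norm_num)
  by_cases h5 : 24 ≤ l
  · exact aux 24 48 _ 16 9 o.f24 (by norm_num) h5 (by omega) (by norm_num) (by norm_num)
      (by norm_num) (by norm_num)
  · exact aux 12 24 _ 8 9 o.f12 (by norm_num) hl (by omega) (by norm_num) (by norm_num)
      (by norm_num) (by norm_num)

theorem DD_f' {l : ℕ} (hl : 6 ≤ l) : DD.f l ≤ Real.exp (-(1 / 27 * l)) := by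
  by_cases h12 : 12 ≤ l
  · exact DD_f h12
  push Not at h12
  refine (s_fm l z_small.2.2 (by norm_num) hl).trans ((le_exp_neg_of (a := 4) (b := 9)
    (by norm_num) (by norm_num) (by norm_num)).trans ?_)
  refine Real.exp_le_exp.2 (neg_le_neg ?_)
  have e2 : (l : ℝ) ≤ 12 := by exact_mod_cast h12.le
  push_cast
  linarith

/-- exponential smallness of the thermal pressure -/
theorem DD_ph {T : ℝ} (hT : 15 / 2 ≤ T) : DD.ph T ≤ Real.exp (-(1 / 25 * T)) := by
  have o := out_DD
  have aux : ∀ (S M q : ℝ) (a b : ℕ), DD.ph S ≤ q → 0 < S → S ≤ T → T ≤ M → 0 < q → 0 < b →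
      (a : ℝ) / b = 1 / 25 * M → q ^ b * (27182818286 / 10000000000) ^ a ≤ 1 →
      DD.ph T ≤ Real.exp (-(1 / 25 * T)) := by
    intro S M q a b hf hS hST hTM hq hb hab h
    refine (s_phm T hf hS hST).trans ((le_exp_neg_of hq hb h).trans ?_)
    rw [hab]
    exact Real.exp_le_exp.2 (neg_le_neg (mul_le_mul_of_nonneg_left hTM (by norm_num)))
  by_cases h1 : 240 ≤ T
  · exact St_base.ph_le_exp q_P h1
  push Not at h1
  by_cases h2 : 120 ≤ T
  · exact aux 120 240 _ 48 5 o.p120 (by norm_num) h2 h1.le (by norm_num) (by norm_num)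
      (by norm_num) (by norm_num)
  push Not at h2
  by_cases h3 : 60 ≤ T
  · exact aux 60 120 _ 24 5 o.p60 (by norm_num) h3 h2.le (by norm_num) (by norm_num)
      (by norm_num) (by norm_num)
  push Not at h3
  by_cases h4 : 30 ≤ T
  · exact aux 30 60 _ 12 5 o.p30 (by norm_num) h4 h3.le (by norm_num) (by norm_num)
      (by norm_num) (by norm_num)
  push Not at h4
  by_cases h5 : 15 ≤ T
  · exact aux 15 30 _ 6 5 o.p15 (by norm_num) h5 h4.le (by norm_num) (by norm_num)
      (by norm_num) (by norm_num)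
  push Not at h5
  exact aux (15 / 2) 15 _ 3 5 o.p15o2 (by norm_num) hT h5.le (by norm_num) (by norm_num)
      (by norm_num) (by norm_num)

end Vale.Agent.P348
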