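import Vale.Agent.P348.H997.Spec

/-! Linear algebra for general observables: expansions in the eigenbasis and their bounds. -/

namespace Vale.Agent.P348

open Matrix Finset

noncomputable section

section
variable {m : Type} [Fintype m] [DecidableEq m]

/-- sum formulas in the eigenbasis -/
theorem eig_sums {K : Matrix m m ℝ} (hK : K.IsHermitian) (A B : Matrix m m ℝ) :
    ∃ α β : m → m → ℝ,
      (∀ a b : ℕ, (A * K ^ a * B * K ^ b).trace =
        ∑ i, ∑ j, α i j * hK.eigenvalues j ^ a * (β j i * hK.eigenvalues i ^ b)) ∧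
      (∀ b : ℕ, (A * K ^ b).trace = ∑ i, α i i * hK.eigenvalues i ^ b) ∧
      (∀ b : ℕ, (B * K ^ b).trace = ∑ i, β i i * hK.eigenvalues i ^ b) ∧
      (∀ b : ℕ, (A * Aᵀ * K ^ b).trace = ∑ i, ∑ j, α i j ^ 2 * hK.eigenvalues i ^ b) ∧
      (∀ b : ℕ, (Bᵀ * B * K ^ b).trace = ∑ i, ∑ j, β j i ^ 2 * hK.eigenvalues i ^ b) := by
  set U : Matrix m m ℝ := (hK.eigenvectorUnitary : Matrix m m ℝ) with hU
  have hUU : U * Uᵀ = 1 := by
    have h : U * star U = 1 := Unitary.coe_mul_star_self hK.eigenvectorUnitary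
    rwa [Matrix.star_eq_conjTranspose, Matrix.conjTranspose_eq_transpose_of_trivial] at h
  have hpow : ∀ k : ℕ, K ^ k = U * diagonal (fun i => hK.eigenvalues i ^ k) * Uᵀ := by
    intro k
    have h := hK.spectral_theorem
    have h2 : K ^ k = Unitary.conjStarAlgAut ℝ _ hK.eigenvectorUnitary
        (diagonal (fun i => hK.eigenvalues i ^ k)) := by
      conv_lhs => rw [h]
      rw [← map_pow, Matrix.diagonal_pow]
      rfl
    rw [h2, Unitary.conjStarAlgAut_apply, Matrix.star_eq_conjTranspose,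
      Matrix.conjTranspose_eq_transpose_of_trivial]
  have h1 : ∀ (X : Matrix m m ℝ) (b : ℕ), (X * K ^ b).trace =
      ∑ i, (Uᵀ * X * U) i i * hK.eigenvalues i ^ b := by
    intro X b
    rw [hpow b, ← Matrix.mul_assoc, Matrix.trace_mul_comm, ← Matrix.mul_assoc, ← Matrix.mul_assoc]
    simp only [Matrix.trace, Matrix.diag_apply, Matrix.mul_diagonal]
  have hc : ∀ X Y : Matrix m m ℝ, Uᵀ * (X * Y) * U = (Uᵀ * X * U) * (Uᵀ * Y * U) := by
    intro X Y
    calc Uᵀ * (X * Y) * U = Uᵀ * (X * (U * Uᵀ) * Y) * U := by rw [hUU, Matrix.mul_one]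
      _ = _ := by simp only [Matrix.mul_assoc]
  have hUU' : Uᵀ * U = 1 := by
    have h : star U * U = 1 := Unitary.coe_star_mul_self hK.eigenvectorUnitary
    rwa [Matrix.star_eq_conjTranspose, Matrix.conjTranspose_eq_transpose_of_trivial] at h
  have hd : ∀ k : ℕ, Uᵀ * K ^ k * U = diagonal (fun i => hK.eigenvalues i ^ k) := by
    intro k
    rw [hpow k]
    calc Uᵀ * (U * diagonal (fun i => hK.eigenvalues i ^ k) * Uᵀ) * U =
        (Uᵀ * U) * diagonal (fun i => hK.eigenvalues i ^ k) * (Uᵀ * U) := by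
          simp only [Matrix.mul_assoc]
      _ = _ := by rw [hUU', Matrix.one_mul, Matrix.mul_one]
  refine ⟨fun i j => (Uᵀ * A * U) i j, fun i j => (Uᵀ * B * U) i j, fun a b => ?_,
    fun b => h1 A b, fun b => h1 B b, fun b => ?_, fun b => ?_⟩
  · rw [h1, hc, hc, hd]
    refine Finset.sum_congr rfl fun i _ => ?_
    rw [Matrix.mul_apply, Finset.sum_mul]
    refine Finset.sum_congr rfl fun j _ => ?_
    rw [Matrix.mul_diagonal]
    ring
  · rw [h1, hc]
    have e : Uᵀ * Aᵀ * U = (Uᵀ * A * U)ᵀ := by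
      rw [Matrix.transpose_mul, Matrix.transpose_mul, Matrix.transpose_transpose, Matrix.mul_assoc]
    refine Finset.sum_congr rfl fun i _ => ?_
    rw [Matrix.mul_apply, Finset.sum_mul, e]
    refine Finset.sum_congr rfl fun j _ => ?_
    rw [Matrix.transpose_apply]
    ring
  · rw [h1, hc]
    have e : Uᵀ * Bᵀ * U = (Uᵀ * B * U)ᵀ := by
      rw [Matrix.transpose_mul, Matrix.transpose_mul, Matrix.transpose_transpose, Matrix.mul_assoc]
    refine Finset.sum_congr rfl fun i _ => ?_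
    rw [Matrix.mul_apply, Finset.sum_mul, e]
    refine Finset.sum_congr rfl fun j _ => ?_
    rw [Matrix.transpose_apply]
    ring

end

/-! ### bounds of the sums -/

section
variable {m : Type} [Fintype m] [DecidableEq m]

/-- Cauchy-Schwarz with weights -/
lemma cs_weight {ι : Type} (s : Finset ι) (x y w : ι → ℝ) (hw : ∀ i ∈ s, 0 ≤ w i) :
    ∑ i ∈ s, |x i| * |y i| * w i ≤
      Real.sqrt (∑ i ∈ s, x i ^ 2 * w i) * Real.sqrt (∑ i ∈ s, y i ^ 2 * w i) := by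
  rw [← Real.sqrt_mul (Finset.sum_nonneg fun i hi => mul_nonneg (sq_nonneg _) (hw i hi))]
  refine Real.le_sqrt_of_sq_le ?_
  have h := Finset.sum_mul_sq_le_sq_mul_sq s (fun i => |x i| * Real.sqrt (w i))
    (fun i => |y i| * Real.sqrt (w i))
  have e1 : ∑ i ∈ s, |x i| * |y i| * w i =
      ∑ i ∈ s, |x i| * Real.sqrt (w i) * (|y i| * Real.sqrt (w i)) := by
    refine Finset.sum_congr rfl fun i hi => ?_
    have := Real.mul_self_sqrt (hw i hi)
    calc |x i| * |y i| * w i = |x i| * |y i| * (Real.sqrt (w i) * Real.sqrt (w i)) := by rw [this]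
      _ = _ := by ring
  have e2 : ∀ z : ι → ℝ, ∑ i ∈ s, (|z i| * Real.sqrt (w i)) ^ 2 = ∑ i ∈ s, z i ^ 2 * w i := by
    intro z
    refine Finset.sum_congr rfl fun i hi => ?_
    rw [mul_pow, sq_abs, Real.sq_sqrt (hw i hi)]
  rw [e1, ← e2 x, ← e2 y]
  exact h

variable {κ : m → ℝ} {α β : m → m → ℝ} {i₀ : m} {μ l : ℝ}

/-- the two-point sum without its main term -/
theorem two_err (hμ0 : 0 ≤ μ) (hl0 : 0 ≤ l) (hμ : ∀ i, i ≠ i₀ → |κ i| ≤ μ) (hl : ∀ i, |κ i| ≤ l)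
    {a b c : ℕ} (hc : 2 * c ≤ b) :
    |∑ i, ∑ j, α i j * κ j ^ a * (β j i * κ i ^ b) - α i₀ i₀ * β i₀ i₀ * κ i₀ ^ (a + b)| ≤
      (μ ^ a * l ^ (b - 2 * c) + l ^ a * μ ^ (b - 2 * c)) *
        (Real.sqrt (∑ i, ∑ j, α i j ^ 2 * κ i ^ (2 * c)) *
          Real.sqrt (∑ i, ∑ j, β j i ^ 2 * κ i ^ (2 * c))) := by
  have h0 : ∑ i, ∑ j, α i j * κ j ^ a * (β j i * κ i ^ b) =
      ∑ p : m × m, α p.1 p.2 * κ p.2 ^ a * (β p.2 p.1 * κ p.1 ^ b) := by
    rw [Fintype.sum_prod_type]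
  have h0' : ∀ γ : m → m → ℝ, ∑ i, ∑ j, γ i j ^ 2 * κ i ^ (2 * c) =
      ∑ p : m × m, γ p.1 p.2 ^ 2 * κ p.1 ^ (2 * c) := by
    intro γ
    rw [Fintype.sum_prod_type]
  have hw : ∀ i, 0 ≤ κ i ^ (2 * c) := fun i => (even_two_mul c).pow_nonneg _
  rw [h0, ← Finset.add_sum_erase _ _ (Finset.mem_univ ((i₀, i₀) : m × m)),
    h0' α, h0' (fun i j => β j i)]
  have e1 : α i₀ i₀ * κ i₀ ^ a * (β i₀ i₀ * κ i₀ ^ b) = α i₀ i₀ * β i₀ i₀ * κ i₀ ^ (a + b) := by
    rw [pow_add]; ring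
  simp only [e1, add_sub_cancel_left]
  have hb : ∀ i, |κ i| ^ b = |κ i| ^ (b - 2 * c) * κ i ^ (2 * c) := by
    intro i
    rw [← (even_two_mul c).pow_abs (κ i), ← pow_add]
    congr 1; omega
  refine (Finset.abs_sum_le_sum_abs _ _).trans ?_
  have h1 : ∀ p ∈ (univ : Finset (m × m)).erase (i₀, i₀),
      |α p.1 p.2 * κ p.2 ^ a * (β p.2 p.1 * κ p.1 ^ b)| ≤
        (μ ^ a * l ^ (b - 2 * c) + l ^ a * μ ^ (b - 2 * c)) *
          (|α p.1 p.2| * |β p.2 p.1| * κ p.1 ^ (2 * c)) := by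
    rintro ⟨i, j⟩ hp
    rw [Finset.mem_erase, Ne, Prod.mk.injEq, not_and_or] at hp
    simp only
    rw [abs_mul, abs_mul, abs_mul, abs_pow, abs_pow, hb]
    have h2 : |κ j| ^ a * |κ i| ^ (b - 2 * c) ≤
        μ ^ a * l ^ (b - 2 * c) + l ^ a * μ ^ (b - 2 * c) := by
      by_cases hj : j = i₀
      · have hi : i ≠ i₀ := by
          rcases hp.1 with h | h
          · exact h
          · exact absurd hj h
        have := mul_le_mul (pow_le_pow_left₀ (abs_nonneg _) (hl j) a)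
          (pow_le_pow_left₀ (abs_nonneg _) (hμ i hi) (b - 2 * c))
          (pow_nonneg (abs_nonneg _) _) (pow_nonneg hl0 _)
        have h3 : 0 ≤ μ ^ a * l ^ (b - 2 * c) := by positivity
        linarith
      · have := mul_le_mul (pow_le_pow_left₀ (abs_nonneg _) (hμ j hj) a)
          (pow_le_pow_left₀ (abs_nonneg _) (hl i) (b - 2 * c))
          (pow_nonneg (abs_nonneg _) _) (pow_nonneg hμ0 _)
        have h3 : 0 ≤ l ^ a * μ ^ (b - 2 * c) := by positivity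
        linarith
    have h4 : 0 ≤ |α i j| * |β j i| * κ i ^ (2 * c) :=
      mul_nonneg (mul_nonneg (abs_nonneg _) (abs_nonneg _)) (hw i)
    calc |α i j| * |κ j| ^ a * (|β j i| * (|κ i| ^ (b - 2 * c) * κ i ^ (2 * c))) =
        (|κ j| ^ a * |κ i| ^ (b - 2 * c)) * (|α i j| * |β j i| * κ i ^ (2 * c)) := by ring
      _ ≤ _ := mul_le_mul_of_nonneg_right h2 h4
  refine (Finset.sum_le_sum h1).trans ?_
  rw [← Finset.mul_sum]
  refine mul_le_mul_of_nonneg_left ?_ (by positivity)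
  refine (Finset.sum_le_sum_of_subset_of_nonneg (Finset.erase_subset _ _) fun p _ _ =>
    mul_nonneg (mul_nonneg (abs_nonneg _) (abs_nonneg _)) (hw p.1)).trans ?_
  exact cs_weight univ (fun p : m × m => α p.1 p.2) (fun p : m × m => β p.2 p.1)
    (fun p => κ p.1 ^ (2 * c)) fun p _ => hw p.1

/-- the one-point sum without its main term -/
theorem one_err (hμ0 : 0 ≤ μ) (hμ : ∀ i, i ≠ i₀ → |κ i| ≤ μ) {b c : ℕ} (hc : 2 * c ≤ b) :
    |∑ i, α i i * κ i ^ b - α i₀ i₀ * κ i₀ ^ b| ≤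
      μ ^ (b - 2 * c) * (Real.sqrt (∑ i, ∑ j, α i j ^ 2 * κ i ^ (2 * c)) *
          Real.sqrt (∑ i, κ i ^ (2 * c))) := by
  have hw : ∀ i, 0 ≤ κ i ^ (2 * c) := fun i => (even_two_mul c).pow_nonneg _
  rw [← Finset.add_sum_erase _ _ (Finset.mem_univ i₀), add_sub_cancel_left]
  have hb : ∀ i, |κ i| ^ b = |κ i| ^ (b - 2 * c) * κ i ^ (2 * c) := by
    intro i
    rw [← (even_two_mul c).pow_abs (κ i), ← pow_add]
    congr 1; omega
  refine (Finset.abs_sum_le_sum_abs _ _).trans ?_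
  have h1 : ∀ i ∈ (univ : Finset m).erase i₀, |α i i * κ i ^ b| ≤
        μ ^ (b - 2 * c) * (|α i i| * |1| * κ i ^ (2 * c)) := by
    intro i hi
    rw [abs_mul, abs_pow, hb, abs_one, mul_one]
    have h2 := pow_le_pow_left₀ (abs_nonneg _) (hμ i (Finset.ne_of_mem_erase hi)) (b - 2 * c)
    have h4 : 0 ≤ |α i i| * κ i ^ (2 * c) := mul_nonneg (abs_nonneg _) (hw i)
    have := mul_le_mul_of_nonneg_right h2 h4
    linarith
  refine (Finset.sum_le_sum h1).trans ?_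
  rw [← Finset.mul_sum]
  refine mul_le_mul_of_nonneg_left ?_ (by positivity)
  refine (Finset.sum_le_sum_of_subset_of_nonneg (Finset.erase_subset _ _) fun p _ _ =>
    mul_nonneg (mul_nonneg (abs_nonneg _) (abs_nonneg _)) (hw p)).trans ?_
  refine (cs_weight univ (fun i : m => α i i) (fun _ : m => (1 : ℝ))
    (fun i => κ i ^ (2 * c)) fun p _ => hw p).trans ?_
  have e : ∑ i : m, (1 : ℝ) ^ 2 * κ i ^ (2 * c) = ∑ i, κ i ^ (2 * c) := by simp
  rw [e]
  refine mul_le_mul_of_nonneg_right (Real.sqrt_le_sqrt ?_) (Real.sqrt_nonneg _)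
  refine Finset.sum_le_sum fun i _ => ?_
  exact Finset.single_le_sum (f := fun j => α i j ^ 2 * κ i ^ (2 * c))
    (fun j _ => mul_nonneg (sq_nonneg _) (hw i)) (mem_univ i)

/-- the partition function without its main term -/
theorem zero_err (hμ0 : 0 ≤ μ) (hμ : ∀ i, i ≠ i₀ → |κ i| ≤ μ) {b c : ℕ} (hc : 2 * c ≤ b) :
    |∑ i, κ i ^ b - κ i₀ ^ b| ≤ μ ^ (b - 2 * c) * ∑ i, κ i ^ (2 * c) := by
  have hw : ∀ i, 0 ≤ κ i ^ (2 * c) := fun i => (even_two_mul c).pow_nonneg _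
  rw [← Finset.add_sum_erase _ _ (Finset.mem_univ i₀), add_sub_cancel_left]
  have hb : ∀ i, |κ i| ^ b = |κ i| ^ (b - 2 * c) * κ i ^ (2 * c) := by
    intro i
    rw [← (even_two_mul c).pow_abs (κ i), ← pow_add]
    congr 1; omega
  refine (Finset.abs_sum_le_sum_abs _ _).trans ?_
  rw [Finset.mul_sum]
  refine (Finset.sum_le_sum (s := univ.erase i₀) (g := fun i => μ ^ (b - 2 * c) * κ i ^ (2 * c))
    fun i hi => ?_).trans ?_
  · rw [abs_pow, hb]
    exact mul_le_mul_of_nonneg_right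
      (pow_le_pow_left₀ (abs_nonneg _) (hμ i (Finset.ne_of_mem_erase hi)) _) (hw i)
  · exact Finset.sum_le_sum_of_subset_of_nonneg (Finset.erase_subset _ _) fun p _ _ =>
      mul_nonneg (by positivity) (hw p)

omit [DecidableEq m] in
/-- the main coefficient -/
theorem main_coeff (hl0 : 0 ≤ l) (hl : |κ i₀| ≤ l) {b c : ℕ} (hc : c ≤ b) :
    |α i₀ i₀| * |κ i₀| ^ b ≤
      l ^ (b - c) * Real.sqrt (∑ i, ∑ j, α i j ^ 2 * κ i ^ (2 * c)) := by
  have hw : ∀ i, 0 ≤ κ i ^ (2 * c) := fun i => (even_two_mul c).pow_nonneg _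
  have h1 : |α i₀ i₀| * |κ i₀| ^ c ≤ Real.sqrt (∑ i, ∑ j, α i j ^ 2 * κ i ^ (2 * c)) := by
    refine Real.le_sqrt_of_sq_le ?_
    have e : (|α i₀ i₀| * |κ i₀| ^ c) ^ 2 = α i₀ i₀ ^ 2 * κ i₀ ^ (2 * c) := by
      rw [mul_pow, sq_abs, ← pow_mul, mul_comm c 2, (even_two_mul c).pow_abs]
    rw [e]
    refine (Finset.single_le_sum (f := fun j => α i₀ j ^ 2 * κ i₀ ^ (2 * c))
      (fun j _ => mul_nonneg (sq_nonneg _) (hw i₀)) (mem_univ i₀)).trans ?_
    exact Finset.single_le_sum (f := fun i => ∑ j, α i j ^ 2 * κ i ^ (2 * c))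
      (fun i _ => Finset.sum_nonneg fun j _ => mul_nonneg (sq_nonneg _) (hw i)) (mem_univ i₀)
  have e : |κ i₀| ^ b = |κ i₀| ^ (b - c) * |κ i₀| ^ c := by
    rw [← pow_add]; congr 1; omega
  rw [e]
  have h2 := pow_le_pow_left₀ (abs_nonneg _) hl (b - c)
  calc |α i₀ i₀| * (|κ i₀| ^ (b - c) * |κ i₀| ^ c) =
      |κ i₀| ^ (b - c) * (|α i₀ i₀| * |κ i₀| ^ c) := by ring
    _ ≤ _ := mul_le_mul h2 h1 (by positivity) (by positivity)

end

end

end Vale.Agent.P348
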