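import Vale.Agent.P348.H997.G9

/-! Comparison of two lengths. -/

namespace Vale.Agent.P348

open Matrix Finset Filter Topology

noncomputable section

section
variable {m : Type} [Fintype m] [DecidableEq m]

/-- two lengths at fixed discretisation -/
theorem comp_fin {K : Matrix m m ℝ} (hK : K.IsHermitian) (A : Matrix m m ℝ) {i₀ : m}
    {μ l : ℝ} (hμ0 : 0 ≤ μ) (hl0 : 0 ≤ l) (hμ : ∀ i, i ≠ i₀ → |hK.eigenvalues i| ≤ μ)
    (hl : ∀ i, |hK.eigenvalues i| ≤ l) {c r L L' : ℕ} (hc : r + 2 * c ≤ L) (hL : L ≤ L') :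
    |(A * K ^ (L - r)).trace * (K ^ L').trace - (A * K ^ (L' - r)).trace * (K ^ L).trace| ≤
      Real.sqrt (A * Aᵀ * K ^ (2 * c)).trace *
        (l ^ (L - r - c) * μ ^ (L' - 2 * c) + l ^ (L' - r - c) * μ ^ (L - 2 * c)) *
          (K ^ (2 * c)).trace +
      Real.sqrt (A * Aᵀ * K ^ (2 * c)).trace * Real.sqrt (K ^ (2 * c)).trace *
        (μ ^ (L - r - 2 * c) * |(K ^ L').trace| + μ ^ (L' - r - 2 * c) * |(K ^ L).trace|) := by
  obtain ⟨α, _, _, h2, _, h4, _⟩ := eig_sums hK A A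
  have hZ : ∀ k : ℕ, (K ^ k).trace = ∑ i, hK.eigenvalues i ^ k := fun k =>
    trace_pow_eq_sum_eigenvalues hK k
  set κ := hK.eigenvalues with hκ
  have e1 := one_err (α := α) hμ0 hμ (show 2 * c ≤ L - r by omega)
  have e2 := one_err (α := α) hμ0 hμ (show 2 * c ≤ L' - r by omega)
  have e3 := zero_err hμ0 hμ (show 2 * c ≤ L by omega)
  have e4 := zero_err hμ0 hμ (show 2 * c ≤ L' by omega)
  have m1 := main_coeff (α := α) (κ := κ) hl0 (hl i₀) (show c ≤ L - r by omega)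
  have m2 := main_coeff (α := α) (κ := κ) hl0 (hl i₀) (show c ≤ L' - r by omega)
  rw [← h2, ← h4, ← hZ] at e1 e2
  rw [← hZ, ← hZ] at e3 e4
  rw [← h4] at m1 m2
  have hA0 : 0 ≤ Real.sqrt (A * Aᵀ * K ^ (2 * c)).trace := Real.sqrt_nonneg _
  have hz0 : 0 ≤ Real.sqrt (K ^ (2 * c)).trace := Real.sqrt_nonneg _
  have hZ0 : 0 ≤ (K ^ (2 * c)).trace := by
    rw [hZ]; exact Finset.sum_nonneg fun i _ => (even_two_mul c).pow_nonneg _
  set SA := Real.sqrt (A * Aᵀ * K ^ (2 * c)).trace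
  set Sz := Real.sqrt (K ^ (2 * c)).trace
  set Zc := (K ^ (2 * c)).trace
  set TA := (A * K ^ (L - r)).trace
  set TA' := (A * K ^ (L' - r)).trace
  set Z := (K ^ L).trace
  set Z' := (K ^ L').trace
  set x := α i₀ i₀
  set k := κ i₀
  have key : TA * Z' - TA' * Z = x * k ^ (L - r) * (Z' - k ^ L') -
      x * k ^ (L' - r) * (Z - k ^ L) + (TA - x * k ^ (L - r)) * Z' -
      (TA' - x * k ^ (L' - r)) * Z := by
    have e : k ^ (L - r) * k ^ L' = k ^ (L' - r) * k ^ L := by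
      rw [← pow_add, ← pow_add]; congr 1; omega
    linear_combination x * e
  rw [key]
  have t1 : |x * k ^ (L - r) * (Z' - k ^ L')| ≤
      l ^ (L - r - c) * SA * (μ ^ (L' - 2 * c) * Zc) := by
    rw [abs_mul, abs_mul, abs_pow]
    exact mul_le_mul m1 e4 (abs_nonneg _) (by positivity)
  have t2 : |x * k ^ (L' - r) * (Z - k ^ L)| ≤
      l ^ (L' - r - c) * SA * (μ ^ (L - 2 * c) * Zc) := by
    rw [abs_mul, abs_mul, abs_pow]
    exact mul_le_mul m2 e3 (abs_nonneg _) (by positivity)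
  have t3 : |(TA - x * k ^ (L - r)) * Z'| ≤ μ ^ (L - r - 2 * c) * (SA * Sz) * |Z'| := by
    rw [abs_mul]
    exact mul_le_mul_of_nonneg_right e1 (abs_nonneg _)
  have t4 : |(TA' - x * k ^ (L' - r)) * Z| ≤ μ ^ (L' - r - 2 * c) * (SA * Sz) * |Z| := by
    rw [abs_mul]
    exact mul_le_mul_of_nonneg_right e2 (abs_nonneg _)
  have t5 := abs_sub (x * k ^ (L - r) * (Z' - k ^ L') -
      x * k ^ (L' - r) * (Z - k ^ L) + (TA - x * k ^ (L - r)) * Z')
      ((TA' - x * k ^ (L' - r)) * Z)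
  have t6 := abs_add_le (x * k ^ (L - r) * (Z' - k ^ L') -
      x * k ^ (L' - r) * (Z - k ^ L)) ((TA - x * k ^ (L - r)) * Z')
  have t7 := abs_sub (x * k ^ (L - r) * (Z' - k ^ L')) (x * k ^ (L' - r) * (Z - k ^ L))
  have t8 : |x * k ^ (L - r) * (Z' - k ^ L') - x * k ^ (L' - r) * (Z - k ^ L) +
      (TA - x * k ^ (L - r)) * Z' - (TA' - x * k ^ (L' - r)) * Z| ≤
      l ^ (L - r - c) * SA * (μ ^ (L' - 2 * c) * Zc) +
      l ^ (L' - r - c) * SA * (μ ^ (L - 2 * c) * Zc) +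
      μ ^ (L - r - 2 * c) * (SA * Sz) * |Z'| + μ ^ (L' - r - 2 * c) * (SA * Sz) * |Z| := by
    linarith
  refine t8.trans (le_of_eq ?_)
  ring

end

/-- the bound at fixed discretisation -/
def Rt (SA Zc Z Z' μ l : ℝ) (c r L L' : ℕ) : ℝ :=
  Real.sqrt SA * (l ^ (L - r - c) * μ ^ (L' - 2 * c) + l ^ (L' - r - c) * μ ^ (L - 2 * c)) * Zc +
  Real.sqrt SA * Real.sqrt Zc * (μ ^ (L - r - 2 * c) * |Z'| + μ ^ (L' - r - 2 * c) * |Z|)

lemma Rt_le {SA Zc Z Z' g C ρ : ℝ} (hg : 0 < g) (hC : 1 ≤ C) (hρ : 0 < ρ) (hρ1 : ρ ≤ 1)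
    {c r L L' : ℕ} (hc : r + 2 * c ≤ L) (hL : L ≤ L')
    (hSA : SA ≤ g ^ (2 * (r + c)) * C) (hZ0 : 0 ≤ Zc) (hZc : Zc ≤ g ^ (2 * c) * C)
    (hZ : |Z| ≤ g ^ L * C) (hZ' : |Z'| ≤ g ^ L' * C) :
    Rt SA Zc Z Z' (ρ * g) g c r L L' ≤ 4 * C ^ 3 * g ^ (L + L') * ρ ^ (L - r - 2 * c) := by
  have hsq : ∀ (x : ℝ) (n : ℕ), x ≤ g ^ (2 * n) * C → Real.sqrt x ≤ g ^ n * C := by
    intro x n hx
    rw [Real.sqrt_le_left (by positivity)]
    refine hx.trans ?_
    have h1 : (g ^ n * C) ^ 2 = g ^ (2 * n) * C * C := by rw [mul_pow, ← pow_mul, mul_comm n 2]; ring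
    rw [h1]
    exact le_mul_of_one_le_right (by positivity) hC
  have a1 := hsq _ _ hSA
  have a3 := hsq _ _ hZc
  have p1 : ρ ^ (L' - 2 * c) ≤ ρ ^ (L - r - 2 * c) := pow_le_pow_of_le_one hρ.le hρ1 (by omega)
  have p2 : ρ ^ (L - 2 * c) ≤ ρ ^ (L - r - 2 * c) := pow_le_pow_of_le_one hρ.le hρ1 (by omega)
  have p3 : ρ ^ (L' - r - 2 * c) ≤ ρ ^ (L - r - 2 * c) :=
    pow_le_pow_of_le_one hρ.le hρ1 (by omega)
  have s1 := Real.sqrt_nonneg SA
  have s3 := Real.sqrt_nonneg Zc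
  have hC0 : 0 < C := by linarith
  unfold Rt
  set R := ρ ^ (L - r - 2 * c) with hR
  have hR0 : 0 < R := pow_pos hρ _
  have q1 : (ρ * g) ^ (L' - 2 * c) ≤ R * g ^ (L' - 2 * c) := by
    rw [mul_pow]; exact mul_le_mul_of_nonneg_right p1 (by positivity)
  have q2 : (ρ * g) ^ (L - 2 * c) ≤ R * g ^ (L - 2 * c) := by
    rw [mul_pow]; exact mul_le_mul_of_nonneg_right p2 (by positivity)
  have q3 : (ρ * g) ^ (L' - r - 2 * c) ≤ R * g ^ (L' - r - 2 * c) := by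
    rw [mul_pow]; exact mul_le_mul_of_nonneg_right p3 (by positivity)
  have q4 : (ρ * g) ^ (L - r - 2 * c) = R * g ^ (L - r - 2 * c) := by rw [mul_pow]
  have t1 : Real.sqrt SA * (g ^ (L - r - c) * (ρ * g) ^ (L' - 2 * c) +
      g ^ (L' - r - c) * (ρ * g) ^ (L - 2 * c)) * Zc ≤
      (g ^ (r + c) * C) * (g ^ (L - r - c) * (R * g ^ (L' - 2 * c)) +
        g ^ (L' - r - c) * (R * g ^ (L - 2 * c))) * (g ^ (2 * c) * C) := by
    gcongr
  have t2 : Real.sqrt SA * Real.sqrt Zc * ((ρ * g) ^ (L - r - 2 * c) * |Z'| +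
      (ρ * g) ^ (L' - r - 2 * c) * |Z|) ≤
      (g ^ (r + c) * C) * (g ^ c * C) * (R * g ^ (L - r - 2 * c) * (g ^ L' * C) +
        R * g ^ (L' - r - 2 * c) * (g ^ L * C)) := by
    rw [q4]
    gcongr
  refine (add_le_add t1 t2).trans ?_
  have e1 : g ^ (r + c) * g ^ (L - r - c) * g ^ (L' - 2 * c) * g ^ (2 * c) = g ^ (L + L') := by
    rw [← pow_add, ← pow_add, ← pow_add]; congr 1; omega
  have e2 : g ^ (r + c) * g ^ (L' - r - c) * g ^ (L - 2 * c) * g ^ (2 * c) = g ^ (L + L') := by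
    rw [← pow_add, ← pow_add, ← pow_add]; congr 1; omega
  have e3 : g ^ (r + c) * g ^ c * g ^ (L - r - 2 * c) * g ^ L' = g ^ (L + L') := by
    rw [← pow_add, ← pow_add, ← pow_add]; congr 1; omega
  have e4 : g ^ (r + c) * g ^ c * g ^ (L' - r - 2 * c) * g ^ L = g ^ (L + L') := by
    rw [← pow_add, ← pow_add, ← pow_add]; congr 1; omega
  have e : (g ^ (r + c) * C) * (g ^ (L - r - c) * (R * g ^ (L' - 2 * c)) +
        g ^ (L' - r - c) * (R * g ^ (L - 2 * c))) * (g ^ (2 * c) * C) +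
      (g ^ (r + c) * C) * (g ^ c * C) * (R * g ^ (L - r - 2 * c) * (g ^ L' * C) +
        R * g ^ (L' - r - 2 * c) * (g ^ L * C)) =
      C ^ 2 * R * (g ^ (r + c) * g ^ (L - r - c) * g ^ (L' - 2 * c) * g ^ (2 * c)) +
      C ^ 2 * R * (g ^ (r + c) * g ^ (L' - r - c) * g ^ (L - 2 * c) * g ^ (2 * c)) +
      C ^ 3 * R * (g ^ (r + c) * g ^ c * g ^ (L - r - 2 * c) * g ^ L') +
      C ^ 3 * R * (g ^ (r + c) * g ^ c * g ^ (L' - r - 2 * c) * g ^ L) := by ring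
  rw [e, e1, e2, e3, e4]
  have hG : 0 < R * g ^ (L + L') := by positivity
  have hC23 : C ^ 2 ≤ C ^ 3 := pow_le_pow_right₀ hC (by norm_num)
  nlinarith [mul_le_mul_of_nonneg_right hC23 hG.le]

/-- two lengths, thermal expectations -/
theorem comp_lim {T : ℝ} (hT : 0 < T) {m₁ : ℕ} (hm₁ : 1 ≤ m₁) {ρ : ℝ} (hρ : 0 < ρ)
    (hρ1 : ρ ≤ 1) (hc : DD.c T m₁ ≤ ρ ^ (2 * m₁)) {A : List M3} (hA : ∀ X ∈ A, Nice X)
    {c k k' : ℕ} (hc1 : 1 ≤ c) (hck : A.length + 2 * c ≤ 2 * k) (hk' : k ≤ k') {fA fA' : ℝ}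
    (hfA : Tendsto (fun N : ℕ => (PK N (T / N) (A ++ List.replicate (2 * k - A.length) 1)).trace)
      atTop (𝓝 fA))
    (hfA' : Tendsto (fun N : ℕ => (PK N (T / N) (A ++
      List.replicate (2 * k' - A.length) 1)).trace) atTop (𝓝 fA')) :
    |fA * zF (Lk k') T - fA' * zF (Lk k) T| ≤
      4 * (1 + DD.c T c) ^ 3 * gt T ^ (2 * k + 2 * k') * ρ ^ (2 * k - A.length - 2 * c) := by
  have hk : 1 ≤ k := by omega
  have nice_rep : ∀ (n : ℕ), ∀ X ∈ List.replicate n (1 : M3), Nice X := by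
    intro n X hX
    rw [List.eq_of_mem_replicate hX]
    exact nice_one
  obtain ⟨sA, hsA, hsA'⟩ := lim_list hT.le (l := A ++ A.reverse ++ List.replicate (2 * c) 1)
    (k := A.length + c) (by omega) (by simp; ring) (by
      intro X hX
      rw [List.mem_append, List.mem_append, List.mem_reverse] at hX
      rcases hX with (h | h) | h
      · exact hA X h
      · exact hA X h
      · exact nice_rep _ X h)
  have hZc := lim_K hT.le hc1
  have hZ := lim_K hT.le hk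
  have hZ' := lim_K hT.le (show 1 ≤ k' by omega)
  have hg := gt_pos T
  -- at every `δ > 0`
  have hδ : ∀ δ : ℝ, 0 < δ → |fA * zF (Lk k') T - fA' * zF (Lk k) T| ≤
      Rt sA (zF (Lk c) T) (zF (Lk k) T) (zF (Lk k') T) (ρ * gt T + δ) (gt T + δ) c A.length
        (2 * k) (2 * k') := by
    intro δ hδ
    have hcont : Continuous fun p : ℝ × ℝ × ℝ × ℝ => Rt p.1 p.2.1 p.2.2.1 p.2.2.2
        (ρ * gt T + δ) (gt T + δ) c A.length (2 * k) (2 * k') := by
      unfold Rt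
      fun_prop
    have hR := (hcont.tendsto (sA, zF (Lk c) T, zF (Lk k) T, zF (Lk k') T)).comp
      (hsA.prodMk_nhds (hZc.prodMk_nhds (hZ.prodMk_nhds hZ')))
    have hLim := ((hfA.mul hZ').sub (hfA'.mul hZ)).abs
    refine le_of_tendsto_of_tendsto hLim hR ?_
    filter_upwards [ev_gap hT hm₁ hρ hc hδ] with N hN
    obtain ⟨i₀, h1, h2⟩ := hN
    have h3 := comp_fin (Kr_herm N (T / N)) (PK N (T / N) A)
      (by positivity) (by positivity) h1 h2 hck (show 2 * k ≤ 2 * k' by omega)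
    simp only [Function.comp, PK_append, PK_replicate]
    unfold Rt
    rw [← PK_transpose]
    exact h3
  have hcont : Continuous fun δ : ℝ =>
      Rt sA (zF (Lk c) T) (zF (Lk k) T) (zF (Lk k') T) (ρ * gt T + δ) (gt T + δ) c A.length
        (2 * k) (2 * k') := by
    unfold Rt
    fun_prop
  have hlim := (hcont.tendsto 0).comp tendsto_one_div_add_atTop_nhds_zero_nat
  have h0 := ge_of_tendsto' hlim (fun N => hδ (1 / ((N : ℝ) + 1)) (by positivity))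
  simp only [add_zero] at h0
  refine h0.trans ?_
  have hc0 := DD.c_nonneg hT hc1
  have hz : ∀ n, c ≤ n → zF (Lk n) T ≤ gt T ^ (2 * n) * (1 + DD.c T c) := by
    intro n hn
    rw [zF_gt]
    have := DD.c_anti hT hc1 hn
    exact mul_le_mul_of_nonneg_left (by linarith) (by positivity)
  have hzn : ∀ n, 1 ≤ n → 0 ≤ zF (Lk n) T := by
    intro n hn
    rw [zF_gt]
    have := DD.c_nonneg hT hn
    positivity
  refine Rt_le hg (by linarith) hρ hρ1 hck (by omega)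
    ((le_abs_self _).trans (hsA'.trans (hz _ (by omega)))) (hzn c hc1) (hz c le_rfl) ?_ ?_
  · rw [abs_of_nonneg (hzn k hk)]
    exact hz k (by omega)
  · rw [abs_of_nonneg (hzn k' (by omega))]
    exact hz k' (by omega)

end

end Vale.Agent.P348
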