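import Vale.Agent.P348.H997.G10

/-! The thermodynamic limit of local ground-state expectations. -/

namespace Vale.Agent.P348

open Matrix Finset Filter Topology

noncomputable section

/-- constant of the comparison -/
def Dt (r : ℕ) : ℝ := 4 * (2 * Real.exp (27 * 136)) ^ 3 * Real.exp r + 4

lemma Dt_nonneg (r : ℕ) : 0 ≤ Dt r := by unfold Dt; positivity

lemma abstract_comp {X Y z z' b b' fA fA' E : ℝ} (hz : 0 < z) (hz' : 0 < z')
    (h1 : |X * z - fA| ≤ 2 * b * z) (h2 : |Y * z' - fA'| ≤ 2 * b' * z')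
    (h4 : |fA * z' - fA' * z| ≤ E * (z * z')) : |X - Y| ≤ E + 2 * b + 2 * b' := by
  have key : (X - Y) * (z * z') = (X * z - fA) * z' + (fA * z' - fA' * z) -
      (Y * z' - fA') * z := by ring
  have t1 : |(X * z - fA) * z'| ≤ 2 * b * z * z' := by
    rw [abs_mul, abs_of_pos hz']; exact mul_le_mul_of_nonneg_right h1 hz'.le
  have t3 : |(Y * z' - fA') * z| ≤ 2 * b' * z' * z := by
    rw [abs_mul, abs_of_pos hz]; exact mul_le_mul_of_nonneg_right h2 hz.le
  have hzz : 0 < z * z' := mul_pos hz hz'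
  have h5 : |X - Y| * (z * z') ≤ (E + 2 * b + 2 * b') * (z * z') := by
    have e : |X - Y| * (z * z') = |(X - Y) * (z * z')| := by
      rw [abs_mul, abs_of_pos hzz]
    rw [e, key]
    have a1 := abs_sub ((X * z - fA) * z' + (fA * z' - fA' * z)) ((Y * z' - fA') * z)
    have a3 := abs_add_le ((X * z - fA) * z') (fA * z' - fA' * z)
    nlinarith
  exact le_of_mul_le_mul_right h5 hzz

/-- two long rings whose lengths differ at most by a factor two -/
theorem gex_compare {n m n' m' : ℕ} (hL : n + 1 = Lk (m + 1)) (hL' : n' + 1 = Lk (m' + 1))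
    {A : List M3} (hm : 20736 + A.length ≤ m + 1) (hmm : m ≤ m') (hm2 : m' + 1 ≤ 2 * (m + 1))
    {i₀ : Fin (n + 1) → Fin 3} {j₀ : Fin (n' + 1) → Fin 3}
    (h0 : (ringH_isHermitian (n + 1) u1).eigenvalues i₀ = E0 (n + 1))
    (h0' : (ringH_isHermitian (n' + 1) u1).eigenvalues j₀ = E0 (n' + 1))
    (hA : ∀ X ∈ A, Nice X) (x : Fin (n + 1)) (x' : Fin (n' + 1)) :
    |gex i₀ (SF x A) - gex j₀ (SF x' A)| ≤
      Dt A.length * Real.exp (-((m + 1 : ℕ) : ℝ) / 27) := by
  have hL2 : n + 1 = 2 * (m + 1) := by rw [hL]; unfold Lk; omega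
  have hL2' : n' + 1 = 2 * (m' + 1) := by rw [hL']; unfold Lk; omega
  set k := m + 1 with hk
  set k' := m' + 1 with hk'
  have hn : 1 ≤ n := by omega
  have hn' : 1 ≤ n' := by omega
  have hkr : (20736 : ℝ) ≤ k := by exact_mod_cast (show 20736 ≤ k by omega)
  have hkk : (k : ℝ) ≤ k' := by exact_mod_cast (show k ≤ k' by omega)
  have hkk2 : (k' : ℝ) ≤ 2 * k := by exact_mod_cast hm2
  set T : ℝ := 5 / 4 * k' with hT
  have hT480 : 480 ≤ T := by rw [hT]; linarith
  have hT0 : 0 < T := by linarith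
  set c := k / 54 with hc
  have hc1 : 384 ≤ c := by omega
  have hc2 : 54 * c ≤ k := by omega
  have hc3 : k < 54 * (c + 1) := by omega
  have hc1r : (384 : ℝ) ≤ c := by exact_mod_cast hc1
  have hc2r : 54 * (c : ℝ) ≤ k := by exact_mod_cast hc2
  have hc3r : (k : ℝ) < 54 * (c + 1) := by exact_mod_cast hc3
  obtain ⟨m₁, hm₁, hcm⟩ := DD_c_exp hT480
  set ρ : ℝ := Real.exp (-(1 / 52)) with hρ
  have hρ0 : 0 < ρ := Real.exp_pos _
  have hρ1 : ρ ≤ 1 := by rw [hρ, Real.exp_le_one_iff]; norm_num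
  have hρ2 : ∀ x : ℕ, ρ ^ x = Real.exp (-((x : ℝ) / 52)) := by
    intro x
    rw [hρ, ← Real.exp_nat_mul]
    congr 1; ring
  have hcρ : DD.c T m₁ ≤ ρ ^ (2 * m₁) := by
    have h2 : ρ ^ (2 * m₁) = Real.exp (-(1 / 26 * m₁)) := by
      rw [hρ2]; congr 1; push_cast; ring
    rw [h2]
    exact hcm
  have hck : A.length + 2 * c ≤ 2 * k := by omega
  have l2 := lim_one hn hT0.le x (A := A) (by omega)
  have l3 := lim_one hn' hT0.le x' (A := A) (by omega)
  rw [hL2] at l2
  rw [hL2'] at l3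
  have hmain := comp_lim hT0 hm₁ hρ0 hρ1 hcρ hA (show 1 ≤ c by omega) hck
    (show k ≤ k' by omega) l2 l3
  -- the constant
  have hc0 := DD.c_nonneg hT0 (show 1 ≤ c by omega)
  have hz : 1 + DD.c T c ≤ 2 * Real.exp (27 * 136) := by
    have h1 := DD_z_le (j := c) hc1 (T := T) (M := 136) (by rw [hT]; linarith)
      (by rw [hT]; linarith)
    have h3 := DD.z_eq_c T c
    have h4 : 1 ≤ Real.exp (c * DD.ph T) :=
      Real.one_le_exp (mul_nonneg (Nat.cast_nonneg _) (DD.ph_nonneg hT0))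
    nlinarith only [h1, hc0, h3, h4]
  have hb1 : DD.b T k ≤ Real.exp (-(k : ℝ) / 27) := by
    refine (DD_b_exp (k := k) (by omega) (T := T) (by rw [hT]; linarith)).trans
      (Real.exp_le_exp.2 ?_)
    rw [hT]; linarith
  have hb2 : DD.b T k' ≤ Real.exp (-(k : ℝ) / 27) := by
    refine (DD_b_exp (k := k') (by omega) (T := T) (by rw [hT]; linarith)).trans
      (Real.exp_le_exp.2 ?_)
    rw [hT]; linarith
  -- normalisation
  have hg := gt_pos T
  have hzk : ∀ q : ℕ, 1 ≤ q → gt T ^ (2 * q) ≤ zF (Lk q) T := by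
    intro q hq
    rw [zF_gt]
    have := DD.c_nonneg hT0 hq
    exact le_mul_of_one_le_right (by positivity) (by linarith)
  have hz1 := hzk k (by omega)
  have hz2 := hzk k' (by omega)
  have hzpos : 0 < zF (Lk k) T := lt_of_lt_of_le (by positivity) hz1
  have hzpos' : 0 < zF (Lk k') T := lt_of_lt_of_le (by positivity) hz2
  have hgg : gt T ^ (2 * k + 2 * k') ≤ zF (Lk k) T * zF (Lk k') T := by
    rw [pow_add]
    exact mul_le_mul hz1 hz2 (by positivity) hzpos.le
  have hr2 : ρ ^ (2 * k - A.length - 2 * c) ≤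
      Real.exp (A.length : ℝ) * Real.exp (-(k : ℝ) / 27) := by
    rw [hρ2, ← Real.exp_add]
    refine Real.exp_le_exp.2 ?_
    rw [Nat.sub_sub, Nat.cast_sub hck]
    push_cast
    have h4 : (0 : ℝ) ≤ A.length := Nat.cast_nonneg _
    linarith
  have hE : |Th n (SF x A) T * zF (Lk k') T - Th n' (SF x' A) T * zF (Lk k) T| ≤
      (4 * (2 * Real.exp (27 * 136)) ^ 3 * (Real.exp (A.length : ℝ) *
        Real.exp (-(k : ℝ) / 27))) * (zF (Lk k) T * zF (Lk k') T) := by
    refine hmain.trans ?_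
    have h7 : (1 + DD.c T c) ^ 3 ≤ (2 * Real.exp (27 * 136)) ^ 3 :=
      pow_le_pow_left₀ (by linarith) hz 3
    calc 4 * (1 + DD.c T c) ^ 3 * gt T ^ (2 * k + 2 * k') * ρ ^ (2 * k - A.length - 2 * c) ≤
        4 * (2 * Real.exp (27 * 136)) ^ 3 * (zF (Lk k) T * zF (Lk k') T) *
          (Real.exp (A.length : ℝ) * Real.exp (-(k : ℝ) / 27)) := by
          refine mul_le_mul (mul_le_mul (mul_le_mul_of_nonneg_left h7 (by norm_num)) hgg
            (by positivity) (by positivity)) hr2 (by positivity) (by positivity)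
      _ = _ := by ring
  have g1 := gex_diff hn hL h0 (SF_nice x hA) T
  have g2 := gex_diff hn' hL' h0' (SF_nice x' hA) T
  rw [← hk, zF_cast hL] at g1
  rw [← hk', zF_cast hL'] at g2
  have hfin := abstract_comp hzpos hzpos' g1 g2 hE
  refine hfin.trans ?_
  unfold Dt
  rw [add_mul, mul_assoc (4 * (2 * Real.exp (27 * 136)) ^ 3)]
  linarith

/-- iterated comparison -/
lemma chain {a : ℕ → ℝ} {D : ℝ} {K : ℕ} (hK : 27 ≤ K) (hD : 0 ≤ D)
    (h : ∀ m m', K ≤ m + 1 → m ≤ m' → m' + 1 ≤ 2 * (m + 1) →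
      |a m - a m'| ≤ D * Real.exp (-((m + 1 : ℕ) : ℝ) / 27)) :
    ∀ (q m m' : ℕ), m' - m ≤ q → K ≤ m + 1 → m ≤ m' →
      |a m - a m'| ≤ 2 * D * Real.exp (-((m + 1 : ℕ) : ℝ) / 27) := by
  intro q
  induction q with
  | zero =>
    intro m m' h1 _ h3
    have : m = m' := by omega
    subst this
    rw [sub_self, abs_zero]
    positivity
  | succ q ih =>
    intro m m' h1 h2 h3
    have hp : 0 ≤ D * Real.exp (-((m + 1 : ℕ) : ℝ) / 27) := by positivity
    by_cases h4 : m' + 1 ≤ 2 * (m + 1)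
    · have := h m m' h2 h3 h4
      linarith
    · have h5 := h m (2 * m + 1) h2 (by omega) (by omega)
      have h6 := ih (2 * m + 1) m' (by omega) (by omega) (by omega)
      have h7 : 2 * Real.exp (-((2 * m + 1 + 1 : ℕ) : ℝ) / 27) ≤
          Real.exp (-((m + 1 : ℕ) : ℝ) / 27) := by
        have e : -((2 * m + 1 + 1 : ℕ) : ℝ) / 27 =
            -((m + 1 : ℕ) : ℝ) / 27 + -((m + 1 : ℕ) : ℝ) / 27 := by push_cast; ring
        rw [e, Real.exp_add]
        have h8 : (27 : ℝ) ≤ ((m + 1 : ℕ) : ℝ) := by exact_mod_cast (show 27 ≤ m + 1 by omega)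
        have h9 : Real.exp (-((m + 1 : ℕ) : ℝ) / 27) ≤ Real.exp (-1) :=
          Real.exp_le_exp.2 (by linarith)
        have h10 : Real.exp (-1) < 0.3678794412 := Real.exp_neg_one_lt_d9
        have h11 := Real.exp_pos (-((m + 1 : ℕ) : ℝ) / 27)
        nlinarith
      have h8 := abs_sub_le (a m) (a (2 * m + 1)) (a m')
      have h9 := mul_le_mul_of_nonneg_left h7 hD
      linarith

/-- a ground index of the ring of length `2 m + 2` -/
def gi (m : ℕ) : Fin (2 * m + 1 + 1) → Fin 3 :=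
  if h : ∃ i₀, (ringH_isHermitian (2 * m + 1 + 1) u1).eigenvalues i₀ = E0 (2 * m + 1 + 1) then
    Classical.choose h else fun _ => 0

lemma gi_spec {m : ℕ} (hm : 6 ≤ m + 1) :
    (ringH_isHermitian (2 * m + 1 + 1) u1).eigenvalues (gi m) = E0 (2 * m + 1 + 1) := by
  have h : ∃ i₀, (ringH_isHermitian (2 * m + 1 + 1) u1).eigenvalues i₀ =
      E0 (2 * m + 1 + 1) := by
    obtain ⟨i₀, h0, _⟩ := ground_index (L := 2 * m + 1 + 1) (m := m)
      (by unfold Lk; omega) hm
    exact ⟨i₀, h0⟩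
  unfold gi
  rw [dif_pos h]
  exact Classical.choose_spec h

/-- constant of the limit -/
def De (r : ℕ) : ℝ := 3 * Dt r + 4 * Real.exp ((20736 + (r : ℝ)) / 27)

lemma De_nonneg (r : ℕ) : 0 ≤ De r := by
  unfold De; have := Dt_nonneg r; positivity

/-- the thermodynamic limit for products of site matrices -/
theorem lim_gex {A : List M3} (hA : ∀ X ∈ A, Nice X) : ∃ ω : ℝ,
    ∀ {n m : ℕ}, n + 1 = Lk (m + 1) → ∀ {i₀ : Fin (n + 1) → Fin 3},
      (ringH_isHermitian (n + 1) u1).eigenvalues i₀ = E0 (n + 1) → ∀ x : Fin (n + 1),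
        |gex i₀ (SF x A) - ω| ≤ De A.length * Real.exp (-((m + 1 : ℕ) : ℝ) / 27) := by
  set r := A.length with hr
  set a : ℕ → ℝ := fun m => gex (gi m) (SF 0 A) with ha
  have ha1 : ∀ m, |a m| ≤ 1 := fun m => gex_le _ (SF_nice 0 hA)
  have hstep : ∀ m m', 20736 + r ≤ m + 1 → m ≤ m' → m' + 1 ≤ 2 * (m + 1) →
      |a m - a m'| ≤ Dt r * Real.exp (-((m + 1 : ℕ) : ℝ) / 27) := by
    intro m m' h1 h2 h3
    exact gex_compare (by unfold Lk; omega) (by unfold Lk; omega) h1 h2 h3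
      (gi_spec (by omega)) (gi_spec (by omega)) hA 0 0
  have hch := chain (show 27 ≤ 20736 + r by omega) (Dt_nonneg r) hstep
  have htriv : ∀ (m : ℕ) (u v : ℝ), |u| ≤ 1 → |v| ≤ 1 → m + 1 < 20736 + r →
      |u - v| ≤ 2 * Real.exp ((20736 + (r : ℝ)) / 27) * Real.exp (-((m + 1 : ℕ) : ℝ) / 27) := by
    intro m u v hu hv hm
    have h1 := abs_sub u v
    have h2 : 1 ≤ Real.exp ((20736 + (r : ℝ)) / 27) * Real.exp (-((m + 1 : ℕ) : ℝ) / 27) := by
      rw [← Real.exp_add]
      refine Real.one_le_exp ?_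
      have h3 : ((m + 1 : ℕ) : ℝ) ≤ 20736 + r := by exact_mod_cast hm.le
      linarith
    linarith
  set D : ℝ := 2 * Dt r + 2 * Real.exp ((20736 + (r : ℝ)) / 27) with hD
  have hDt := Dt_nonneg r
  have hep := Real.exp_pos ((20736 + (r : ℝ)) / 27)
  have hall : ∀ m m', m ≤ m' → |a m - a m'| ≤ D * Real.exp (-((m + 1 : ℕ) : ℝ) / 27) := by
    intro m m' hmm
    have he := Real.exp_pos (-((m + 1 : ℕ) : ℝ) / 27)
    have p1 := mul_nonneg hDt he.le
    have p2 := mul_pos hep he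
    by_cases h1 : 20736 + r ≤ m + 1
    · have := hch (m' - m) m m' le_rfl h1 hmm
      rw [hD, add_mul]
      linarith
    · have := htriv m _ _ (ha1 m) (ha1 m') (by omega)
      rw [hD, add_mul]
      linarith
  have hb0 : Tendsto (fun m : ℕ => D * Real.exp (-((m + 1 : ℕ) : ℝ) / 27)) atTop (𝓝 0) := by
    have h1 : Tendsto (fun m : ℕ => ((m + 1 : ℕ) : ℝ) / 27) atTop atTop := by
      refine Tendsto.atTop_div_const (by norm_num) ?_
      exact tendsto_natCast_atTop_atTop.comp (tendsto_add_atTop_nat 1)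
    have h2 := (Real.tendsto_exp_neg_atTop_nhds_zero.comp h1).const_mul D
    rw [mul_zero] at h2
    refine h2.congr fun m => ?_
    simp only [Function.comp]
    rw [neg_div]
  have hcau : CauchySeq a := by
    refine cauchySeq_of_le_tendsto_0' _ (fun m m' hmm => ?_) hb0
    rw [Real.dist_eq]
    exact hall m m' hmm
  obtain ⟨ω, hω⟩ := cauchySeq_tendsto_of_complete hcau
  have hω1 : ∀ m, |a m - ω| ≤ D * Real.exp (-((m + 1 : ℕ) : ℝ) / 27) := by
    intro m
    refine le_of_tendsto ((tendsto_const_nhds.sub hω).abs) ?_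
    filter_upwards [eventually_ge_atTop m] with m' hm'
    exact hall m m' hm'
  refine ⟨ω, fun {n m} hL {i₀} h0 x => ?_⟩
  have he := Real.exp_pos (-((m + 1 : ℕ) : ℝ) / 27)
  have p1 := mul_nonneg hDt he.le
  have p2 := mul_pos hep he
  have h1 : |gex i₀ (SF x A) - a m| ≤
      (Dt r + 2 * Real.exp ((20736 + (r : ℝ)) / 27)) * Real.exp (-((m + 1 : ℕ) : ℝ) / 27) := by
    by_cases h1 : 20736 + r ≤ m + 1
    · have := gex_compare hL (show 2 * m + 1 + 1 = Lk (m + 1) by unfold Lk; omega) h1 le_rfl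
        (by omega) h0 (gi_spec (by omega)) hA x 0
      rw [add_mul]
      linarith
    · have := htriv m _ _ (gex_le i₀ (SF_nice x hA)) (ha1 m) (by omega)
      rw [add_mul]
      linarith
  have h2 := abs_sub_le (gex i₀ (SF x A)) (a m) ω
  have h3 := hω1 m
  unfold De
  rw [hD, add_mul] at h3
  rw [add_mul] at h1 ⊢
  linarith

end

end Vale.Agent.P348
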