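import Vale.Agent.P348.H997.G11

/-! The infinite-volume ground state. -/

namespace Vale.Agent.P348

open Matrix Finset Filter Topology

noncomputable section

/-- limits for the matrix units -/
def om {r : ℕ} (p : (Fin r → Fin 3) × (Fin r → Fin 3)) : ℝ :=
  Classical.choose (lim_gex (units_nice p))

lemma om_spec {r : ℕ} (p : (Fin r → Fin 3) × (Fin r → Fin 3)) {n m : ℕ}
    (hL : n + 1 = Lk (m + 1)) {i₀ : Fin (n + 1) → Fin 3}
    (h0 : (ringH_isHermitian (n + 1) u1).eigenvalues i₀ = E0 (n + 1)) (x : Fin (n + 1)) :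
    |gex i₀ (SF x (units p)) - om p| ≤ De r * Real.exp (-((m + 1 : ℕ) : ℝ) / 27) := by
  have h : |gex i₀ (SF x (units p)) - om p| ≤
      De (units p).length * Real.exp (-((m + 1 : ℕ) : ℝ) / 27) :=
    Classical.choose_spec (lim_gex (units_nice p)) hL h0 x
  rw [units_length] at h
  exact h

lemma cart_add {r : ℕ} (A B : Matrix (Fin r → Fin 3) (Fin r → Fin 3) ℂ) :
    cart (A + B) = cart A + cart B := by
  unfold cart; rw [Matrix.mul_add, Matrix.add_mul]

lemma cart_smul {r : ℕ} (c : ℂ) (A : Matrix (Fin r → Fin 3) (Fin r → Fin 3) ℂ) :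
    cart (c • A) = c • cart A := by
  unfold cart; rw [Matrix.mul_smul, Matrix.smul_mul]

/-- the infinite-volume ground state on the observables of `r` consecutive sites -/
def omega (r : ℕ) : Matrix (Fin r → Fin 3) (Fin r → Fin 3) ℂ →ₗ[ℂ] ℂ where
  toFun A := ∑ p : (Fin r → Fin 3) × (Fin r → Fin 3), cart A p.1 p.2 * ((om p : ℝ) : ℂ)
  map_add' A B := by
    rw [cart_add, ← Finset.sum_add_distrib]
    refine Finset.sum_congr rfl fun p _ => ?_
    rw [Matrix.add_apply, add_mul]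
  map_smul' c A := by
    rw [cart_smul, RingHom.id_apply, smul_eq_mul, Finset.mul_sum]
    refine Finset.sum_congr rfl fun p _ => ?_
    rw [Matrix.smul_apply, smul_eq_mul, mul_assoc]

lemma omega_apply (r : ℕ) (A : Matrix (Fin r → Fin 3) (Fin r → Fin 3) ℂ) :
    omega r A = ∑ p : (Fin r → Fin 3) × (Fin r → Fin 3), cart A p.1 p.2 * ((om p : ℝ) : ℂ) := rfl

/-- convergence in Cartesian form -/
theorem cex_omega {n m r : ℕ} (hL : n + 1 = Lk (m + 1)) {i₀ : Fin (n + 1) → Fin 3}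
    (h0 : (ringH_isHermitian (n + 1) u1).eigenvalues i₀ = E0 (n + 1)) (x : Fin (n + 1))
    (hr : r ≤ n + 1) (A : Matrix (Fin r → Fin 3) (Fin r → Fin 3) ℂ) :
    ‖cex i₀ (localOp (n + 1) r x (cart A)) - omega r A‖ ≤
      (∑ p : (Fin r → Fin 3) × (Fin r → Fin 3), ‖cart A p.1 p.2‖) *
        (De r * Real.exp (-((m + 1 : ℕ) : ℝ) / 27)) := by
  rw [cex_local i₀ x hr, omega_apply, ← Finset.sum_sub_distrib, Finset.sum_mul]
  refine (norm_sum_le _ _).trans (Finset.sum_le_sum fun p _ => ?_)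
  rw [← mul_sub, norm_mul, ← Complex.ofReal_sub, Complex.norm_real, Real.norm_eq_abs]
  exact mul_le_mul_of_nonneg_left (om_spec p hL h0 x) (norm_nonneg _)

/-- the thermodynamic limit of local ground-state expectations, with exponential rate -/
theorem thermo_state (r : ℕ) : ∃ C : ℝ, ∀ (L : ℕ) [NeZero L], Even L → 12 ≤ L → r ≤ L →
    ∀ ψ : (Fin L → Fin 3) → ℂ, (haldaneH L).mulVec ψ = (E0 L : ℂ) • ψ →
      ∀ A : Matrix (Fin r → Fin 3) (Fin r → Fin 3) ℂ, (∀ u v, ‖A u v‖ ≤ 1) → ∀ x : Fin L,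
        ‖star ψ ⬝ᵥ (localOp L r x A).mulVec ψ - omega r A * (star ψ ⬝ᵥ ψ)‖ ≤
          C * Real.exp (-(L : ℝ) / 54) * (star ψ ⬝ᵥ ψ).re := by
  refine ⟨81 ^ r * De r, fun L _ hev hL hrL ψ hψ A hA x => ?_⟩
  obtain ⟨n, rfl⟩ : ∃ n, L = n + 1 := ⟨L - 1, by omega⟩
  obtain ⟨m, hLk, hm⟩ := even_Lk hev (by omega)
  obtain ⟨i₀, h0, c, hc⟩ := ground_expect hLk (by omega) hψ
  have tA := localOp_intertwine x hrL A
  rw [hc _ _ tA, ground_norm hc, Complex.ofReal_re]
  have h3 := cex_omega hLk h0 x hrL A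
  have e : ((‖c‖ ^ 2 : ℝ) : ℂ) * cex i₀ (localOp (n + 1) r x (cart A)) -
      omega r A * ((‖c‖ ^ 2 : ℝ) : ℂ) =
      ((‖c‖ ^ 2 : ℝ) : ℂ) * (cex i₀ (localOp (n + 1) r x (cart A)) - omega r A) := by ring
  rw [e, norm_mul, Complex.norm_real, Real.norm_of_nonneg (by positivity), mul_comm]
  refine mul_le_mul_of_nonneg_right ?_ (by positivity)
  refine h3.trans ?_
  have hexp : Real.exp (-((m + 1 : ℕ) : ℝ) / 27) = Real.exp (-((n + 1 : ℕ) : ℝ) / 54) := by
    congr 1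
    have h2 : n + 1 = 2 * (m + 1) := by rw [hLk]; unfold Lk; omega
    rw [h2]; push_cast; ring
  rw [hexp, ← mul_assoc]
  refine mul_le_mul_of_nonneg_right ?_ (Real.exp_pos _).le
  exact mul_le_mul_of_nonneg_right (sum_cart hA) (De_nonneg r)

end

end Vale.Agent.P348
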