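import Vale.Agent.P348.H997.G12

/-! The algebra of local observables. -/

namespace Vale.Agent.P348

open Matrix Finset Filter Topology

noncomputable section

section
variable {n r : ℕ} (x : Fin (n + 1))

lemma pad_mul (U V : Fin r → C3) : (fun i => pad x U i * pad x V i) =
    pad x (fun k => U k * V k) := by
  funext i
  unfold pad
  split_ifs <;> simp

lemma pad_one : pad x (fun _ : Fin r => (1 : C3)) = fun _ => 1 := by
  funext i
  unfold pad
  split_ifs <;> rfl

lemma pad_conj (U : Fin r → C3) : (fun i => (pad x U i)ᴴ) = pad x (fun k => (U k)ᴴ) := by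
  funext i
  unfold pad
  split_ifs
  · rfl
  · exact Matrix.conjTranspose_one

theorem localOp_mul (hr : r ≤ n + 1) (A B : Matrix (Fin r → Fin 3) (Fin r → Fin 3) ℂ) :
    localOp (n + 1) r x (A * B) = localOp (n + 1) r x A * localOp (n + 1) r x B := by
  induction A using Matrix.induction_on' with
  | h_zero => simp [localOp_zero]
  | h_add A A' hA hA' =>
    rw [Matrix.add_mul, localOp_add, localOp_add, hA, hA', Matrix.add_mul]
  | h_std_basis s t c =>
    induction B using Matrix.induction_on' with
    | h_zero => simp [localOp_zero]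
    | h_add B B' hB hB' =>
      rw [Matrix.mul_add, localOp_add, localOp_add, hB, hB', Matrix.mul_add]
    | h_std_basis u v c' =>
      rw [single_smul_one, single_smul_one u v, Matrix.smul_mul, Matrix.mul_smul, localOp_smul,
        localOp_smul, localOp_smul, localOp_smul, Matrix.smul_mul, Matrix.mul_smul,
        single_eq_tensC, single_eq_tensC, tensC_mul, localOp_tensC x hr, localOp_tensC x hr,
        localOp_tensC x hr, tensC_mul, pad_mul]

theorem localOp_conj (hr : r ≤ n + 1) (A : Matrix (Fin r → Fin 3) (Fin r → Fin 3) ℂ) :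
    (localOp (n + 1) r x A)ᴴ = localOp (n + 1) r x Aᴴ := by
  induction A using Matrix.induction_on' with
  | h_zero => simp [localOp_zero]
  | h_add A A' hA hA' =>
    rw [localOp_add, Matrix.conjTranspose_add, Matrix.conjTranspose_add, localOp_add, hA, hA']
  | h_std_basis s t c =>
    rw [single_smul_one, localOp_smul, Matrix.conjTranspose_smul, Matrix.conjTranspose_smul,
      localOp_smul, single_eq_tensC, localOp_tensC x hr, tensC_conj, tensC_conj,
      localOp_tensC x hr, pad_conj]

theorem localOp_one (hr : r ≤ n + 1) : localOp (n + 1) r x 1 = 1 := by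
  rw [← tensC_one, localOp_tensC x hr, pad_one, tensC_one]

/-- one-site operators away from the support commute with the observable -/
theorem onSite_comm_localOp (hr : r ≤ n + 1) {j : Fin (n + 1)}
    (hj : r ≤ ((j - x : Fin (n + 1)) : ℕ)) (S : C3)
    (A : Matrix (Fin r → Fin 3) (Fin r → Fin 3) ℂ) :
    onSite j S * localOp (n + 1) r x A = localOp (n + 1) r x A * onSite j S := by
  induction A using Matrix.induction_on' with
  | h_zero => simp [localOp_zero]
  | h_add A A' hA hA' =>
    rw [localOp_add, Matrix.mul_add, Matrix.add_mul, hA, hA']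
  | h_std_basis s t c =>
    rw [single_smul_one, localOp_smul, Matrix.mul_smul, Matrix.smul_mul, single_eq_tensC,
      localOp_tensC x hr, onSite_eq_tensC, tensC_mul, tensC_mul]
    congr 2
    funext i
    by_cases hi : i = j
    · subst hi
      unfold pad
      rw [if_pos rfl, dif_neg (by omega), Matrix.one_mul, Matrix.mul_one]
    · rw [if_neg hi, Matrix.one_mul, Matrix.mul_one]

end

/-! ### windows -/

section
variable {n q r : ℕ} (z : Fin (n + 1))

lemma win_sub {k : ℕ} (hk : k < n + 1) (i : Fin (n + 1)) :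
    ((i - (z + Fin.ofNat (n + 1) k) : Fin (n + 1)) : ℕ) =
      if k ≤ ((i - z : Fin (n + 1)) : ℕ) then ((i - z : Fin (n + 1)) : ℕ) - k
      else ((i - z : Fin (n + 1)) : ℕ) + (n + 1) - k := by
  have h := sub_val_eq z (z + Fin.ofNat (n + 1) k) i
  rw [add_ofNat_sub z hk] at h
  exact h

lemma pad_pad (x : Fin (q + 1)) (hxr : (x : ℕ) + r ≤ q + 1) (hq : q + 1 ≤ n + 1)
    (U : Fin r → C3) :
    pad z (pad x U) = pad (z + Fin.ofNat (n + 1) (x : ℕ)) U := by
  have hx : (x : ℕ) < q + 1 := x.isLt
  funext i
  have hw := win_sub z (show (x : ℕ) < n + 1 by omega) i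
  have hi : ((i - z : Fin (n + 1)) : ℕ) < n + 1 := (i - z).isLt
  unfold pad
  by_cases h1 : ((i - z : Fin (n + 1)) : ℕ) < q + 1
  · rw [dif_pos h1]
    have hv : (((⟨_, h1⟩ : Fin (q + 1)) - x : Fin (q + 1)) : ℕ) =
        if (x : ℕ) ≤ ((i - z : Fin (n + 1)) : ℕ) then ((i - z : Fin (n + 1)) : ℕ) - x
        else ((i - z : Fin (n + 1)) : ℕ) + (q + 1) - x := by
      rw [Fin.val_sub]
      split_ifs with h
      · have : q + 1 - (x : ℕ) + ((i - z : Fin (n + 1)) : ℕ) =
          (((i - z : Fin (n + 1)) : ℕ) - x) + (q + 1) := by omega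
        rw [this, Nat.add_mod_right, Nat.mod_eq_of_lt (by omega)]
      · rw [Nat.mod_eq_of_lt (by simp only; omega)]
        simp only
        omega
    by_cases h2 : (x : ℕ) ≤ ((i - z : Fin (n + 1)) : ℕ)
    · rw [if_pos h2] at hv hw
      by_cases h3 : ((i - z : Fin (n + 1)) : ℕ) - x < r
      · rw [dif_pos (by rw [hv]; exact h3), dif_pos (by rw [hw]; exact h3)]
        congr 1
        apply Fin.ext
        simp only [hv, hw]
      · rw [dif_neg (by rw [hv]; exact h3), dif_neg (by rw [hw]; exact h3)]
    · rw [if_neg h2] at hv hw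
      rw [dif_neg (by rw [hv]; omega), dif_neg (by rw [hw]; omega)]
  · rw [dif_neg h1, dif_neg]
    rw [hw, if_pos (by omega)]
    omega

theorem localOp_localOp (x : Fin (q + 1)) (hxr : (x : ℕ) + r ≤ q + 1) (hq : q + 1 ≤ n + 1)
    (A : Matrix (Fin r → Fin 3) (Fin r → Fin 3) ℂ) :
    localOp (n + 1) (q + 1) z (localOp (q + 1) r x A) =
      localOp (n + 1) r (z + Fin.ofNat (n + 1) (x : ℕ)) A := by
  induction A using Matrix.induction_on' with
  | h_zero => simp [localOp_zero]
  | h_add A A' hA hA' =>
    rw [localOp_add, localOp_add, localOp_add, hA, hA']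
  | h_std_basis s t c =>
    rw [single_smul_one, localOp_smul, localOp_smul, localOp_smul, single_eq_tensC,
      localOp_tensC x (by omega), localOp_tensC _ hq, localOp_tensC _ (by omega),
      pad_pad z x hxr hq]

theorem localOp_onSite (j : Fin r) (hr : r ≤ n + 1) (S : C3) :
    localOp (n + 1) r z (onSite j S) = onSite (z + Fin.ofNat (n + 1) (j : ℕ)) S := by
  rw [onSite_eq_tensC, onSite_eq_tensC, localOp_tensC z hr]
  congr 1
  funext i
  unfold pad
  have hj := j.isLt
  have hiff : i = z + Fin.ofNat (n + 1) (j : ℕ) ↔ ((i - z : Fin (n + 1)) : ℕ) = j := by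
    constructor
    · rintro rfl
      exact add_ofNat_sub z (by omega)
    · intro h
      rw [← h, add_ofNat_of_sub]
  by_cases h1 : ((i - z : Fin (n + 1)) : ℕ) < r
  · rw [dif_pos h1]
    show (if (⟨_, h1⟩ : Fin r) = j then S else 1) = if i = z + Fin.ofNat (n + 1) (j : ℕ) then S
      else 1
    by_cases h2 : ((i - z : Fin (n + 1)) : ℕ) = j
    · rw [if_pos (show (⟨_, h1⟩ : Fin r) = j from Fin.ext h2), if_pos (hiff.2 h2)]
    · rw [if_neg (show ¬ (⟨_, h1⟩ : Fin r) = j from fun h => h2 (congrArg Fin.val h)),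
        if_neg (fun h => h2 (hiff.1 h))]
  · rw [dif_neg h1, if_neg (fun h => h1 (by rw [hiff.1 h]; exact hj))]

end

end

end Vale.Agent.P348
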