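import Vale.Agent.P348.H997.G13

/-! Locality of the commutator with the Hamiltonian. -/

namespace Vale.Agent.P348

open Matrix Finset Filter Topology

noncomputable section

/-- the bond operator -/
def bd {n : ℕ} (i : Fin (n + 1)) : Matrix (Fin (n + 1) → Fin 3) (Fin (n + 1) → Fin 3) ℂ :=
  ∑ a : Fin 3, onSite i (spin a) * onSite (i + 1) (spin a)

lemma haldaneH_eq (n : ℕ) : haldaneH (n + 1) = ∑ i : Fin (n + 1), bd i := rfl

lemma ofNat_succ' (n k : ℕ) : Fin.ofNat (n + 1) (k + 1) = Fin.ofNat (n + 1) k + 1 := by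
  apply Fin.ext
  rw [Fin.val_add]
  simp [Fin.ofNat, Nat.add_mod]

lemma localOp_openH {n r : ℕ} (x : Fin (n + 1)) (hr : r + 1 ≤ n + 1) :
    localOp (n + 1) (r + 1) x (openH r) =
      ∑ j : Fin r, bd (x + Fin.ofNat (n + 1) (j : ℕ)) := by
  unfold openH
  rw [localOp_sum]
  refine Finset.sum_congr rfl fun j _ => ?_
  rw [localOp_sum]
  unfold bd
  refine Finset.sum_congr rfl fun a _ => ?_
  rw [localOp_mul x hr, localOp_onSite x j.castSucc hr, localOp_onSite x j.succ hr,
    Fin.val_castSucc, Fin.val_succ, ofNat_succ', add_assoc]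

/-- sums over an arc -/
lemma sum_arc {n r : ℕ} {β : Type} [AddCommMonoid β] (x : Fin (n + 1)) (hr : r ≤ n + 1)
    (f : Fin (n + 1) → β) :
    ∑ i ∈ univ.filter (fun i : Fin (n + 1) => ((i - x : Fin (n + 1)) : ℕ) < r), f i =
      ∑ k : Fin r, f (x + Fin.ofNat (n + 1) k) := by
  symm
  refine Finset.sum_nbij (fun k : Fin r => x + Fin.ofNat (n + 1) (k : ℕ)) ?_ ?_ ?_ ?_
  · intro k _
    rw [Finset.mem_filter]
    refine ⟨Finset.mem_univ _, ?_⟩
    rw [add_ofNat_sub x (by have := k.isLt; omega)]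
    exact k.isLt
  · intro k _ l _ hkl
    have h3 := congrArg (fun i : Fin (n + 1) => ((i - x : Fin (n + 1)) : ℕ)) hkl
    simp only at h3
    rw [add_ofNat_sub x (by have := k.isLt; omega),
      add_ofNat_sub x (by have := l.isLt; omega)] at h3
    exact Fin.ext h3
  · intro i hi
    have hi' : ((i - x : Fin (n + 1)) : ℕ) < r := by simpa using hi
    exact ⟨⟨_, hi'⟩, Finset.mem_coe.2 (Finset.mem_univ _), add_ofNat_of_sub x i⟩
  · intro k _
    rfl

/-- the commutator of the Hamiltonian with a local observable is local -/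
theorem comm_local {n r : ℕ} (x : Fin (n + 1)) (hr : r + 2 ≤ n + 1)
    (A : Matrix (Fin r → Fin 3) (Fin r → Fin 3) ℂ) :
    haldaneH (n + 1) * localOp (n + 1) r (x + 1) A -
      localOp (n + 1) r (x + 1) A * haldaneH (n + 1) =
      localOp (n + 1) (r + 2) x
        (openH (r + 1) * localOp (r + 2) r 1 A - localOp (r + 2) r 1 A * openH (r + 1)) := by
  have h1 : x + Fin.ofNat (n + 1) ((1 : Fin (r + 2)) : ℕ) = x + 1 := by
    congr 1
  have hw : localOp (n + 1) (r + 2) x (localOp (r + 2) r 1 A) =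
      localOp (n + 1) r (x + 1) A := by
    have h := localOp_localOp (q := r + 1) x (1 : Fin (r + 2)) (r := r)
      (by simp; omega) (by omega) A
    rw [h1] at h
    exact h
  have hsub : ∀ X Y : Matrix (Fin (r + 2) → Fin 3) (Fin (r + 2) → Fin 3) ℂ,
      localOp (n + 1) (r + 2) x (X - Y) =
        localOp (n + 1) (r + 2) x X - localOp (n + 1) (r + 2) x Y := by
    intro X Y
    have h2 : X - Y = X + (-1 : ℂ) • Y := by rw [neg_one_smul, sub_eq_add_neg]
    rw [h2, localOp_add, localOp_smul, neg_one_smul, sub_eq_add_neg]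
  rw [hsub, localOp_mul x (by omega), localOp_mul x (by omega), hw,
    localOp_openH (r := r + 1) x (by omega), haldaneH_eq]
  rw [Finset.sum_mul, Finset.mul_sum, Finset.sum_mul, Finset.mul_sum, ← Finset.sum_sub_distrib,
    ← Finset.sum_sub_distrib]
  rw [← sum_arc (r := r + 1) x (by omega) (fun i => bd i * localOp (n + 1) r (x + 1) A -
    localOp (n + 1) r (x + 1) A * bd i)]
  symm
  refine Finset.sum_subset (Finset.filter_subset _ _) fun i _ hi => ?_
  have hi' : r + 1 ≤ ((i - x : Fin (n + 1)) : ℕ) := by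
    by_contra h
    exact hi (Finset.mem_filter.2 ⟨Finset.mem_univ _, by omega⟩)
  have hin : ((i - x : Fin (n + 1)) : ℕ) < n + 1 := (i - x).isLt
  have e1 : ((i - (x + 1) : Fin (n + 1)) : ℕ) = ((i - x : Fin (n + 1)) : ℕ) - 1 := by
    have h := win_sub x (show 1 < n + 1 by omega) i
    rw [if_pos (by omega)] at h
    rw [← h]
    rfl
  have e2 : ((i + 1 - (x + 1) : Fin (n + 1)) : ℕ) = ((i - x : Fin (n + 1)) : ℕ) := by
    rw [add_sub_add_right_eq_sub]
  rw [sub_eq_zero]
  unfold bd
  rw [Finset.sum_mul, Finset.mul_sum]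
  refine Finset.sum_congr rfl fun a _ => ?_
  rw [Matrix.mul_assoc, onSite_comm_localOp (x + 1) (by omega) (by rw [e2]; omega),
    ← Matrix.mul_assoc, onSite_comm_localOp (x + 1) (by omega) (by rw [e1]; omega),
    Matrix.mul_assoc]

/-- the commutator of the total spin with a local observable is local -/
theorem spin_local {n r : ℕ} (x : Fin (n + 1)) (hr : r ≤ n + 1) (a : Fin 3)
    (A : Matrix (Fin r → Fin 3) (Fin r → Fin 3) ℂ) :
    totalSpin (n + 1) a * localOp (n + 1) r x A - localOp (n + 1) r x A * totalSpin (n + 1) a =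
      localOp (n + 1) r x (totalSpin r a * A - A * totalSpin r a) := by
  have hsub : ∀ X Y : Matrix (Fin r → Fin 3) (Fin r → Fin 3) ℂ,
      localOp (n + 1) r x (X - Y) = localOp (n + 1) r x X - localOp (n + 1) r x Y := by
    intro X Y
    have h2 : X - Y = X + (-1 : ℂ) • Y := by rw [neg_one_smul, sub_eq_add_neg]
    rw [h2, localOp_add, localOp_smul, neg_one_smul, sub_eq_add_neg]
  have hS : localOp (n + 1) r x (totalSpin r a) =
      ∑ j : Fin r, onSite (x + Fin.ofNat (n + 1) (j : ℕ)) (spin a) := by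
    unfold totalSpin
    rw [localOp_sum]
    exact Finset.sum_congr rfl fun j _ => localOp_onSite x j hr _
  rw [hsub, localOp_mul x hr, localOp_mul x hr, hS]
  unfold totalSpin
  rw [Finset.sum_mul, Finset.mul_sum, Finset.sum_mul, Finset.mul_sum, ← Finset.sum_sub_distrib,
    ← Finset.sum_sub_distrib]
  rw [← sum_arc x hr (fun i => onSite i (spin a) * localOp (n + 1) r x A -
    localOp (n + 1) r x A * onSite i (spin a))]
  symm
  refine Finset.sum_subset (Finset.filter_subset _ _) fun i _ hi => ?_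
  have hi' : r ≤ ((i - x : Fin (n + 1)) : ℕ) := by
    by_contra h
    exact hi (Finset.mem_filter.2 ⟨Finset.mem_univ _, by omega⟩)
  rw [onSite_comm_localOp x hr hi', sub_self]

end

end Vale.Agent.P348
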