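import Vale.Agent.P348.H997.G14

/-! The gap as a quadratic form inequality. -/

namespace Vale.Agent.P348

open Matrix Finset Filter Topology

noncomputable section

/-- quadratic forms in an eigenbasis -/
lemma form_eig {m : Type} [Fintype m] [DecidableEq m] {K : Matrix m m ℝ} (hK : K.IsHermitian)
    (a : m → ℝ) :
    a ⬝ᵥ K.mulVec a = ∑ i, hK.eigenvalues i *
      ((fun s => (hK.eigenvectorUnitary : Matrix m m ℝ) s i) ⬝ᵥ a) ^ 2 ∧
    a ⬝ᵥ a = ∑ i, ((fun s => (hK.eigenvectorUnitary : Matrix m m ℝ) s i) ⬝ᵥ a) ^ 2 := by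
  set U : Matrix m m ℝ := (hK.eigenvectorUnitary : Matrix m m ℝ) with hU
  have hUU : U * Uᵀ = 1 := by
    have h : U * star U = 1 := Unitary.coe_mul_star_self hK.eigenvectorUnitary
    rwa [Matrix.star_eq_conjTranspose, Matrix.conjTranspose_eq_transpose_of_trivial] at h
  have hsp : K = U * diagonal hK.eigenvalues * Uᵀ := by
    have h := hK.spectral_theorem
    have h2 : K = Unitary.conjStarAlgAut ℝ _ hK.eigenvectorUnitary
        (diagonal hK.eigenvalues) := by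
      conv_lhs => rw [h]
      rfl
    rw [Unitary.conjStarAlgAut_apply, Matrix.star_eq_conjTranspose,
      Matrix.conjTranspose_eq_transpose_of_trivial] at h2
    exact h2
  have hv : ∀ i, (fun s => U s i) ⬝ᵥ a = (Uᵀ.mulVec a) i := fun i => rfl
  have hv2 : a ᵥ* U = Uᵀ.mulVec a := (Matrix.mulVec_transpose U a).symm
  constructor
  · conv_lhs => rw [hsp]
    rw [← Matrix.mulVec_mulVec, ← Matrix.mulVec_mulVec, Matrix.dotProduct_mulVec, hv2]
    simp only [dotProduct, Matrix.mulVec_diagonal]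
    refine Finset.sum_congr rfl fun i _ => ?_
    rw [show ∑ s, U s i * a s = (Uᵀ.mulVec a) i from rfl]
    ring
  · have h1 : a ⬝ᵥ a = a ⬝ᵥ (U * Uᵀ).mulVec a := by rw [hUU, Matrix.one_mulVec]
    rw [h1, ← Matrix.mulVec_mulVec, Matrix.dotProduct_mulVec, hv2]
    simp only [dotProduct]
    refine Finset.sum_congr rfl fun i _ => ?_
    rw [show ∑ s, U s i * a s = (Uᵀ.mulVec a) i from rfl]
    ring

/-- excited eigenvalues -/
lemma eig_gap {L : ℕ} [NeZero L] {m : ℕ} (hL : L = Lk (m + 1)) (hm : 6 ≤ m + 1)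
    {i₀ : Fin L → Fin 3} (h0 : (ringH_isHermitian L u1).eigenvalues i₀ = E0 L)
    {i : Fin L → Fin 3} (hi : i ≠ i₀) :
    E0 L + 1 / 25 ≤ (ringH_isHermitian L u1).eigenvalues i := by
  obtain ⟨i₁, h1, hu⟩ := ground_index hL hm
  have h01 : i₀ = i₁ := hu i₀ (h0.trans h1.symm)
  subst hL
  have hne : (ringH_isHermitian (Lk (m + 1)) u1).eigenvalues i ≠ E0 (Lk (m + 1)) := by
    intro h
    exact hi ((hu i (h.trans h1.symm)).trans h01.symm)
  have := DD_gap hm i (by rw [DD_E0]; exact hne)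
  rw [DD_E0] at this
  exact this

/-- the gap as a form inequality, real vectors -/
lemma ring_gap {L : ℕ} [NeZero L] {m : ℕ} (hL : L = Lk (m + 1)) (hm : 6 ≤ m + 1)
    {i₀ : Fin L → Fin 3} (h0 : (ringH_isHermitian L u1).eigenvalues i₀ = E0 L)
    (a : (Fin L → Fin 3) → ℝ) :
    (E0 L + 1 / 25) * (a ⬝ᵥ a) - 1 / 25 * (vcol L i₀ ⬝ᵥ a) ^ 2 ≤
      a ⬝ᵥ (ringH L u1).mulVec a := by
  obtain ⟨h1, h2⟩ := form_eig (ringH_isHermitian L u1) a
  rw [h1, h2]
  have e : (vcol L i₀ ⬝ᵥ a) = (fun s => ((ringH_isHermitian L u1).eigenvectorUnitary :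
    Matrix _ _ ℝ) s i₀) ⬝ᵥ a := rfl
  rw [e]
  set q : (Fin L → Fin 3) → ℝ := fun i => ((fun s =>
    ((ringH_isHermitian L u1).eigenvectorUnitary : Matrix _ _ ℝ) s i) ⬝ᵥ a) ^ 2 with hq
  have hq0 : ∀ i, 0 ≤ q i := fun i => sq_nonneg _
  show (E0 L + 1 / 25) * ∑ i, q i - 1 / 25 * q i₀ ≤
    ∑ i, (ringH_isHermitian L u1).eigenvalues i * q i
  rw [← Finset.add_sum_erase _ _ (Finset.mem_univ i₀),
    ← Finset.add_sum_erase _ (fun i => (ringH_isHermitian L u1).eigenvalues i * q i)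
      (Finset.mem_univ i₀)]
  rw [h0]
  have h3 : (E0 L + 1 / 25) * ∑ i ∈ univ.erase i₀, q i ≤
      ∑ i ∈ univ.erase i₀, (ringH_isHermitian L u1).eigenvalues i * q i := by
    rw [Finset.mul_sum]
    refine Finset.sum_le_sum fun i hi => ?_
    exact mul_le_mul_of_nonneg_right (eig_gap hL hm h0 (Finset.ne_of_mem_erase hi)) (hq0 i)
  linarith

/-- real and imaginary parts of a form -/
lemma form_parts {m : Type} [Fintype m] (K : Matrix m m ℝ) (hK : Kᵀ = K) (φ : m → ℂ) :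
    star φ ⬝ᵥ (K.map (fun x : ℝ => (x : ℂ))).mulVec φ =
      (((fun s => (φ s).re) ⬝ᵥ K.mulVec (fun s => (φ s).re) +
        (fun s => (φ s).im) ⬝ᵥ K.mulVec (fun s => (φ s).im) : ℝ) : ℂ) := by
  set a : m → ℝ := fun s => (φ s).re with ha
  set b : m → ℝ := fun s => (φ s).im with hb
  have hφ : φ = (fun s => ((a s : ℝ) : ℂ)) + Complex.I • (fun s => ((b s : ℝ) : ℂ)) := by
    funext s
    simp only [Pi.add_apply, Pi.smul_apply, smul_eq_mul, ha, hb]
    rw [mul_comm, Complex.re_add_im]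
  have hs : star φ = (fun s => ((a s : ℝ) : ℂ)) - Complex.I • (fun s => ((b s : ℝ) : ℂ)) := by
    funext s
    simp only [Pi.star_apply, Pi.sub_apply, Pi.smul_apply, smul_eq_mul, ha, hb]
    apply Complex.ext <;> simp
  rw [hs]
  conv_lhs => rw [hφ]
  rw [Matrix.mulVec_add, Matrix.mulVec_smul, sub_dotProduct, dotProduct_add, dotProduct_add,
    smul_dotProduct, smul_dotProduct, dotProduct_smul, dotProduct_smul, map_mulVec, map_mulVec,
    map_dot, map_dot, map_dot, map_dot]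
  have hsym : b ⬝ᵥ K.mulVec a = a ⬝ᵥ K.mulVec b := by
    rw [Matrix.dotProduct_mulVec, ← Matrix.mulVec_transpose, hK, dotProduct_comm]
  rw [hsym]
  simp only [smul_eq_mul]
  push_cast
  have hI : Complex.I * Complex.I = -1 := Complex.I_mul_I
  linear_combination (-((b ⬝ᵥ K.mulVec b : ℝ) : ℂ)) * hI

/-- the gap as a form inequality, complex vectors -/
lemma ring_gapC {L : ℕ} [NeZero L] {m : ℕ} (hL : L = Lk (m + 1)) (hm : 6 ≤ m + 1)
    {i₀ : Fin L → Fin 3} (h0 : (ringH_isHermitian L u1).eigenvalues i₀ = E0 L)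
    (φ : (Fin L → Fin 3) → ℂ) :
    (E0 L + 1 / 25) * (star φ ⬝ᵥ φ).re - 1 / 25 * ‖wcol L i₀ ⬝ᵥ φ‖ ^ 2 ≤
      (star φ ⬝ᵥ (AC L).mulVec φ).re := by
  have hsym : (ringH L u1)ᵀ = ringH L u1 := by
    have := ringH_isHermitian L u1
    rwa [Matrix.IsHermitian, Matrix.conjTranspose_eq_transpose_of_trivial] at this
  unfold AC
  rw [form_parts _ hsym, Complex.ofReal_re]
  have h1 := form_parts (1 : Matrix (Fin L → Fin 3) (Fin L → Fin 3) ℝ) Matrix.transpose_one φ
  have hone : (1 : Matrix (Fin L → Fin 3) (Fin L → Fin 3) ℝ).map (fun x : ℝ => (x : ℂ)) = 1 := by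
    ext s t
    simp only [Matrix.one_apply, Matrix.map_apply]
    split_ifs <;> simp
  rw [hone, Matrix.one_mulVec, Matrix.one_mulVec, Matrix.one_mulVec] at h1
  rw [h1, Complex.ofReal_re]
  set a : (Fin L → Fin 3) → ℝ := fun s => (φ s).re with ha
  set b : (Fin L → Fin 3) → ℝ := fun s => (φ s).im with hb
  have h2 : ‖wcol L i₀ ⬝ᵥ φ‖ ^ 2 = (vcol L i₀ ⬝ᵥ a) ^ 2 + (vcol L i₀ ⬝ᵥ b) ^ 2 := by
    have h3 : wcol L i₀ ⬝ᵥ φ = ((vcol L i₀ ⬝ᵥ a : ℝ) : ℂ) + ((vcol L i₀ ⬝ᵥ b : ℝ) : ℂ) *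
        Complex.I := by
      simp only [dotProduct, wcol]
      push_cast
      rw [Finset.sum_mul, ← Finset.sum_add_distrib]
      refine Finset.sum_congr rfl fun s _ => ?_
      rw [mul_assoc, ← mul_add]
      congr 1
      exact (Complex.re_add_im (φ s)).symm
    rw [h3, Complex.sq_norm, Complex.normSq_add_mul_I]
  rw [h2]
  have ga := ring_gap hL hm h0 a
  have gb := ring_gap hL hm h0 b
  linarith

end

end Vale.Agent.P348
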