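import Vale.Agent.P348.H997.G15

/-! Properties of the infinite-volume ground state. -/

namespace Vale.Agent.P348

open Matrix Finset Filter Topology

noncomputable section

/-- change of basis -/
def carT {n : ℕ} (X : Matrix (Fin n → Fin 3) (Fin n → Fin 3) ℂ) :
    Matrix (Fin n → Fin 3) (Fin n → Fin 3) ℂ :=
  tensC (fun _ : Fin n => W) * X * tensC (fun _ : Fin n => W')

lemma carT_eq_cart {r : ℕ} (A : Matrix (Fin r → Fin 3) (Fin r → Fin 3) ℂ) : carT A = cart A := rfl

lemma carT_mul {n : ℕ} (X Y : Matrix (Fin n → Fin 3) (Fin n → Fin 3) ℂ) :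
    carT (X * Y) = carT X * carT Y := by
  unfold carT
  calc tensC (fun _ : Fin n => W) * (X * Y) * tensC (fun _ : Fin n => W') =
      tensC (fun _ : Fin n => W) * (X * 1 * Y) * tensC (fun _ : Fin n => W') := by
        rw [Matrix.mul_one]
    _ = tensC (fun _ : Fin n => W) * (X * (tensC (fun _ : Fin n => W') *
          tensC (fun _ : Fin n => W)) * Y) * tensC (fun _ : Fin n => W') := by rw [TW_mul']
    _ = _ := by simp only [Matrix.mul_assoc]

lemma carT_sub {n : ℕ} (X Y : Matrix (Fin n → Fin 3) (Fin n → Fin 3) ℂ) :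
    carT (X - Y) = carT X - carT Y := by
  unfold carT
  rw [Matrix.mul_sub, Matrix.sub_mul]

lemma TW_conj (n : ℕ) : (tensC (fun _ : Fin n => W))ᴴ = tensC (fun _ : Fin n => W') := by
  rw [← TW'_conj, Matrix.conjTranspose_conjTranspose]

lemma carT_conj {n : ℕ} (X : Matrix (Fin n → Fin 3) (Fin n → Fin 3) ℂ) :
    (carT X)ᴴ = carT Xᴴ := by
  unfold carT
  rw [Matrix.conjTranspose_mul, Matrix.conjTranspose_mul, TW_conj, TW'_conj, Matrix.mul_assoc]

lemma carT_one {n : ℕ} : carT (1 : Matrix (Fin n → Fin 3) (Fin n → Fin 3) ℂ) = 1 := by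
  unfold carT
  rw [Matrix.mul_one, TW_mul]

lemma carT_H (n : ℕ) (hn : 2 ≤ n + 1) : carT (haldaneH (n + 1)) = AC (n + 1) := by
  unfold carT
  rw [haldaneH_conj (n + 1) hn]
  calc tensC (fun _ : Fin (n + 1) => W) * (tensC (fun _ : Fin (n + 1) => W') * AC (n + 1) *
        tensC (fun _ : Fin (n + 1) => W)) * tensC (fun _ : Fin (n + 1) => W') =
      (tensC (fun _ : Fin (n + 1) => W) * tensC (fun _ : Fin (n + 1) => W')) * AC (n + 1) *
        (tensC (fun _ : Fin (n + 1) => W) * tensC (fun _ : Fin (n + 1) => W')) := by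
        simp only [Matrix.mul_assoc]
    _ = _ := by rw [TW_mul, Matrix.one_mul, Matrix.mul_one]

lemma carT_local {n r : ℕ} (x : Fin (n + 1)) (hr : r ≤ n + 1)
    (A : Matrix (Fin r → Fin 3) (Fin r → Fin 3) ℂ) :
    carT (localOp (n + 1) r x A) = localOp (n + 1) r x (cart A) := by
  unfold carT
  rw [localOp_intertwine x hr, Matrix.mul_assoc, TW_mul, Matrix.mul_one]

/-- convergence of expectations along the ground states -/
lemma tends_omega (r : ℕ) (A : Matrix (Fin r → Fin 3) (Fin r → Fin 3) ℂ)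
    (z : ∀ m : ℕ, Fin (2 * m + 1 + 1)) :
    Tendsto (fun m => cex (gi m) (carT (localOp (2 * m + 1 + 1) r (z m) A))) atTop
      (𝓝 (omega r A)) := by
  rw [tendsto_iff_norm_sub_tendsto_zero]
  set M := ∑ p : (Fin r → Fin 3) × (Fin r → Fin 3), ‖cart A p.1 p.2‖
  have h1 : Tendsto (fun m : ℕ => ((m + 1 : ℕ) : ℝ) / 27) atTop atTop := by
    refine Tendsto.atTop_div_const (by norm_num) ?_
    exact tendsto_natCast_atTop_atTop.comp (tendsto_add_atTop_nat 1)
  have h2 := ((Real.tendsto_exp_neg_atTop_nhds_zero.comp h1).const_mul (De r)).const_mul M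
  rw [mul_zero, mul_zero] at h2
  refine squeeze_zero' (Eventually.of_forall fun _ => norm_nonneg _) ?_ h2
  filter_upwards [eventually_ge_atTop (5 + r)] with m hm
  have h3 := cex_omega (n := 2 * m + 1) (m := m) (by unfold Lk; omega) (gi_spec (by omega))
    (z m) (show r ≤ 2 * m + 1 + 1 by omega) A
  rw [carT_local (z m) (by omega)]
  simp only [Function.comp]
  rw [← neg_div]
  exact h3

lemma cex_one {n : ℕ} (i₀ : Fin (n + 1) → Fin 3) : cex i₀ 1 = 1 := by
  unfold cex
  rw [Matrix.one_mulVec, wcol_norm]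

/-- normalisation -/
theorem omega_one (r : ℕ) : omega r 1 = 1 := by
  refine tendsto_nhds_unique (tends_omega r 1 (fun m => 0)) ?_
  refine tendsto_const_nhds.congr' ?_
  filter_upwards [eventually_ge_atTop r] with m hm
  rw [localOp_one _ (by omega), carT_one, cex_one]

/-- consistency and translation invariance -/
theorem omega_window {q r : ℕ} (x : Fin (q + 1)) (hx : (x : ℕ) + r ≤ q + 1)
    (A : Matrix (Fin r → Fin 3) (Fin r → Fin 3) ℂ) :
    omega (q + 1) (localOp (q + 1) r x A) = omega r A := by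
  refine tendsto_nhds_unique (tends_omega (q + 1) (localOp (q + 1) r x A) (fun m => 0))
    ((tends_omega r A (fun m => 0 + Fin.ofNat (2 * m + 1 + 1) (x : ℕ))).congr' ?_)
  filter_upwards [eventually_ge_atTop q] with m hm
  rw [localOp_localOp 0 x hx (by omega)]

/-- norms as sums of squares -/
lemma self_form {m : Type} [Fintype m] [DecidableEq m] (φ : m → ℂ) :
    star φ ⬝ᵥ φ = (((fun s => (φ s).re) ⬝ᵥ (fun s => (φ s).re) +
        (fun s => (φ s).im) ⬝ᵥ (fun s => (φ s).im) : ℝ) : ℂ) := by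
  have h1 := form_parts (1 : Matrix m m ℝ) Matrix.transpose_one φ
  have hone : (1 : Matrix m m ℝ).map (fun x : ℝ => (x : ℂ)) = 1 := by
    ext s t
    simp only [Matrix.one_apply, Matrix.map_apply]
    split_ifs <;> simp
  rwa [hone, Matrix.one_mulVec, Matrix.one_mulVec, Matrix.one_mulVec] at h1

lemma cex_conj_mul {n : ℕ} (i₀ : Fin (n + 1) → Fin 3)
    (Y Z : Matrix (Fin (n + 1) → Fin 3) (Fin (n + 1) → Fin 3) ℂ) :
    cex i₀ (Yᴴ * Z) = star (Y.mulVec (wcol (n + 1) i₀)) ⬝ᵥ Z.mulVec (wcol (n + 1) i₀) := by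
  unfold cex
  rw [Matrix.star_mulVec, wcol_star, ← Matrix.dotProduct_mulVec, Matrix.mulVec_mulVec]

/-- positivity -/
theorem omega_pos (r : ℕ) (A : Matrix (Fin r → Fin 3) (Fin r → Fin 3) ℂ) :
    0 ≤ (omega r (Aᴴ * A)).re ∧ (omega r (Aᴴ * A)).im = 0 := by
  have h := tends_omega r (Aᴴ * A) (fun m => 0)
  have hev : ∀ᶠ m in atTop, 0 ≤ (cex (gi m) (carT (localOp (2 * m + 1 + 1) r 0 (Aᴴ * A)))).re ∧
      (cex (gi m) (carT (localOp (2 * m + 1 + 1) r 0 (Aᴴ * A)))).im = 0 := by
    filter_upwards [eventually_ge_atTop r] with m hm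
    rw [localOp_mul _ (by omega), ← localOp_conj _ (by omega), carT_mul, ← carT_conj, cex_conj_mul,
      self_form, Complex.ofReal_re, Complex.ofReal_im]
    refine ⟨add_nonneg ?_ ?_, rfl⟩
    · exact Finset.sum_nonneg fun s _ => mul_self_nonneg _
    · exact Finset.sum_nonneg fun s _ => mul_self_nonneg _
  constructor
  · exact ge_of_tendsto ((Complex.continuous_re.tendsto _).comp h) (hev.mono fun m hm => hm.1)
  · refine tendsto_nhds_unique ((Complex.continuous_im.tendsto _).comp h) ?_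
    refine tendsto_const_nhds.congr' ?_
    filter_upwards [hev] with m hm
    exact hm.2.symm

/-- the ground vector in the spin basis -/
lemma AC_ground {n : ℕ} {i₀ : Fin (n + 1) → Fin 3}
    (h0 : (ringH_isHermitian (n + 1) u1).eigenvalues i₀ = E0 (n + 1)) :
    (AC (n + 1)).mulVec (wcol (n + 1) i₀) = (E0 (n + 1) : ℂ) • wcol (n + 1) i₀ := by
  unfold AC wcol
  rw [map_mulVec, vcol_eig, h0]
  funext s
  simp

lemma gs_ground {n : ℕ} (hn : 2 ≤ n + 1) {i₀ : Fin (n + 1) → Fin 3}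
    (h0 : (ringH_isHermitian (n + 1) u1).eigenvalues i₀ = E0 (n + 1)) :
    (haldaneH (n + 1)).mulVec ((tensC (fun _ : Fin (n + 1) => W')).mulVec (wcol (n + 1) i₀)) =
      (E0 (n + 1) : ℂ) • (tensC (fun _ : Fin (n + 1) => W')).mulVec (wcol (n + 1) i₀) := by
  have h : haldaneH (n + 1) * tensC (fun _ : Fin (n + 1) => W') =
      tensC (fun _ : Fin (n + 1) => W') * AC (n + 1) := by
    rw [← carT_H n hn]
    unfold carT
    rw [← Matrix.mul_assoc, ← Matrix.mul_assoc, TW_mul', Matrix.one_mul]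
  rw [Matrix.mulVec_mulVec, h, ← Matrix.mulVec_mulVec, AC_ground h0, Matrix.mulVec_smul]

lemma cex_carT {n : ℕ} (i₀ : Fin (n + 1) → Fin 3)
    (X : Matrix (Fin (n + 1) → Fin 3) (Fin (n + 1) → Fin 3) ℂ) :
    cex i₀ (carT X) = star ((tensC (fun _ : Fin (n + 1) => W')).mulVec (wcol (n + 1) i₀)) ⬝ᵥ
      X.mulVec ((tensC (fun _ : Fin (n + 1) => W')).mulVec (wcol (n + 1) i₀)) := by
  unfold cex carT
  rw [Matrix.star_mulVec, TW'_conj, wcol_star, ← Matrix.dotProduct_mulVec,
    ← Matrix.mulVec_mulVec, ← Matrix.mulVec_mulVec]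

/-- rotation invariance -/
theorem omega_spin (r : ℕ) (a : Fin 3) (A : Matrix (Fin r → Fin 3) (Fin r → Fin 3) ℂ) :
    omega r (totalSpin r a * A - A * totalSpin r a) = 0 := by
  refine tendsto_nhds_unique (tends_omega r _ (fun m => 0)) ?_
  refine tendsto_const_nhds.congr' ?_
  filter_upwards [eventually_ge_atTop (5 + r)] with m hm
  rw [← spin_local 0 (by omega), cex_carT]
  refine (expect_comm ?_ _).symm
  exact singlet_all (2 * m + 1 + 1) ⟨m + 1, by ring⟩ (by omega)
    (gs_ground (by omega) (gi_spec (by omega))) a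

end

end Vale.Agent.P348
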