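import Vale.Agent.P348.H997.G16

/-! Gap, clustering and energy density of the infinite-volume ground state. -/

namespace Vale.Agent.P348

open Matrix Finset Filter Topology

noncomputable section

/-- the gap at finite length, in the ground state -/
lemma cex_gap {n m : ℕ} (hL : n + 1 = Lk (m + 1)) (hm : 6 ≤ m + 1) {i₀ : Fin (n + 1) → Fin 3}
    (h0 : (ringH_isHermitian (n + 1) u1).eigenvalues i₀ = E0 (n + 1))
    (Y : Matrix (Fin (n + 1) → Fin 3) (Fin (n + 1) → Fin 3) ℂ) :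
    1 / 25 * ((cex i₀ (Yᴴ * Y)).re - ‖cex i₀ Y‖ ^ 2) ≤
      (cex i₀ (Yᴴ * (AC (n + 1) * Y - Y * AC (n + 1)))).re := by
  set φ := Y.mulVec (wcol (n + 1) i₀) with hφ
  have h1 : cex i₀ (Yᴴ * Y) = star φ ⬝ᵥ φ := cex_conj_mul i₀ Y Y
  have h2 : cex i₀ (Yᴴ * (AC (n + 1) * Y - Y * AC (n + 1))) =
      star φ ⬝ᵥ (AC (n + 1)).mulVec φ - (E0 (n + 1) : ℂ) * (star φ ⬝ᵥ φ) := by
    rw [cex_conj_mul, Matrix.sub_mulVec, ← Matrix.mulVec_mulVec, ← Matrix.mulVec_mulVec,
      AC_ground h0, Matrix.mulVec_smul, dotProduct_sub, dotProduct_smul, smul_eq_mul]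
  have h3 : cex i₀ Y = wcol (n + 1) i₀ ⬝ᵥ φ := rfl
  rw [h1, h2, h3, Complex.sub_re, Complex.re_ofReal_mul]
  have h4 := ring_gapC hL hm h0 φ
  linarith

/-- the bulk gap of the infinite-volume ground state -/
theorem omega_gap (r : ℕ) (A : Matrix (Fin r → Fin 3) (Fin r → Fin 3) ℂ) :
    1 / 25 * ((omega r (Aᴴ * A)).re - ‖omega r A‖ ^ 2) ≤
      (omega (r + 2) ((localOp (r + 2) r 1 A)ᴴ *
        (openH (r + 1) * localOp (r + 2) r 1 A - localOp (r + 2) r 1 A * openH (r + 1)))).re := by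
  have t1 := tends_omega r (Aᴴ * A) (fun m => (0 : Fin (2 * m + 1 + 1)) + 1)
  have t2 := tends_omega r A (fun m => (0 : Fin (2 * m + 1 + 1)) + 1)
  have t3 := tends_omega (r + 2) ((localOp (r + 2) r 1 A)ᴴ *
        (openH (r + 1) * localOp (r + 2) r 1 A - localOp (r + 2) r 1 A * openH (r + 1)))
        (fun m => 0)
  have s1 := (((Complex.continuous_re.tendsto _).comp t1).sub
    ((t2.norm).pow 2)).const_mul (1 / 25 : ℝ)
  have s3 := (Complex.continuous_re.tendsto _).comp t3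
  refine le_of_tendsto_of_tendsto s1 s3 ?_
  filter_upwards [eventually_ge_atTop (5 + r)] with m hm
  have hL : 2 * m + 1 + 1 = Lk (m + 1) := by unfold Lk; omega
  have hr : r ≤ 2 * m + 1 + 1 := by omega
  have h0 := gi_spec (m := m) (by omega)
  set x : Fin (2 * m + 1 + 1) := 0 with hx
  have h := cex_gap hL (by omega) h0 (carT (localOp (2 * m + 1 + 1) r (x + 1) A))
  have hw : localOp (2 * m + 1 + 1) (r + 2) x (localOp (r + 2) r 1 A) =
      localOp (2 * m + 1 + 1) r (x + 1) A := by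
    have h := localOp_localOp (q := r + 1) x (1 : Fin (r + 2)) (r := r)
      (by simp; omega) (by omega) A
    exact h
  simp only [Function.comp]
  rw [localOp_mul (x + 1) hr, ← localOp_conj (x + 1) hr, carT_mul, ← carT_conj,
    localOp_mul x (by omega), ← localOp_conj x (by omega), hw, ← comm_local x (by omega),
    carT_mul, ← carT_conj, carT_sub, carT_mul, carT_mul, carT_H _ (by omega)]
  exact h

/-- exponential clustering of the infinite-volume ground state -/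
theorem omega_cluster (r s : ℕ) : ∃ C : ℝ, ∀ (q : ℕ) (x y : Fin (q + 1)),
    (x : ℕ) + r ≤ y → (y : ℕ) + s ≤ q + 1 →
    ∀ (A : Matrix (Fin r → Fin 3) (Fin r → Fin 3) ℂ)
      (B : Matrix (Fin s → Fin 3) (Fin s → Fin 3) ℂ),
      (∀ u v, ‖A u v‖ ≤ 1) → (∀ u v, ‖B u v‖ ≤ 1) →
      ‖omega (q + 1) (localOp (q + 1) r x A * localOp (q + 1) s y B) -
        omega r A * omega s B‖ ≤ C * Real.exp (-(((y : ℕ) - x - r : ℕ) : ℝ) / 54) := by
  refine ⟨81 ^ r * 81 ^ s * Cn r s, fun q x y h1 h2 A B hA hB => ?_⟩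
  have hx : (x : ℕ) < q + 1 := x.isLt
  have hy : (y : ℕ) < q + 1 := y.isLt
  have t1 := tends_omega (q + 1) (localOp (q + 1) r x A * localOp (q + 1) s y B)
    (fun m => 0)
  have t2 := tends_omega r A (fun m => 0 + Fin.ofNat (2 * m + 1 + 1) (x : ℕ))
  have t3 := tends_omega s B (fun m => 0 + Fin.ofNat (2 * m + 1 + 1) (y : ℕ))
  refine le_of_tendsto ((t1.sub (t2.mul t3)).norm) ?_
  filter_upwards [eventually_ge_atTop (5 + 2 * (q + 1))] with m hm
  have hL : 2 * m + 1 + 1 = Lk (m + 1) := by unfold Lk; omega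
  have h0 := gi_spec (m := m) (by omega)
  rw [localOp_mul 0 (by omega), localOp_localOp 0 x (by omega) (by omega),
    localOp_localOp 0 y (by omega) (by omega), carT_mul, carT_local _ (by omega),
    carT_local _ (by omega)]
  set x' : Fin (2 * m + 1 + 1) := 0 + Fin.ofNat (2 * m + 1 + 1) (x : ℕ) with hx'
  set y' : Fin (2 * m + 1 + 1) := 0 + Fin.ofNat (2 * m + 1 + 1) (y : ℕ) with hy'
  have hxy : ((y' - x' : Fin (2 * m + 1 + 1)) : ℕ) = y - x := by
    have h := win_sub (n := 2 * m + 1) 0 (show (x : ℕ) < 2 * m + 1 + 1 by omega) y'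
    rw [← hx'] at h
    have hy0 : ((y' - 0 : Fin (2 * m + 1 + 1)) : ℕ) = y :=
      add_ofNat_sub (n := 2 * m + 1) 0 (by omega)
    rw [hy0, if_pos (by omega)] at h
    exact h
  have h3 := cex_cluster hL h0 x' y' (r := r) (s := s) (by rw [hxy]; omega)
    (by rw [hxy]; omega) (cart A) (cart B)
  refine h3.trans ?_
  have hmin : min (((y' - x' : Fin (2 * m + 1 + 1)) : ℕ) - r)
      (2 * m + 1 + 1 - (((y' - x' : Fin (2 * m + 1 + 1)) : ℕ) + s)) = (y : ℕ) - x - r := by
    rw [hxy]; omega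
  rw [hmin]
  have hcn : 0 ≤ Cn r s := by
    unfold Cn
    have := Cg_nonneg r s
    positivity
  have s1 := sum_cart hA
  have s2 := sum_cart hB
  calc _ ≤ 81 ^ r * 81 ^ s * (Cn r s * Real.exp (-(((y : ℕ) - x - r : ℕ) : ℝ) / 54)) := by
        refine mul_le_mul_of_nonneg_right ?_ (by positivity)
        exact mul_le_mul s1 s2 (Finset.sum_nonneg fun _ _ => norm_nonneg _) (by positivity)
    _ = _ := by ring

/-- the energy density is the expectation of the bond energy -/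
theorem omega_energy : omega 2 (openH 1) = ((DD.e0 / 2 : ℝ) : ℂ) := by
  set h := openH 1 with hh
  -- every bond
  have hbd : ∀ (n : ℕ), 2 ≤ n + 1 → ∀ i : Fin (n + 1), localOp (n + 1) 2 i h = bd i := by
    intro n hn i
    rw [hh, localOp_openH i (by omega)]
    simp
  set M := ∑ p : (Fin 2 → Fin 3) × (Fin 2 → Fin 3), ‖cart h p.1 p.2‖ with hM
  have hM0 : 0 ≤ M := Finset.sum_nonneg fun _ _ => norm_nonneg _
  have hkey : ∀ m : ℕ, 5 ≤ m → ‖omega 2 h - ((DD.e0 / 2 : ℝ) : ℂ)‖ ≤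
      M * (De 2 * Real.exp (-((m + 1 : ℕ) : ℝ) / 27)) +
        Real.exp (-(((2 * m + 1 + 1 : ℕ) : ℝ) / 54)) := by
    intro m hm
    have hL : 2 * m + 1 + 1 = Lk (m + 1) := by unfold Lk; omega
    have h0 := gi_spec (m := m) (by omega)
    set N : ℕ := 2 * m + 1 + 1 with hN
    have hNpos : (1 : ℝ) ≤ ((2 * m + 1 + 1 : ℕ) : ℝ) := by exact_mod_cast (by omega)
    have hE : cex (gi m) (carT (haldaneH (2 * m + 1 + 1))) = (E0 (2 * m + 1 + 1) : ℂ) := by
      rw [carT_H _ (by omega)]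
      unfold cex
      rw [AC_ground h0, dotProduct_smul, wcol_norm, smul_eq_mul, mul_one]
    have hsum : cex (gi m) (carT (haldaneH (2 * m + 1 + 1))) =
        ∑ i : Fin (2 * m + 1 + 1), cex (gi m) (localOp (2 * m + 1 + 1) 2 i (cart h)) := by
      have h1 : carT (haldaneH (2 * m + 1 + 1)) =
          ∑ i : Fin (2 * m + 1 + 1), localOp (2 * m + 1 + 1) 2 i (cart h) := by
        rw [haldaneH_eq]
        unfold carT
        rw [Finset.mul_sum, Finset.sum_mul]
        refine Finset.sum_congr rfl fun i _ => ?_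
        rw [← hbd _ (by omega) i]
        exact carT_local i (by omega) h
      rw [h1, cex_sum]
    have h1 : ‖(E0 (2 * m + 1 + 1) : ℂ) - ((2 * m + 1 + 1 : ℕ) : ℝ) * omega 2 h‖ ≤
        ((2 * m + 1 + 1 : ℕ) : ℝ) * (M * (De 2 * Real.exp (-((m + 1 : ℕ) : ℝ) / 27))) := by
      have e : (E0 (2 * m + 1 + 1) : ℂ) - ((2 * m + 1 + 1 : ℕ) : ℝ) * omega 2 h =
          ∑ i : Fin (2 * m + 1 + 1),
            (cex (gi m) (localOp (2 * m + 1 + 1) 2 i (cart h)) - omega 2 h) := by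
        rw [Finset.sum_sub_distrib, ← hsum, hE, Finset.sum_const, Finset.card_univ,
          Fintype.card_fin, nsmul_eq_mul]
        push_cast
        rfl
      rw [e]
      refine (norm_sum_le _ _).trans ?_
      refine (Finset.sum_le_sum fun i _ => cex_omega hL h0 i (by omega) h).trans ?_
      rw [Finset.sum_const, Finset.card_univ, Fintype.card_fin, nsmul_eq_mul]
    have h2 := energy_corr (2 * m + 1 + 1) ⟨m + 1, by ring⟩ (by omega)
    set R : ℝ := ((2 * m + 1 + 1 : ℕ) : ℝ) with hR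
    have h3 : ‖((DD.e0 / 2 : ℝ) : ℂ) * R - (E0 (2 * m + 1 + 1) : ℂ)‖ ≤ Real.exp (-(R / 54)) := by
      rw [← Complex.ofReal_mul, ← Complex.ofReal_sub, Complex.norm_real, Real.norm_eq_abs,
        abs_of_nonneg h2.1]
      exact h2.2
    have h4 : R * ‖omega 2 h - ((DD.e0 / 2 : ℝ) : ℂ)‖ ≤
        R * (M * (De 2 * Real.exp (-((m + 1 : ℕ) : ℝ) / 27))) + Real.exp (-(R / 54)) := by
      have e : R * ‖omega 2 h - ((DD.e0 / 2 : ℝ) : ℂ)‖ =
          ‖((E0 (2 * m + 1 + 1) : ℂ) - R * omega 2 h) +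
            (((DD.e0 / 2 : ℝ) : ℂ) * R - (E0 (2 * m + 1 + 1) : ℂ))‖ := by
        have e1 : ((E0 (2 * m + 1 + 1) : ℂ) - R * omega 2 h) +
            (((DD.e0 / 2 : ℝ) : ℂ) * R - (E0 (2 * m + 1 + 1) : ℂ)) =
            -((R : ℂ) * (omega 2 h - ((DD.e0 / 2 : ℝ) : ℂ))) := by ring
        rw [e1, norm_neg, norm_mul, Complex.norm_real, Real.norm_of_nonneg (by linarith)]
      rw [e]
      exact (norm_add_le _ _).trans (add_le_add h1 h3)
    have h5 : Real.exp (-(R / 54)) ≤ R * Real.exp (-(R / 54)) :=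
      le_mul_of_one_le_left (Real.exp_pos _).le hNpos
    have h6 : R * ‖omega 2 h - ((DD.e0 / 2 : ℝ) : ℂ)‖ ≤
        R * (M * (De 2 * Real.exp (-((m + 1 : ℕ) : ℝ) / 27)) + Real.exp (-(R / 54))) := by
      rw [mul_add]; linarith
    exact le_of_mul_le_mul_left h6 (by linarith)
  have hlim : Tendsto (fun m : ℕ => M * (De 2 * Real.exp (-((m + 1 : ℕ) : ℝ) / 27)) +
        Real.exp (-(((2 * m + 1 + 1 : ℕ) : ℝ) / 54))) atTop (𝓝 0) := by
    have h1 : Tendsto (fun m : ℕ => ((m + 1 : ℕ) : ℝ) / 27) atTop atTop := by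
      refine Tendsto.atTop_div_const (by norm_num) ?_
      exact tendsto_natCast_atTop_atTop.comp (tendsto_add_atTop_nat 1)
    have h2 := Real.tendsto_exp_neg_atTop_nhds_zero.comp h1
    have h3 := ((h2.const_mul (De 2)).const_mul M).add h2
    rw [mul_zero, mul_zero, add_zero] at h3
    refine h3.congr fun m => ?_
    simp only [Function.comp]
    rw [← neg_div]
    congr 2
    push_cast
    ring
  have h0 := ge_of_tendsto hlim (by
    filter_upwards [eventually_ge_atTop 5] with m hm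
    exact hkey m hm)
  exact sub_eq_zero.1 (norm_le_zero_iff.1 h0)

end

end Vale.Agent.P348
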