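import Vale.Agent.P348.H997.Two
import Vale.Agent.P348.H997.Fin

/-! The crossed-channel bound in the limit, normalised. -/

namespace Vale.Agent.P348

open Matrix Finset Filter Topology

noncomputable section

lemma zF_cast {n m : ℕ} (h : n + 1 = Lk m) (T : ℝ) : zF (n + 1) T = zF (Lk m) T := by
  have : ZL u1 u1 T (n + 1) = ZL u1 u1 T (Lk m) := by rw [h]
  rw [ZL_eq, ZL_eq] at this
  exact this

/-- the two arcs can be exchanged -/
lemma lim_G' {T : ℝ} (hT : 0 ≤ T) {n : ℕ} (hn : 1 ≤ n) {i j : Fin (n + 1)} (hij : i < j)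
    (a : Fin 3) {p q : ℕ} (h : (p = (j : ℕ) - i - 1 ∧ q = n + i - j) ∨
      (q = (j : ℕ) - i - 1 ∧ p = n + i - j)) :
    Tendsto (fun N : ℕ => (Kr N (T / N) (J a) * Kr N (T / N) 1 ^ p *
      Kr N (T / N) (J a) * Kr N (T / N) 1 ^ q).trace) atTop (𝓝 (Gf n i j a T)) := by
  rcases h with ⟨rfl, rfl⟩ | ⟨rfl, rfl⟩
  · exact lim_G hT hn hij a
  · refine (lim_G hT hn hij a).congr fun N => ?_
    rw [Matrix.mul_assoc (_ * _), Matrix.trace_mul_comm, ← Matrix.mul_assoc]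

/-- crossed-channel bound with free rates -/
theorem Gf_bound_free {T : ℝ} (hT : 0 ≤ T) {n : ℕ} (hn : 1 ≤ n) {i j : Fin (n + 1)} (hij : i < j)
    (a : Fin 3) {μ l : ℝ} (hμ0 : 0 ≤ μ) (hl0 : 0 ≤ l) {m₁ m₂ : ℕ} (hm₁ : 1 ≤ m₁) (hm₂ : 1 ≤ m₂)
    (hμ : (zF (Lk m₁) T - zsF (Lk m₁) T) / 2 < μ ^ (2 * m₁))
    (hl : zF (Lk m₂) T < l ^ (2 * m₂)) {j₁ j₂ : ℕ} (hj₁ : 2 ≤ j₁) (hj₂ : 2 ≤ j₂)
    {p q : ℕ} (hpq : (p = (j : ℕ) - i - 1 ∧ q = n + i - j) ∨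
      (q = (j : ℕ) - i - 1 ∧ p = n + i - j)) (hd : 1 ≤ p)
    (h₁ : 2 * j₁ - 2 ≤ q) (h₂ : 2 * j₂ - 2 ≤ q) :
    |Gf n i j a T| ≤ μ ^ p * l ^ (q - (2 * j₁ - 2)) * zF (Lk j₁) T +
      l ^ p * μ ^ (q - (2 * j₂ - 2)) * zF (Lk j₂) T := by
  have hG := (lim_G' hT hn hij a hpq).abs
  have hr : ∀ (c : ℕ) (_ : 2 ≤ c), Tendsto (fun N : ℕ => (Kr N (T / N) (J a) * Kr N (T / N) (J a) *
      Kr N (T / N) 1 ^ (2 * c - 2)).trace) atTop
      (𝓝 (Gf (2 * c - 1) ⟨0, by omega⟩ ⟨1, by omega⟩ a T)) := by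
    intro c hc
    have h := lim_G hT (n := 2 * c - 1) (by omega) (i := ⟨0, by omega⟩) (j := ⟨1, by omega⟩)
      (by simp [Fin.lt_def]) a
    have e : 2 * c - 1 + 0 - 1 = 2 * c - 2 := by omega
    simp only [Nat.sub_zero, Nat.sub_self, pow_zero, Matrix.mul_one, e] at h
    exact h
  have hz : ∀ (c : ℕ) (_ : 2 ≤ c), Gf (2 * c - 1) ⟨0, by omega⟩ ⟨1, by omega⟩ a T ≤ zF (Lk c) T := by
    intro c hc
    have h := Gf_le (n := 2 * c - 1) (by omega) ⟨0, by omega⟩ ⟨1, by omega⟩ a T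
    rw [zF_cast (m := c) (by unfold Lk; omega)] at h
    exact (le_abs_self _).trans h
  have hev1 := (((lim_K hT hm₁).sub (lim_KV hT hm₁ a)).div_const 2).eventually_lt_const hμ
  have hev2 := (lim_K hT hm₂).eventually_lt_const hl
  have hlim := ((hr j₁ hj₁).const_mul
      (μ ^ p * l ^ (q - (2 * j₁ - 2)))).add
    ((hr j₂ hj₂).const_mul (l ^ p * μ ^ (q - (2 * j₂ - 2))))
  have hle : |Gf n i j a T| ≤ μ ^ p * l ^ (q - (2 * j₁ - 2)) *
      Gf (2 * j₁ - 1) ⟨0, by omega⟩ ⟨1, by omega⟩ a T +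
      l ^ p * μ ^ (q - (2 * j₂ - 2)) *
      Gf (2 * j₂ - 1) ⟨0, by omega⟩ ⟨1, by omega⟩ a T := by
    refine le_of_tendsto_of_tendsto hG hlim ?_
    filter_upwards [hev1, hev2] with N h3 h4
    have hMV : Kr N (T / N) (J a) * Vc N (dg (uo a)) =
        -(Vc N (dg (uo a)) * Kr N (T / N) (J a)) := by
      rw [Kr_Vc (uo_rot a) (uo_J a), Kr_neg, Matrix.mul_neg]
    have hKV : Kr N (T / N) 1 * Vc N (dg (uo a)) = Vc N (dg (uo a)) * Kr N (T / N) 1 :=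
      Kr_comm_Vc (uo_rot a) (by simp) N _
    have hVt : (Vc N (dg (uo a)))ᵀ = Vc N (dg (uo a)) := by rw [Vc_transpose, dg_tr]
    have hVV : Vc N (dg (uo a)) * Vc N (dg (uo a)) = 1 := by
      rw [Vc_mul, dg_mul_self, Vc_one]
    exact two_point_split (Kr_transpose N _ _) (Kr_transpose N _ _) hVt hVV hKV hMV hμ0 hl0
      hm₁ hm₂ h3.le h4.le hd (by omega) h₁ h₂ (by omega) (by omega)
      ⟨j₁ - 1, by omega⟩ ⟨j₂ - 1, by omega⟩
  refine hle.trans (add_le_add ?_ ?_)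
  · exact mul_le_mul_of_nonneg_left (hz j₁ hj₁) (by positivity)
  · exact mul_le_mul_of_nonneg_left (hz j₂ hj₂) (by positivity)

/-- top eigenvalue per site of the crossed channel -/
def gt (T : ℝ) : ℝ := Real.exp ((DD.ph T - T * DD.e0) / 2)

lemma gt_pos (T : ℝ) : 0 < gt T := Real.exp_pos _

lemma zF_gt (T : ℝ) (k : ℕ) : zF (Lk k) T = gt T ^ (2 * k) * (1 + DD.c T k) := by
  have h1 : zF (Lk k) T = DD.z T k * Real.exp (-(T * (k * DD.e0))) := by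
    unfold TwoChannel.z
    rw [mul_assoc, ← Real.exp_add, add_neg_cancel, Real.exp_zero, mul_one, DD_Z]
  rw [h1, TwoChannel.z_eq_c, gt, ← Real.exp_nat_mul]
  have e : Real.exp ((2 * k : ℕ) * ((DD.ph T - T * DD.e0) / 2)) =
      Real.exp (k * DD.ph T) * Real.exp (-(T * (k * DD.e0))) := by
    rw [← Real.exp_add]; congr 1; push_cast; ring
  rw [e]; ring

lemma zs_gt {T : ℝ} (hT : 0 < T) {k : ℕ} (hk : 1 ≤ k) :
    (zF (Lk k) T - zsF (Lk k) T) / 2 ≤ 2 / 3 * DD.c T k * gt T ^ (2 * k) := by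
  -- normalise
  have hp := (psN_p_top hT).nonneg hk
  have hz : zN T k = pN T k + 3 * qN T k := by unfold pN qN; ring
  have hq : 2 * qN T k ≤ 2 / 3 * DD.c T k * DD.Lam T ^ k := by
    have h1 := DD.z_eq_c T k
    rw [DD.exp_ph hT, ← zN_eq] at h1
    linarith
  have h2 : 2 * qN T k = (zF (Lk k) T - zsF (Lk k) T) / 2 * nrm T k := by
    unfold qN zN zsN; ring
  rw [h2] at hq
  have h3 : gt T ^ (2 * k) * nrm T k = DD.Lam T ^ k := by
    rw [gt, ← Real.exp_nat_mul, nrm, ← Real.exp_add, ← DD.exp_ph hT]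
    congr 1; push_cast; ring
  rw [← h3] at hq
  refine le_of_mul_le_mul_right ?_ (nrm_pos T k)
  linarith

/-- the normalised bound -/
theorem Gf_bound {T : ℝ} (hT : 0 < T) {n : ℕ} (hn : 1 ≤ n) {i j : Fin (n + 1)} (hij : i < j)
    (a : Fin 3) {ρ : ℝ} (hρ : 0 < ρ) {m₁ : ℕ} (hm₁ : 1 ≤ m₁)
    (hc : 2 / 3 * DD.c T m₁ ≤ ρ ^ (2 * m₁)) {j₁ j₂ : ℕ} (hj₁ : 2 ≤ j₁) (hj₂ : 2 ≤ j₂)
    {p q : ℕ} (hpq : (p = (j : ℕ) - i - 1 ∧ q = n + i - j) ∨
      (q = (j : ℕ) - i - 1 ∧ p = n + i - j)) (hd : 1 ≤ p)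
    (h₁ : 2 * j₁ - 2 ≤ q) (h₂ : 2 * j₂ - 2 ≤ q) :
    |Gf n i j a T| ≤ gt T ^ (n + 1) * (ρ ^ p * (1 + DD.c T j₁) +
      ρ ^ (q - (2 * j₂ - 2)) * (1 + DD.c T j₂)) := by
  have hg := gt_pos T
  have hfree : ∀ δ : ℝ, 0 < δ → |Gf n i j a T| ≤
      (ρ * gt T + δ) ^ p * (gt T + δ) ^ (q - (2 * j₁ - 2)) *
        zF (Lk j₁) T +
      (gt T + δ) ^ p * (ρ * gt T + δ) ^ (q - (2 * j₂ - 2)) *
        zF (Lk j₂) T := by
    intro δ hδ
    -- choice of `m₂`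
    have hx : 1 < (gt T + δ) / gt T := by rw [lt_div_iff₀ hg]; linarith
    obtain ⟨m, hm⟩ := pow_unbounded_of_one_lt (1 + DD.c T 1) hx
    have hm1 : (gt T + δ) / gt T ≤ ((gt T + δ) / gt T) ^ (2 * (m + 1)) :=
      le_self_pow₀ hx.le (by omega)
    have hm2 : ((gt T + δ) / gt T) ^ m ≤ ((gt T + δ) / gt T) ^ (2 * (m + 1)) :=
      pow_le_pow_right₀ hx.le (by omega)
    have hl : zF (Lk (m + 1)) T < (gt T + δ) ^ (2 * (m + 1)) := by
      rw [zF_gt]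
      have h1 := DD.c_anti hT le_rfl (show 1 ≤ m + 1 by omega)
      have h2 : 1 + DD.c T (m + 1) < ((gt T + δ) / gt T) ^ (2 * (m + 1)) := by linarith
      have h3 := mul_lt_mul_of_pos_left h2 (pow_pos hg (2 * (m + 1)))
      rw [← mul_pow, mul_div_cancel₀ _ hg.ne'] at h3
      exact h3
    have hμ : (zF (Lk m₁) T - zsF (Lk m₁) T) / 2 < (ρ * gt T + δ) ^ (2 * m₁) := by
      refine (zs_gt hT hm₁).trans_lt ?_
      have h1 : 2 / 3 * DD.c T m₁ * gt T ^ (2 * m₁) ≤ (ρ * gt T) ^ (2 * m₁) := by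
        rw [mul_pow]
        exact mul_le_mul_of_nonneg_right hc (by positivity)
      refine h1.trans_lt ?_
      exact pow_lt_pow_left₀ (by linarith) (by positivity) (by omega)
    exact Gf_bound_free hT.le hn hij a (by positivity) (by positivity) hm₁
      (show 1 ≤ m + 1 by omega) hμ hl hj₁ hj₂ hpq hd h₁ h₂
  -- let `δ → 0`
  have hcont : Continuous (fun δ : ℝ =>
      (ρ * gt T + δ) ^ p * (gt T + δ) ^ (q - (2 * j₁ - 2)) *
        zF (Lk j₁) T +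
      (gt T + δ) ^ p * (ρ * gt T + δ) ^ (q - (2 * j₂ - 2)) *
        zF (Lk j₂) T) := by fun_prop
  have hlim := (hcont.tendsto 0).comp tendsto_one_div_add_atTop_nhds_zero_nat
  have h0 := ge_of_tendsto' hlim (fun N => hfree (1 / ((N : ℝ) + 1)) (by positivity))
  refine h0.trans (le_of_eq ?_)
  rw [zF_gt, zF_gt]
  simp only [add_zero]
  have e1 : gt T ^ (n + 1) = gt T ^ p * gt T ^ (q - (2 * j₁ - 2)) *
      gt T ^ (2 * j₁) := by
    rw [← pow_add, ← pow_add]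
    congr 1
    have : (j : ℕ) < n + 1 := j.isLt
    have : (i : ℕ) < j := hij
    omega
  have e2 : gt T ^ (n + 1) = gt T ^ p * gt T ^ (q - (2 * j₂ - 2)) *
      gt T ^ (2 * j₂) := by
    rw [← pow_add, ← pow_add]
    congr 1
    have : (j : ℕ) < n + 1 := j.isLt
    have : (i : ℕ) < j := hij
    omega
  refine Eq.trans (congrArg₂ (· + ·) ?_ ?_) (mul_add _ _ _).symm
  · rw [e1, mul_pow]; ring
  · rw [e2, mul_pow]; ring

end

end Vale.Agent.P348
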