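import Vale.Agent.P348.H997.G1
import Vale.Agent.P348.H997.Lim

/-! Clustering inequality at fixed discretisation, lists of site matrices and their limits. -/

namespace Vale.Agent.P348

open Matrix Finset Filter Topology

noncomputable section

section
variable {m : Type} [Fintype m] [DecidableEq m]

/-- clustering at fixed discretisation -/
theorem cluster_fin {K : Matrix m m ℝ} (hK : K.IsHermitian) (A B : Matrix m m ℝ) {i₀ : m}
    {μ l : ℝ} (hμ0 : 0 ≤ μ) (hl0 : 0 ≤ l) (hμ : ∀ i, i ≠ i₀ → |hK.eigenvalues i| ≤ μ)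
    (hl : ∀ i, |hK.eigenvalues i| ≤ l) {a b c r s L : ℕ} (hc : 2 * c ≤ b)
    (hL : L = r + a + s + b) :
    |(A * K ^ a * B * K ^ b).trace * (K ^ L).trace -
      (A * K ^ (L - r)).trace * (B * K ^ (L - s)).trace| ≤
      Real.sqrt (A * Aᵀ * K ^ (2 * c)).trace * Real.sqrt (Bᵀ * B * K ^ (2 * c)).trace *
        (l ^ (a + b - 2 * c) * μ ^ (L - 2 * c) * (K ^ (2 * c)).trace +
          (μ ^ a * l ^ (b - 2 * c) + l ^ a * μ ^ (b - 2 * c)) * |(K ^ L).trace|) +
      Real.sqrt (A * Aᵀ * K ^ (2 * c)).trace * (l ^ (L - r - c) * μ ^ (L - s - 2 * c)) *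
        (Real.sqrt (Bᵀ * B * K ^ (2 * c)).trace * Real.sqrt (K ^ (2 * c)).trace) +
      μ ^ (L - r - 2 * c) * (Real.sqrt (A * Aᵀ * K ^ (2 * c)).trace *
        Real.sqrt (K ^ (2 * c)).trace) * |(B * K ^ (L - s)).trace| := by
  obtain ⟨α, β, h1, h2, h3, h4, h5⟩ := eig_sums hK A B
  have hZ : ∀ k : ℕ, (K ^ k).trace = ∑ i, hK.eigenvalues i ^ k := fun k =>
    trace_pow_eq_sum_eigenvalues hK k
  set κ := hK.eigenvalues with hκ
  have e1 := two_err (α := α) (β := β) hμ0 hl0 hμ hl (a := a) hc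
  have e3 := one_err (α := α) hμ0 hμ (show 2 * c ≤ L - r by omega)
  have e4 := one_err (α := fun i j => β j i) hμ0 hμ (show 2 * c ≤ L - s by omega)
  have e2 := zero_err hμ0 hμ (show 2 * c ≤ L by omega)
  have m1 := main_coeff (α := α) (κ := κ) hl0 (hl i₀) (le_refl c)
  have m2 := main_coeff (α := fun i j => β j i) (κ := κ) hl0 (hl i₀) (show c ≤ a + b - c by omega)
  have m3 := main_coeff (α := α) (κ := κ) hl0 (hl i₀) (show c ≤ L - r by omega)
  rw [← h1, ← h4, ← h5] at e1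
  rw [← h2, ← h4, ← hZ] at e3
  rw [← h3, ← h5, ← hZ] at e4
  rw [← hZ, ← hZ] at e2
  rw [← h4, Nat.sub_self, pow_zero, one_mul] at m1
  rw [← h5] at m2
  rw [← h4] at m3
  have hA0 : 0 ≤ Real.sqrt (A * Aᵀ * K ^ (2 * c)).trace := Real.sqrt_nonneg _
  have hB0 : 0 ≤ Real.sqrt (Bᵀ * B * K ^ (2 * c)).trace := Real.sqrt_nonneg _
  have hz0 : 0 ≤ Real.sqrt (K ^ (2 * c)).trace := Real.sqrt_nonneg _
  have hZ0 : 0 ≤ (K ^ (2 * c)).trace := by
    rw [hZ]; exact Finset.sum_nonneg fun i _ => (even_two_mul c).pow_nonneg _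
  set SA := Real.sqrt (A * Aᵀ * K ^ (2 * c)).trace
  set SB := Real.sqrt (Bᵀ * B * K ^ (2 * c)).trace
  set Sz := Real.sqrt (K ^ (2 * c)).trace
  set Zc := (K ^ (2 * c)).trace
  set TAB := (A * K ^ a * B * K ^ b).trace
  set TA := (A * K ^ (L - r)).trace
  set TB := (B * K ^ (L - s)).trace
  set Z := (K ^ L).trace
  set x := α i₀ i₀
  set y := β i₀ i₀
  set k := κ i₀
  have key : TAB * Z - TA * TB = x * y * k ^ (a + b) * (Z - k ^ L) +
      (TAB - x * y * k ^ (a + b)) * Z - x * k ^ (L - r) * (TB - y * k ^ (L - s)) -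
      (TA - x * k ^ (L - r)) * TB := by
    have e : k ^ (a + b) * k ^ L = k ^ (L - r) * k ^ (L - s) := by
      rw [← pow_add, ← pow_add]; congr 1; omega
    linear_combination (x * y) * e
  have ha : |x * y * k ^ (a + b)| ≤ SA * (l ^ (a + b - 2 * c) * SB) := by
    have e : |x * y * k ^ (a + b)| = (|x| * |k| ^ c) * (|y| * |k| ^ (a + b - c)) := by
      rw [abs_mul, abs_mul, abs_pow]
      have : |k| ^ (a + b) = |k| ^ c * |k| ^ (a + b - c) := by
        rw [← pow_add]; congr 1; omega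
      rw [this]; ring
    have e' : a + b - c - c = a + b - 2 * c := by omega
    rw [e' ] at m2
    rw [e]
    exact mul_le_mul m1 m2 (by positivity) hA0
  have hb : |x * k ^ (L - r)| ≤ l ^ (L - r - c) * SA := by
    rw [abs_mul, abs_pow]; exact m3
  rw [key]
  have t1 : |x * y * k ^ (a + b) * (Z - k ^ L)| ≤
      SA * (l ^ (a + b - 2 * c) * SB) * (μ ^ (L - 2 * c) * Zc) := by
    rw [abs_mul]
    exact mul_le_mul ha e2 (abs_nonneg _) (by positivity)
  have t2 : |(TAB - x * y * k ^ (a + b)) * Z| ≤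
      (μ ^ a * l ^ (b - 2 * c) + l ^ a * μ ^ (b - 2 * c)) * (SA * SB) * |Z| := by
    rw [abs_mul]
    exact mul_le_mul_of_nonneg_right e1 (abs_nonneg _)
  have t3 : |x * k ^ (L - r) * (TB - y * k ^ (L - s))| ≤
      l ^ (L - r - c) * SA * (μ ^ (L - s - 2 * c) * (SB * Sz)) := by
    rw [abs_mul]
    exact mul_le_mul hb e4 (abs_nonneg _) (by positivity)
  have t4 : |(TA - x * k ^ (L - r)) * TB| ≤ μ ^ (L - r - 2 * c) * (SA * Sz) * |TB| := by
    rw [abs_mul]
    exact mul_le_mul_of_nonneg_right e3 (abs_nonneg _)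
  have t5 := abs_sub (x * y * k ^ (a + b) * (Z - k ^ L) +
      (TAB - x * y * k ^ (a + b)) * Z - x * k ^ (L - r) * (TB - y * k ^ (L - s)))
      ((TA - x * k ^ (L - r)) * TB)
  have t6 := abs_sub (x * y * k ^ (a + b) * (Z - k ^ L) +
      (TAB - x * y * k ^ (a + b)) * Z) (x * k ^ (L - r) * (TB - y * k ^ (L - s)))
  have t7 := abs_add_le (x * y * k ^ (a + b) * (Z - k ^ L)) ((TAB - x * y * k ^ (a + b)) * Z)
  have t8 := ((t5.trans (add_le_add_left t6 _)).trans
    (add_le_add_left (add_le_add_left t7 _) _))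
  refine t8.trans ?_
  refine (add_le_add (add_le_add (add_le_add t1 t2) t3) t4).trans (le_of_eq ?_)
  ring

end

end

end Vale.Agent.P348
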