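import Vale.Agent.P348.H997.G2

/-! Lists of site matrices, their limits, and the thermal clustering inequality. -/

namespace Vale.Agent.P348

open Matrix Finset Filter Topology

noncomputable section

abbrev M3 : Type := Matrix (Fin 3) (Fin 3) ℝ

/-- site matrices with row and column sums at most one -/
def Nice (A : M3) : Prop := (∀ b, ∑ c, |A b c| ≤ 1) ∧ ∀ c, ∑ b, |A b c| ≤ 1

lemma nice_one : Nice 1 := ⟨one_row, one_col⟩

lemma tens_quad {ι : Type} [Fintype ι] [DecidableEq ι] (U : ι → M3) (hU : ∀ x, Nice (U x))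
    (v : (ι → Fin 3) → ℝ) : |v ⬝ᵥ (tens U).mulVec v| ≤ v ⬝ᵥ v := by
  refine quad_le _ (fun s => tens_rowsum _ (fun x b => (hU x).1 b) s) (fun t => ?_) v
  have := tens_rowsum (fun x => (U x)ᵀ) (fun x b => (hU x).2 b) t
  rw [← tens_transpose] at this
  exact this

/-- product of crossed-channel kernels -/
def PK (N : ℕ) (t : ℝ) (l : List M3) : Matrix (Fin N → Fin 4) (Fin N → Fin 4) ℝ :=
  (l.map (Kr N t)).prod

section
variable (N : ℕ) (t : ℝ)

lemma PK_append (l₁ l₂ : List M3) : PK N t (l₁ ++ l₂) = PK N t l₁ * PK N t l₂ := by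
  simp [PK]

lemma PK_replicate (k : ℕ) : PK N t (List.replicate k 1) = Kr N t 1 ^ k := by
  simp [PK]

lemma PK_transpose (l : List M3) : (PK N t l)ᵀ = PK N t l.reverse := by
  induction l with
  | nil => simp [PK]
  | cons a l ih =>
    have h1 : PK N t (a :: l) = Kr N t a * PK N t l := by simp [PK]
    rw [h1, Matrix.transpose_mul, ih, Kr_transpose, List.reverse_cons, PK_append]
    simp [PK]

end

/-- thermal trace with a site matrix at every site -/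
def Th (n : ℕ) (U : Fin (n + 1) → M3) (T : ℝ) : ℝ :=
  (tens U * NormedSpace.exp (T • XR n 1)).trace

lemma lim_Th {n : ℕ} (hn : 1 ≤ n) (U : Fin (n + 1) → M3) {T : ℝ} (hT : 0 ≤ T) :
    Tendsto (fun N : ℕ => (PK N (T / N) (List.ofFn U)).trace) atTop (𝓝 (Th n U T)) := by
  refine (cross_limit_site hn U hT).congr fun N => ?_
  rw [PK, List.map_ofFn, List.ofFn_succ, List.prod_cons, Matrix.trace_mul_comm]
  rfl

lemma Th_le {n : ℕ} (hn : 1 ≤ n) (U : Fin (n + 1) → M3) (hU : ∀ x, Nice (U x)) (T : ℝ) :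
    |Th n U T| ≤ zF (n + 1) T := by
  unfold Th
  rw [exp_XR hn, trace_exp_expand _ (ringH_isHermitian (n + 1) u1), zF_eq_sum]
  refine (Finset.abs_sum_le_sum_abs _ _).trans (Finset.sum_le_sum fun l _ => ?_)
  rw [abs_mul, abs_of_pos (Real.exp_pos _)]
  have h1 := tens_quad U hU (fun s =>
    ((ringH_isHermitian (n + 1) u1).eigenvectorUnitary : Matrix _ _ ℝ) s l)
  rw [eigvec_norm] at h1
  have := mul_le_mul_of_nonneg_right h1
    (Real.exp_pos (-(T * (ringH_isHermitian (n + 1) u1).eigenvalues l))).le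
  linarith

lemma lim_list {T : ℝ} (hT : 0 ≤ T) {l : List M3} {k : ℕ} (hk : 1 ≤ k) (hl : l.length = 2 * k)
    (hn : ∀ A ∈ l, Nice A) : ∃ f : ℝ,
      Tendsto (fun N : ℕ => (PK N (T / N) l).trace) atTop (𝓝 f) ∧ |f| ≤ zF (Lk k) T := by
  obtain ⟨n, U, hU⟩ : ∃ (n : ℕ) (U : Fin n → M3), l = List.ofFn U :=
    ⟨l.length, l.get, (List.ofFn_get l).symm⟩
  have hlen : n = 2 * k := by rw [← hl, hU, List.length_ofFn]
  obtain ⟨n', rfl⟩ : ∃ n', n = n' + 1 := ⟨n - 1, by omega⟩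
  refine ⟨Th n' U T, ?_, ?_⟩
  · rw [hU]
    exact lim_Th (by omega) U hT
  · rw [← zF_cast (n := n') (by unfold Lk; omega)]
    refine Th_le (by omega) U (fun x => hn _ ?_) T
    rw [hU]
    exact (List.mem_ofFn' U _).2 ⟨x, rfl⟩

lemma Kr_herm (N : ℕ) (t : ℝ) : (Kr N t 1).IsHermitian := by
  rw [Matrix.IsHermitian, Matrix.conjTranspose_eq_transpose_of_trivial]
  exact Kr_transpose N t 1

/-- the spectrum of the kernel: top eigenvalue and gap -/
theorem ev_gap {T : ℝ} (hT : 0 < T) {m₁ : ℕ} (hm₁ : 1 ≤ m₁) {ρ : ℝ} (hρ : 0 < ρ)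
    (hc : DD.c T m₁ ≤ ρ ^ (2 * m₁)) {δ : ℝ} (hδ : 0 < δ) :
    ∀ᶠ N : ℕ in atTop, ∃ i₀, (∀ i, i ≠ i₀ → |(Kr_herm N (T / N)).eigenvalues i| ≤ ρ * gt T + δ) ∧
      ∀ i, |(Kr_herm N (T / N)).eigenvalues i| ≤ gt T + δ := by
  have hg := gt_pos T
  set g := gt T with hgd
  set c₁ := DD.c T m₁ with hc1
  have hc0 : 0 ≤ c₁ := DD.c_nonneg hT hm₁
  -- the top
  have hx : 1 < (g + δ) / g := by rw [lt_div_iff₀ hg]; linarith
  obtain ⟨M₂, hM₂⟩ := pow_unbounded_of_one_lt (1 + DD.c T 1) hx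
  have hm2 : ((g + δ) / g) ^ M₂ ≤ ((g + δ) / g) ^ (2 * (M₂ + 1)) :=
    pow_le_pow_right₀ hx.le (by omega)
  have hl : zF (Lk (M₂ + 1)) T < (g + δ) ^ (2 * (M₂ + 1)) := by
    rw [zF_gt]
    have h1 := DD.c_anti hT le_rfl (show 1 ≤ M₂ + 1 by omega)
    have h2 : 1 + DD.c T (M₂ + 1) < ((g + δ) / g) ^ (2 * (M₂ + 1)) := by linarith
    have h3 := mul_lt_mul_of_pos_left h2 (pow_pos hg (2 * (M₂ + 1)))
    rw [← mul_pow, mul_div_cancel₀ _ hg.ne'] at h3
    exact h3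
  -- the ratio
  have hlt : g ^ (2 * m₁) * c₁ < (ρ * g + δ) ^ (2 * m₁) := by
    have h1 : g ^ (2 * m₁) * c₁ ≤ (ρ * g) ^ (2 * m₁) := by
      rw [mul_pow, mul_comm]
      exact mul_le_mul_of_nonneg_right hc (by positivity)
    exact h1.trans_lt (pow_lt_pow_left₀ (by linarith) (by positivity) (by omega))
  obtain ⟨θ, hθ1, hθ0, hθ⟩ : ∃ θ : ℝ, θ < 1 ∧ 0 < θ ∧
      g ^ (2 * m₁) * (1 + c₁) - (θ * g) ^ (2 * m₁) < (ρ * g + δ) ^ (2 * m₁) := by
    have hcont : Continuous fun θ : ℝ => g ^ (2 * m₁) * (1 + c₁) - (θ * g) ^ (2 * m₁) := by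
      fun_prop
    have h1 : ∀ᶠ θ in 𝓝 (1 : ℝ),
        g ^ (2 * m₁) * (1 + c₁) - (θ * g) ^ (2 * m₁) < (ρ * g + δ) ^ (2 * m₁) := by
      refine hcont.continuousAt.eventually_lt_const ?_
      show g ^ (2 * m₁) * (1 + c₁) - (1 * g) ^ (2 * m₁) < (ρ * g + δ) ^ (2 * m₁)
      rw [one_mul]
      linarith
    have h2 : ∀ᶠ θ in 𝓝[<] (1 : ℝ), θ < 1 ∧ 0 < θ ∧
        g ^ (2 * m₁) * (1 + c₁) - (θ * g) ^ (2 * m₁) < (ρ * g + δ) ^ (2 * m₁) := by
      filter_upwards [h1.filter_mono nhdsWithin_le_nhds, self_mem_nhdsWithin,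
        (eventually_gt_nhds (show (0 : ℝ) < 1 by norm_num)).filter_mono nhdsWithin_le_nhds]
        with θ a1 a2 a3
      exact ⟨a2, a3, a1⟩
    exact h2.exists
  have hθi : 1 < θ⁻¹ := (one_lt_inv₀ hθ0).2 hθ1
  obtain ⟨p, hp⟩ := pow_unbounded_of_one_lt (1 + c₁) hθi
  have hp2 : (1 + c₁) * θ ^ (2 * p) < 1 := by
    have h1 : θ ^ (2 * p) ≤ θ ^ p := pow_le_pow_of_le_one hθ0.le hθ1.le (by omega)
    have h2 : θ ^ p * θ⁻¹ ^ p = 1 := by rw [← mul_pow, mul_inv_cancel₀ hθ0.ne', one_pow]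
    have h3 : 0 < θ ^ p := pow_pos hθ0 p
    calc (1 + c₁) * θ ^ (2 * p) ≤ (1 + c₁) * θ ^ p := by gcongr
      _ < θ⁻¹ ^ p * θ ^ p := by gcongr
      _ = 1 := by rw [mul_comm, h2]
  have hM : 1 ≤ m₁ + p := by omega
  have hratio : (θ * g) ^ (2 * p) * zF (Lk m₁) T < zF (Lk (m₁ + p)) T := by
    rw [zF_gt, zF_gt]
    have h1 := DD.c_nonneg hT hM
    have e : (θ * gt T) ^ (2 * p) * (gt T ^ (2 * m₁) * (1 + DD.c T m₁)) =
        gt T ^ (2 * (m₁ + p)) * ((1 + c₁) * θ ^ (2 * p)) := by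
      rw [mul_pow, show 2 * (m₁ + p) = 2 * p + 2 * m₁ by ring, pow_add]; ring
    rw [hgd, e]
    exact mul_lt_mul_of_pos_left (by linarith) (pow_pos hg _)
  have hev1 := (lim_K hT.le (show 1 ≤ M₂ + 1 by omega)).eventually_lt_const hl
  have hev2 := ((lim_K hT.le hm₁).const_mul ((θ * g) ^ (2 * p))).eventually_lt
    (lim_K hT.le hM) hratio
  have hev3 := ((lim_K hT.le hm₁).sub_const ((θ * g) ^ (2 * m₁))).eventually_lt_const
    (u := (ρ * g + δ) ^ (2 * m₁)) (by rw [zF_gt]; exact hθ)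
  filter_upwards [hev1, hev2, hev3] with N h1 h2 h3
  set hK := Kr_herm N (T / N)
  obtain ⟨i₀, _, hi₀⟩ := Finset.exists_max_image (univ : Finset (Fin N → Fin 4))
    (fun i => |hK.eigenvalues i|) Finset.univ_nonempty
  refine ⟨i₀, fun i hi => ?_, fun i => ?_⟩
  · have hpow : ∀ k, (Kr N (T / N) 1 ^ (2 * k)).trace = ∑ j, hK.eigenvalues j ^ (2 * k) :=
      fun k => trace_pow_eq_sum_eigenvalues hK (2 * k)
    have hnn : ∀ k j, 0 ≤ hK.eigenvalues j ^ (2 * k) := fun k j =>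
      (even_two_mul k).pow_nonneg _
    have h4 : (Kr N (T / N) 1 ^ (2 * (m₁ + p))).trace ≤
        |hK.eigenvalues i₀| ^ (2 * p) * (Kr N (T / N) 1 ^ (2 * m₁)).trace := by
      rw [hpow, hpow, Finset.mul_sum]
      refine Finset.sum_le_sum fun j _ => ?_
      have e : hK.eigenvalues j ^ (2 * (m₁ + p)) =
          |hK.eigenvalues j| ^ (2 * p) * hK.eigenvalues j ^ (2 * m₁) := by
        rw [(even_two_mul p).pow_abs, ← pow_add]; congr 1; ring
      rw [e]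
      exact mul_le_mul_of_nonneg_right
        (pow_le_pow_left₀ (abs_nonneg _) (hi₀ j (Finset.mem_univ j)) _) (hnn _ _)
    have h5 := h2.trans_le h4
    have h6 : 0 < (Kr N (T / N) 1 ^ (2 * m₁)).trace := by
      by_contra h7
      push Not at h7
      have h8 : (Kr N (T / N) 1 ^ (2 * m₁)).trace = 0 := by
        refine le_antisymm h7 ?_
        rw [hpow]; exact Finset.sum_nonneg fun j _ => hnn _ _
      rw [h8, mul_zero, mul_zero] at h5
      exact lt_irrefl _ h5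
    have h7 : (θ * g) ^ (2 * p) < |hK.eigenvalues i₀| ^ (2 * p) := lt_of_mul_lt_mul_right h5 h6.le
    have h8 : θ * g ≤ |hK.eigenvalues i₀| := (lt_of_pow_lt_pow_left₀ _ (abs_nonneg _) h7).le
    have h9 : hK.eigenvalues i ^ (2 * m₁) + hK.eigenvalues i₀ ^ (2 * m₁) ≤
        (Kr N (T / N) 1 ^ (2 * m₁)).trace := by
      rw [hpow, ← Finset.sum_pair (f := fun j => hK.eigenvalues j ^ (2 * m₁)) hi]
      exact Finset.sum_le_sum_of_subset_of_nonneg (Finset.subset_univ _) fun j _ _ => hnn _ _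
    have h10 : (θ * g) ^ (2 * m₁) ≤ hK.eigenvalues i₀ ^ (2 * m₁) := by
      rw [← (even_two_mul m₁).pow_abs (hK.eigenvalues i₀)]
      exact pow_le_pow_left₀ (by positivity) h8 _
    have h11 : |hK.eigenvalues i| ^ (2 * m₁) ≤ (ρ * g + δ) ^ (2 * m₁) := by
      rw [(even_two_mul m₁).pow_abs]
      linarith
    exact le_of_pow_le_pow_left₀ (by omega) (by positivity) h11
  · exact abs_eig_le hK (by positivity) (show 1 ≤ M₂ + 1 by omega) h1.le i

end

end Vale.Agent.P348
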