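import Vale.Agent.P348.H997.G3

/-! The thermal clustering inequality for products of site matrices. -/

namespace Vale.Agent.P348

open Matrix Finset Filter Topology

noncomputable section

/-- the bound at fixed discretisation -/
def Rb (SA SB Zc Z TB μ l : ℝ) (a b c r s L : ℕ) : ℝ :=
  Real.sqrt SA * Real.sqrt SB * (l ^ (a + b - 2 * c) * μ ^ (L - 2 * c) * Zc +
    (μ ^ a * l ^ (b - 2 * c) + l ^ a * μ ^ (b - 2 * c)) * |Z|) +
  Real.sqrt SA * (l ^ (L - r - c) * μ ^ (L - s - 2 * c)) * (Real.sqrt SB * Real.sqrt Zc) +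
  μ ^ (L - r - 2 * c) * (Real.sqrt SA * Real.sqrt Zc) * |TB|

/-- the bound for a gapped kernel -/
lemma Rb_le {SA SB Zc Z TB g C ρ : ℝ} (hg : 0 < g) (hC : 1 ≤ C) (hρ : 0 < ρ) (hρ1 : ρ ≤ 1)
    {a b c r s L : ℕ} (hcb : 2 * c ≤ b) (hL : L = r + a + s + b)
    (hSA : SA ≤ g ^ (2 * (r + c)) * C) (hSB : SB ≤ g ^ (2 * (s + c)) * C)
    (hZ0 : 0 ≤ Zc) (hZc : Zc ≤ g ^ (2 * c) * C) (hZ : |Z| ≤ g ^ L * C) (hTB : |TB| ≤ g ^ L * C) :
    Rb SA SB Zc Z TB (ρ * g) g a b c r s L ≤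
      C ^ 3 * g ^ (2 * L) * (ρ ^ a + 4 * ρ ^ (b - 2 * c)) := by
  have hsq : ∀ (x : ℝ) (n : ℕ), x ≤ g ^ (2 * n) * C → Real.sqrt x ≤ g ^ n * C := by
    intro x n hx
    rw [Real.sqrt_le_left (by positivity)]
    refine hx.trans ?_
    have h1 : (g ^ n * C) ^ 2 = g ^ (2 * n) * C * C := by rw [mul_pow, ← pow_mul, mul_comm n 2]; ring
    rw [h1]
    exact le_mul_of_one_le_right (by positivity) hC
  have a1 := hsq _ _ hSA
  have a2 := hsq _ _ hSB
  have a3 := hsq _ _ hZc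
  have p1 : ρ ^ (L - 2 * c) ≤ ρ ^ (b - 2 * c) := pow_le_pow_of_le_one hρ.le hρ1 (by omega)
  have p2 : ρ ^ (L - s - 2 * c) ≤ ρ ^ (b - 2 * c) := pow_le_pow_of_le_one hρ.le hρ1 (by omega)
  have p3 : ρ ^ (L - r - 2 * c) ≤ ρ ^ (b - 2 * c) := pow_le_pow_of_le_one hρ.le hρ1 (by omega)
  have s1 := Real.sqrt_nonneg SA
  have s2 := Real.sqrt_nonneg SB
  have s3 := Real.sqrt_nonneg Zc
  have hC0 : 0 < C := by linarith
  unfold Rb
  have t1 : Real.sqrt SA * Real.sqrt SB * (g ^ (a + b - 2 * c) * (ρ * g) ^ (L - 2 * c) * Zc +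
      ((ρ * g) ^ a * g ^ (b - 2 * c) + g ^ a * (ρ * g) ^ (b - 2 * c)) * |Z|) ≤
      (g ^ (r + c) * C) * (g ^ (s + c) * C) *
        (g ^ (a + b - 2 * c) * (ρ ^ (b - 2 * c) * g ^ (L - 2 * c)) * (g ^ (2 * c) * C) +
      ((ρ * g) ^ a * g ^ (b - 2 * c) + g ^ a * (ρ * g) ^ (b - 2 * c)) * (g ^ L * C)) := by
    have h1 : (ρ * g) ^ (L - 2 * c) ≤ ρ ^ (b - 2 * c) * g ^ (L - 2 * c) := by
      rw [mul_pow]; exact mul_le_mul_of_nonneg_right p1 (by positivity)
    gcongr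
  have t2 : Real.sqrt SA * (g ^ (L - r - c) * (ρ * g) ^ (L - s - 2 * c)) *
      (Real.sqrt SB * Real.sqrt Zc) ≤
      (g ^ (r + c) * C) * (g ^ (L - r - c) * (ρ ^ (b - 2 * c) * g ^ (L - s - 2 * c))) *
        ((g ^ (s + c) * C) * (g ^ c * C)) := by
    have h1 : (ρ * g) ^ (L - s - 2 * c) ≤ ρ ^ (b - 2 * c) * g ^ (L - s - 2 * c) := by
      rw [mul_pow]; exact mul_le_mul_of_nonneg_right p2 (by positivity)
    gcongr
  have t3 : (ρ * g) ^ (L - r - 2 * c) * (Real.sqrt SA * Real.sqrt Zc) * |TB| ≤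
      (ρ ^ (b - 2 * c) * g ^ (L - r - 2 * c)) * ((g ^ (r + c) * C) * (g ^ c * C)) *
        (g ^ L * C) := by
    have h1 : (ρ * g) ^ (L - r - 2 * c) ≤ ρ ^ (b - 2 * c) * g ^ (L - r - 2 * c) := by
      rw [mul_pow]; exact mul_le_mul_of_nonneg_right p3 (by positivity)
    gcongr
  refine (add_le_add (add_le_add t1 t2) t3).trans (le_of_eq ?_)
  have e1 : g ^ (r + c) * g ^ (s + c) * (g ^ (a + b - 2 * c) * g ^ (L - 2 * c) * g ^ (2 * c)) =
      g ^ (2 * L) := by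
    rw [← pow_add, ← pow_add, ← pow_add, ← pow_add]; congr 1; omega
  have e2 : g ^ (r + c) * g ^ (s + c) * (g ^ a * g ^ (b - 2 * c) * g ^ L) = g ^ (2 * L) := by
    rw [← pow_add, ← pow_add, ← pow_add, ← pow_add]; congr 1; omega
  have e3 : g ^ (r + c) * (g ^ (L - r - c) * g ^ (L - s - 2 * c)) * (g ^ (s + c) * g ^ c) =
      g ^ (2 * L) := by
    rw [← pow_add, ← pow_add, ← pow_add, ← pow_add]; congr 1; omega
  have e4 : g ^ (L - r - 2 * c) * (g ^ (r + c) * g ^ c) * g ^ L = g ^ (2 * L) := by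
    rw [← pow_add, ← pow_add, ← pow_add]; congr 1; omega
  rw [mul_pow, mul_pow]
  calc _ = C ^ 3 * ρ ^ (b - 2 * c) * (g ^ (r + c) * g ^ (s + c) *
        (g ^ (a + b - 2 * c) * g ^ (L - 2 * c) * g ^ (2 * c))) +
        C ^ 3 * (ρ ^ a + ρ ^ (b - 2 * c)) * (g ^ (r + c) * g ^ (s + c) *
          (g ^ a * g ^ (b - 2 * c) * g ^ L)) +
        C ^ 3 * ρ ^ (b - 2 * c) * (g ^ (r + c) * (g ^ (L - r - c) * g ^ (L - s - 2 * c)) *
          (g ^ (s + c) * g ^ c)) +
        C ^ 3 * ρ ^ (b - 2 * c) * (g ^ (L - r - 2 * c) * (g ^ (r + c) * g ^ c) * g ^ L) := by ring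
    _ = _ := by rw [e1, e2, e3, e4]; ring

/-- thermal clustering for products of site matrices -/
theorem cluster_lim {T : ℝ} (hT : 0 < T) {m₁ : ℕ} (hm₁ : 1 ≤ m₁) {ρ : ℝ} (hρ : 0 < ρ)
    (hρ1 : ρ ≤ 1) (hc : DD.c T m₁ ≤ ρ ^ (2 * m₁)) {A B : List M3} (hA : ∀ X ∈ A, Nice X)
    (hB : ∀ X ∈ B, Nice X) {a b c k : ℕ} (hc1 : 1 ≤ c) (hcb : 2 * c ≤ b)
    (hL : 2 * k = A.length + a + B.length + b) {fAB fA fB : ℝ}
    (hAB : Tendsto (fun N : ℕ => (PK N (T / N) (A ++ List.replicate a 1 ++ B ++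
      List.replicate b 1)).trace) atTop (𝓝 fAB))
    (hfA : Tendsto (fun N : ℕ => (PK N (T / N) (A ++ List.replicate (2 * k - A.length) 1)).trace)
      atTop (𝓝 fA))
    (hfB : Tendsto (fun N : ℕ => (PK N (T / N) (B ++ List.replicate (2 * k - B.length) 1)).trace)
      atTop (𝓝 fB)) :
    |fAB * zF (Lk k) T - fA * fB| ≤
      (1 + DD.c T c) ^ 3 * gt T ^ (2 * (2 * k)) * (ρ ^ a + 4 * ρ ^ (b - 2 * c)) := by
  have hk : 1 ≤ k := by omega
  have nice_rep : ∀ (n : ℕ), ∀ X ∈ List.replicate n (1 : M3), Nice X := by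
    intro n X hX
    rw [List.eq_of_mem_replicate hX]
    exact nice_one
  obtain ⟨sA, hsA, hsA'⟩ := lim_list hT.le (l := A ++ A.reverse ++ List.replicate (2 * c) 1)
    (k := A.length + c) (by omega) (by simp; ring) (by
      intro X hX
      rw [List.mem_append, List.mem_append, List.mem_reverse] at hX
      rcases hX with (h | h) | h
      · exact hA X h
      · exact hA X h
      · exact nice_rep _ X h)
  obtain ⟨sB, hsB, hsB'⟩ := lim_list hT.le (l := B.reverse ++ B ++ List.replicate (2 * c) 1)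
    (k := B.length + c) (by omega) (by simp; ring) (by
      intro X hX
      rw [List.mem_append, List.mem_append, List.mem_reverse] at hX
      rcases hX with (h | h) | h
      · exact hB X h
      · exact hB X h
      · exact nice_rep _ X h)
  obtain ⟨f', hf', hfB'⟩ := lim_list hT.le (l := B ++ List.replicate (2 * k - B.length) 1)
    (k := k) hk (by simp; omega) (by
      intro X hX
      rw [List.mem_append] at hX
      rcases hX with h | h
      · exact hB X h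
      · exact nice_rep _ X h)
  have hff : f' = fB := tendsto_nhds_unique hf' hfB
  rw [hff] at hfB'
  have hZc := lim_K hT.le hc1
  have hZ := lim_K hT.le hk
  have hg := gt_pos T
  -- at every `δ > 0`
  have hδ : ∀ δ : ℝ, 0 < δ → |fAB * zF (Lk k) T - fA * fB| ≤
      Rb sA sB (zF (Lk c) T) (zF (Lk k) T) fB (ρ * gt T + δ) (gt T + δ) a b c A.length B.length
        (2 * k) := by
    intro δ hδ
    have hcont : Continuous fun p : ℝ × ℝ × ℝ × ℝ × ℝ => Rb p.1 p.2.1 p.2.2.1 p.2.2.2.1 p.2.2.2.2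
        (ρ * gt T + δ) (gt T + δ) a b c A.length B.length (2 * k) := by
      unfold Rb
      fun_prop
    have hR := (hcont.tendsto (sA, sB, zF (Lk c) T, zF (Lk k) T, fB)).comp
      (hsA.prodMk_nhds (hsB.prodMk_nhds (hZc.prodMk_nhds (hZ.prodMk_nhds hfB))))
    have hLim := ((hAB.mul hZ).sub (hfA.mul hfB)).abs
    refine le_of_tendsto_of_tendsto hLim hR ?_
    filter_upwards [ev_gap hT hm₁ hρ hc hδ] with N hN
    obtain ⟨i₀, h1, h2⟩ := hN
    have h3 := cluster_fin (Kr_herm N (T / N)) (PK N (T / N) A) (PK N (T / N) B)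
      (by positivity) (by positivity) h1 h2 (a := a) hcb hL
    simp only [Function.comp, PK_append, PK_replicate]
    unfold Rb
    rw [← PK_transpose, ← PK_transpose]
    exact h3
  have hcont : Continuous fun δ : ℝ =>
      Rb sA sB (zF (Lk c) T) (zF (Lk k) T) fB (ρ * gt T + δ) (gt T + δ) a b c A.length B.length
        (2 * k) := by
    unfold Rb
    fun_prop
  have hlim := (hcont.tendsto 0).comp tendsto_one_div_add_atTop_nhds_zero_nat
  have h0 := ge_of_tendsto' hlim (fun N => hδ (1 / ((N : ℝ) + 1)) (by positivity))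
  simp only [add_zero] at h0
  refine h0.trans ?_
  have hc0 := DD.c_nonneg hT hc1
  have hz : ∀ n, c ≤ n → zF (Lk n) T ≤ gt T ^ (2 * n) * (1 + DD.c T c) := by
    intro n hn
    rw [zF_gt]
    have := DD.c_anti hT hc1 hn
    exact mul_le_mul_of_nonneg_left (by linarith) (by positivity)
  have hzk : c ≤ k := by omega
  have hZ0 : 0 ≤ zF (Lk c) T := by
    rw [zF_gt]; positivity
  have hZk0 : 0 ≤ zF (Lk k) T := by
    rw [zF_gt]
    have := DD.c_nonneg hT hk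
    positivity
  refine Rb_le hg (by linarith) hρ hρ1 hcb hL ((le_abs_self _).trans (hsA'.trans (hz _ (by omega))))
    ((le_abs_self _).trans (hsB'.trans (hz _ (by omega)))) hZ0 (hz c le_rfl) ?_
    (hfB'.trans (hz k hzk))
  rw [abs_of_nonneg hZk0]
  exact hz k hzk

end

end Vale.Agent.P348
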