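import Vale.Agent.P348.H997.Corr

/-! Decay of the ground-state spin correlations. -/

namespace Vale.Agent.P348

open Matrix Finset Filter

noncomputable section

lemma W'_conj : W'ᴴ = W := by
  ext i j
  fin_cases i <;> fin_cases j <;> simp [W, W', Matrix.conjTranspose_apply]

lemma tensC_conj {ι : Type} [Fintype ι] (M : ι → Matrix (Fin 3) (Fin 3) ℂ) :
    (tensC M)ᴴ = tensC (fun x => (M x)ᴴ) := by
  ext s t
  simp [tensC, Matrix.conjTranspose_apply]

lemma spin_conj (a : Fin 3) : (spin a)ᴴ = spin a := by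
  fin_cases a <;> ext i j <;> fin_cases i <;> fin_cases j <;>
    simp [spin, Matrix.conjTranspose_apply]

lemma onSite_conj {L : ℕ} (j : Fin L) (A : Matrix (Fin 3) (Fin 3) ℂ) :
    (onSite j A)ᴴ = onSite j Aᴴ := by
  rw [onSite_eq_tensC, onSite_eq_tensC, tensC_conj]
  congr 1
  funext x
  split_ifs
  · rfl
  · exact Matrix.conjTranspose_one

lemma TW'_conj (L : ℕ) : (tensC (fun _ : Fin L => W'))ᴴ = tensC (fun _ : Fin L => W) := by
  rw [tensC_conj, W'_conj]

lemma vcol_eig (L : ℕ) [NeZero L] (i : Fin L → Fin 3) :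
    (ringH L u1).mulVec (vcol L i) = (ringH_isHermitian L u1).eigenvalues i • vcol L i := by
  have h := (ringH_isHermitian L u1).mulVec_eigenvectorBasis i
  have e : vcol L i = ((ringH_isHermitian L u1).eigenvectorBasis i).ofLp := by
    funext s
    exact (ringH_isHermitian L u1).eigenvectorUnitary_apply s i
  rw [e]
  exact h

/-- complexified ground vector -/
def wcol (L : ℕ) [NeZero L] (i : Fin L → Fin 3) : (Fin L → Fin 3) → ℂ :=
  fun s => ((vcol L i s : ℝ) : ℂ)

lemma wcol_star (L : ℕ) [NeZero L] (i : Fin L → Fin 3) : star (wcol L i) = wcol L i := by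
  funext s
  simp [wcol]

lemma map_mulVec {m : Type} [Fintype m] (A : Matrix m m ℝ) (v : m → ℝ) :
    (A.map (fun x : ℝ => (x : ℂ))).mulVec (fun s => ((v s : ℝ) : ℂ)) =
      fun s => ((A.mulVec v s : ℝ) : ℂ) := by
  funext s
  simp [Matrix.mulVec, dotProduct]

lemma map_dot {m : Type} [Fintype m] (v w : m → ℝ) :
    (fun s => ((v s : ℝ) : ℂ)) ⬝ᵥ (fun s => ((w s : ℝ) : ℂ)) = ((v ⬝ᵥ w : ℝ) : ℂ) := by
  simp [dotProduct]

lemma wcol_norm (L : ℕ) [NeZero L] (i : Fin L → Fin 3) : wcol L i ⬝ᵥ wcol L i = 1 := by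
  have := map_dot (vcol L i) (vcol L i)
  rw [vcol_norm, Complex.ofReal_one] at this
  exact this

/-- the form of a ground state -/
theorem ground_form {L : ℕ} [NeZero L] {m : ℕ} (hL : L = Lk (m + 1)) (hm : 6 ≤ m + 1)
    {ψ : (Fin L → Fin 3) → ℂ} (hψ : (haldaneH L).mulVec ψ = (E0 L : ℂ) • ψ) :
    ∃ i₀, (ringH_isHermitian L u1).eigenvalues i₀ = E0 L ∧
      ∃ c : ℂ, ψ = c • (tensC (fun _ : Fin L => W')).mulVec (wcol L i₀) := by
  have hL2 : 2 ≤ L := by rw [hL]; unfold Lk; omega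
  obtain ⟨i₀, h0, hu⟩ := ground_index hL hm
  refine ⟨i₀, h0, ?_⟩
  obtain ⟨v, hv0, hv1, hv2⟩ := simple_of_unique _ (ringH_isHermitian L u1) i₀ hu
  rw [h0] at hv1 hv2
  have hw : ((ringH L u1).map (fun x : ℝ => (x : ℂ))).mulVec (wcol L i₀) =
      (E0 L : ℂ) • wcol L i₀ := by
    unfold wcol
    rw [map_mulVec, vcol_eig, h0]
    funext s
    simp
  obtain ⟨c₁, hc₁⟩ := hv2 _ hw
  set TW := tensC (fun _ : Fin L => W) with hTW
  set TW' := tensC (fun _ : Fin L => W') with hTW'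
  have hH := haldaneH_conj L hL2
  rw [← hTW, ← hTW'] at hH
  have c1 : TW * TW' = 1 := TW_mul _
  have c2 : TW' * TW = 1 := TW_mul' _
  have h1 : (AC L).mulVec (TW.mulVec ψ) = (E0 L : ℂ) • TW.mulVec ψ := by
    have h2 := congrArg (fun w => TW.mulVec w) hψ
    rw [hH, Matrix.mulVec_mulVec, ← Matrix.mul_assoc, ← Matrix.mul_assoc, c1, Matrix.one_mul,
      Matrix.mulVec_smul] at h2
    rw [Matrix.mulVec_mulVec]
    exact h2
  obtain ⟨c₂, hc₂⟩ := hv2 _ h1
  have hc10 : c₁ ≠ 0 := by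
    rintro rfl
    rw [zero_smul] at hc₁
    have := wcol_norm L i₀
    rw [hc₁] at this
    simp at this
  have hv : v = c₁⁻¹ • wcol L i₀ := by
    rw [hc₁, smul_smul, inv_mul_cancel₀ hc10, one_smul]
  refine ⟨c₂ * c₁⁻¹, ?_⟩
  have h3 : ψ = TW'.mulVec (TW.mulVec ψ) := by
    rw [Matrix.mulVec_mulVec, c2, Matrix.one_mulVec]
  rw [h3, hc₂, hv, smul_smul, Matrix.mulVec_smul]

/-- expectation values in a vector of this form -/
lemma expect_form {L : ℕ} (w : (Fin L → Fin 3) → ℂ) (c : ℂ)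
    {X Y : Matrix (Fin L → Fin 3) (Fin L → Fin 3) ℂ}
    (hXY : tensC (fun _ : Fin L => W) * X = Y * tensC (fun _ : Fin L => W)) :
    star (c • (tensC (fun _ : Fin L => W')).mulVec w) ⬝ᵥ
      (X.mulVec (c • (tensC (fun _ : Fin L => W')).mulVec w)) =
        (‖c‖ ^ 2 : ℝ) * (star w ⬝ᵥ Y.mulVec w) := by
  have h1 : tensC (fun _ : Fin L => W) * (X * tensC (fun _ : Fin L => W')) = Y := by
    rw [← Matrix.mul_assoc, hXY, Matrix.mul_assoc, TW_mul, Matrix.mul_one]
  rw [star_smul, Matrix.star_mulVec, TW'_conj, Matrix.mulVec_smul, Matrix.mulVec_mulVec,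
    smul_dotProduct, dotProduct_smul, ← Matrix.dotProduct_mulVec, Matrix.mulVec_mulVec, h1,
    smul_smul, smul_eq_mul]
  congr 1
  rw [RCLike.star_def, Complex.conj_mul']
  push_cast
  rfl

lemma onSite_two {n : ℕ} {i j : Fin (n + 1)} (hij : i ≠ j) (a : Fin 3) :
    onSite i (spinC a) * onSite j (spinC a) =
      -((tens (U2 i j (J a))).map (fun x : ℝ => (x : ℂ))) := by
  rw [onSite_eq_tensC, onSite_eq_tensC, tensC_mul]
  ext s t
  have h1 : ∀ x, ((if x = i then spinC a else 1) * (if x = j then spinC a else 1) :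
      Matrix (Fin 3) (Fin 3) ℂ) (s x) (t x) =
      ((if x = i then -Complex.I else 1) * (if x = j then -Complex.I else 1)) *
        ((U2 i j (J a) x (s x) (t x) : ℝ) : ℂ) := by
    intro x
    have hJ : Jr a = J a := rfl
    by_cases h2 : x = i
    · subst h2
      simp only [U2, if_true, hij, if_false, true_or, mul_one]
      unfold spinC
      rw [hJ]
    · by_cases h3 : x = j
      · subst h3
        simp only [U2, if_true, h2, if_false, or_true, one_mul]
        unfold spinC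
        rw [hJ]
      · simp only [U2, h2, h3, if_false, or_false, one_mul]
        simp [Matrix.one_apply, apply_ite]
  simp only [Matrix.neg_apply, Matrix.map_apply, tensC, h1, Finset.prod_mul_distrib,
    Finset.prod_ite_eq', Finset.mem_univ, if_true, tens]
  rw [neg_mul_neg, Complex.I_mul_I]
  push_cast
  ring

/-- equal components, ordered sites -/
theorem corr_bound_lt {n : ℕ} (hev : Even (n + 1)) (hL : 12 ≤ n + 1)
    {ψ : (Fin (n + 1) → Fin 3) → ℂ} (hψ : (haldaneH (n + 1)).mulVec ψ = (E0 (n + 1) : ℂ) • ψ)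
    {i j : Fin (n + 1)} (hij : i < j) (a : Fin 3) :
    ‖star ψ ⬝ᵥ (onSite i (spin a) * onSite j (spin a)).mulVec ψ‖ ≤
      Cc * Real.exp (-(((min ((i - j : Fin (n + 1)) : ℕ) ((j - i : Fin (n + 1)) : ℕ) : ℕ) : ℝ)
        / 54)) * (star ψ ⬝ᵥ ψ).re := by
  obtain ⟨m, hLk, hm⟩ := even_Lk hev (by omega)
  obtain ⟨i₀, h0, c, hc⟩ := ground_form hLk (by omega) hψ
  have hij' : (i : ℕ) < j := hij
  have hjn : (j : ℕ) < n + 1 := j.isLt
  have hd1 : ((j - i : Fin (n + 1)) : ℕ) = j - i := Fin.sub_val_of_le hij.le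
  have hd2 : ((i - j : Fin (n + 1)) : ℕ) = n + 1 - ((j : ℕ) - i) := by
    rw [Fin.val_sub, Nat.mod_eq_of_lt (by omega)]
    omega
  set d := min ((i - j : Fin (n + 1)) : ℕ) ((j - i : Fin (n + 1)) : ℕ) with hd
  have hdd : d = min ((j : ℕ) - i) (n + 1 - ((j : ℕ) - i)) := by rw [hd, hd1, hd2, min_comm]
  set x := vcol (n + 1) i₀ ⬝ᵥ (tens (U2 i j (J a))).mulVec (vcol (n + 1) i₀) with hx
  have hx1 : |x| ≤ Cc * Real.exp (-((d : ℝ) / 54)) := by
    by_cases h1 : 20736 ≤ m + 1
    · exact corr_large hLk h1 h0 hij a hdd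
    · have hquad := U2_quad i j a (vcol (n + 1) i₀)
      rw [vcol_norm] at hquad
      refine hquad.trans ?_
      have h2 : d ≤ 20736 := by omega
      have h3 : (d : ℝ) ≤ 20736 := by exact_mod_cast h2
      have h4 : Real.exp (-384) ≤ Real.exp (-((d : ℝ) / 54)) := Real.exp_le_exp.2 (by linarith)
      have h5 : 1 ≤ Real.exp (27 * 69) * Real.exp (-384) := by
        rw [← Real.exp_add]
        exact Real.one_le_exp (by norm_num)
      have h6 := mul_le_mul_of_nonneg_left h4 (Real.exp_pos (27 * 69)).le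
      have h7 : 0 ≤ Real.exp (27 * 69) * Real.exp (-((d : ℝ) / 54)) := by positivity
      have h8 : Cc * Real.exp (-((d : ℝ) / 54)) =
          13 * (Real.exp (27 * 69) * Real.exp (-((d : ℝ) / 54))) := by unfold Cc; ring
      rw [h8]
      refine (h5.trans h6).trans ?_
      linarith only [h7]
  have hTX : tensC (fun _ : Fin (n + 1) => W) * (onSite i (spin a) * onSite j (spin a)) =
      (onSite i (spinC a) * onSite j (spinC a)) * tensC (fun _ : Fin (n + 1) => W) := by
    rw [← Matrix.mul_assoc, tens_W_mul_onSite, Matrix.mul_assoc, tens_W_mul_onSite,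
      ← Matrix.mul_assoc]
  have h1 := expect_form (wcol (n + 1) i₀) c hTX
  have h2 := expect_form (wcol (n + 1) i₀) c (X := 1) (Y := 1)
    (by rw [Matrix.mul_one, Matrix.one_mul])
  rw [← hc, wcol_star] at h1 h2
  rw [Matrix.one_mulVec, Matrix.one_mulVec, wcol_norm, mul_one] at h2
  rw [onSite_two hij.ne, Matrix.neg_mulVec, dotProduct_neg] at h1
  have h3 : wcol (n + 1) i₀ ⬝ᵥ ((tens (U2 i j (J a))).map (fun x : ℝ => (x : ℂ))).mulVec
      (wcol (n + 1) i₀) = (x : ℂ) := by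
    unfold wcol
    rw [map_mulVec, map_dot]
  rw [h3] at h1
  rw [h1, h2, Complex.ofReal_re, norm_mul, norm_neg, Complex.norm_real, Complex.norm_real,
    Real.norm_eq_abs, Real.norm_eq_abs, abs_of_nonneg (sq_nonneg _), mul_comm]
  exact mul_le_mul_of_nonneg_right hx1 (sq_nonneg _)

/-- equal components -/
theorem corr_bound {L : ℕ} [NeZero L] (hev : Even L) (hL : 12 ≤ L)
    {ψ : (Fin L → Fin 3) → ℂ} (hψ : (haldaneH L).mulVec ψ = (E0 L : ℂ) • ψ)
    {i j : Fin L} (hij : i ≠ j) (a : Fin 3) :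
    ‖star ψ ⬝ᵥ (onSite i (spin a) * onSite j (spin a)).mulVec ψ‖ ≤
      Cc * Real.exp (-(((min ((i - j : Fin L) : ℕ) ((j - i : Fin L) : ℕ) : ℕ) : ℝ) / 54)) *
        (star ψ ⬝ᵥ ψ).re := by
  obtain ⟨n, rfl⟩ : ∃ n, L = n + 1 := ⟨L - 1, by omega⟩
  rcases lt_or_gt_of_ne hij with h | h
  · exact corr_bound_lt hev hL hψ h a
  · rw [onSite_comm hij, min_comm]
    exact corr_bound_lt hev hL hψ h a

/-- the total spin acts on one-site operators as a derivation -/
lemma totalSpin_onSite {L : ℕ} (a : Fin 3) (j : Fin L) (B : Matrix (Fin 3) (Fin 3) ℂ) :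
    totalSpin L a * onSite j B - onSite j B * totalSpin L a =
      onSite j (spin a * B - B * spin a) := by
  unfold totalSpin
  rw [Finset.sum_mul, Finset.mul_sum, ← Finset.sum_sub_distrib, Finset.sum_eq_single j]
  · rw [onSite_mul, onSite_mul, ← onSite_sub]
  · intro i _ hi
    rw [onSite_comm hi, sub_self]
  · intro h; exact absurd (Finset.mem_univ _) h

lemma totalSpin_conj (L : ℕ) (a : Fin 3) : (totalSpin L a)ᴴ = totalSpin L a := by
  unfold totalSpin
  rw [Matrix.conjTranspose_sum]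
  refine Finset.sum_congr rfl fun j _ => ?_
  rw [onSite_conj, spin_conj]

lemma expect_comm {L : ℕ} {a : Fin 3} {ψ : (Fin L → Fin 3) → ℂ}
    (hs : (totalSpin L a).mulVec ψ = 0) (X : Matrix (Fin L → Fin 3) (Fin L → Fin 3) ℂ) :
    star ψ ⬝ᵥ (totalSpin L a * X - X * totalSpin L a).mulVec ψ = 0 := by
  have h1 : star ψ ᵥ* totalSpin L a = 0 := by
    have := Matrix.star_mulVec (totalSpin L a) ψ
    rw [totalSpin_conj, hs, star_zero] at this
    exact this.symm
  rw [Matrix.sub_mulVec, dotProduct_sub, ← Matrix.mulVec_mulVec, ← Matrix.mulVec_mulVec, hs,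
    Matrix.mulVec_zero, dotProduct_zero, sub_zero, Matrix.dotProduct_mulVec, h1,
    zero_dotProduct]

lemma fin3_ne : ∀ a b : Fin 3, a ≠ b → b = a + 1 ∨ b = a + 2 := by decide

/-- different components are uncorrelated in a singlet -/
theorem corr_off {L : ℕ} {ψ : (Fin L → Fin 3) → ℂ}
    (hs : ∀ a, (totalSpin L a).mulVec ψ = 0) (i j : Fin L) {a b : Fin 3} (hab : a ≠ b) :
    star ψ ⬝ᵥ (onSite i (spin a) * onSite j (spin b)).mulVec ψ = 0 := by
  have h1 : ∀ B : Matrix (Fin 3) (Fin 3) ℂ, star ψ ⬝ᵥ (onSite i (spin a) *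
      onSite j (spin a * B - B * spin a)).mulVec ψ = 0 := by
    intro B
    have h2 := expect_comm (hs a) (onSite i (spin a) * onSite j B)
    have h3 := totalSpin_onSite a i (spin a)
    rw [sub_self, onSite_zero, sub_eq_zero] at h3
    rw [← Matrix.mul_assoc, h3, Matrix.mul_assoc, Matrix.mul_assoc, ← Matrix.mul_sub,
      totalSpin_onSite] at h2
    exact h2
  have h4 := fin3_ne a b hab
  rcases h4 with rfl | rfl
  · have h5 := h1 (spin (a + 2))
    have h6 := spin_comm (a + 2)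
    rw [f21, f22] at h6
    have h7 : spin a * spin (a + 2) - spin (a + 2) * spin a = (-Complex.I) • spin (a + 1) := by
      rw [neg_smul, ← h6, neg_sub]
    rw [h7, onSite_smul, Matrix.mul_smul, Matrix.smul_mulVec, dotProduct_smul] at h5
    rcases smul_eq_zero.1 h5 with h8 | h8
    · exact absurd h8 (neg_ne_zero.2 Complex.I_ne_zero)
    · exact h8
  · have h5 := h1 (spin (a + 1))
    rw [spin_comm a, onSite_smul, Matrix.mul_smul, Matrix.smul_mulVec, dotProduct_smul] at h5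
    rcases smul_eq_zero.1 h5 with h8 | h8
    · exact absurd h8 Complex.I_ne_zero
    · exact h8

/-- every ground state is a singlet -/
theorem singlet_all (L : ℕ) [NeZero L] (hev : Even L) (hL : 12 ≤ L)
    {ψ : (Fin L → Fin 3) → ℂ} (hψ : (haldaneH L).mulVec ψ = (E0 L : ℂ) • ψ) (a : Fin 3) :
    (totalSpin L a).mulVec ψ = 0 := by
  obtain ⟨φ, _, _, hu, hs⟩ := ground_unique L hev hL
  obtain ⟨c, rfl⟩ := hu ψ hψ
  rw [Matrix.mulVec_smul, hs, smul_zero]

/-- exponential decay of the spin correlations in the ground state, uniformly in the length -/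
theorem clustering : ∃ C : ℝ, ∀ (L : ℕ) [NeZero L], Even L → 12 ≤ L →
    ∀ ψ : (Fin L → Fin 3) → ℂ, (haldaneH L).mulVec ψ = (E0 L : ℂ) • ψ →
      ∀ i j : Fin L, i ≠ j → ∀ a b : Fin 3,
        ‖star ψ ⬝ᵥ (onSite i (spin a) * onSite j (spin b)).mulVec ψ‖ ≤
          C * Real.exp (-(((min ((i - j : Fin L) : ℕ) ((j - i : Fin L) : ℕ) : ℕ) : ℝ) / 54)) *
            (star ψ ⬝ᵥ ψ).re := by
  refine ⟨Cc, fun L _ hev hL ψ hψ i j hij a b => ?_⟩
  by_cases hab : a = b
  · subst hab
    exact corr_bound hev hL hψ hij a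
  · rw [corr_off (singlet_all L hev hL hψ) i j hab, norm_zero]
    have h1 : 0 ≤ (star ψ ⬝ᵥ ψ).re := by
      have : (star ψ ⬝ᵥ ψ).re = ∑ s, ‖ψ s‖ ^ 2 := by
        simp only [dotProduct, Pi.star_apply, RCLike.star_def, Complex.conj_mul', Complex.re_sum]
        refine Finset.sum_congr rfl fun s _ => ?_
        rw [← Complex.ofReal_pow, Complex.ofReal_re]
      rw [this]
      exact Finset.sum_nonneg fun s _ => sq_nonneg _
    have h2 : 0 ≤ Cc := by unfold Cc; positivity
    positivity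

end

end Vale.Agent.P348
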