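import Vale.Agent.P348.H997.G4
import Vale.Agent.P348.H997.Phase

/-! Clustering of the ground state for products of site matrices. -/

namespace Vale.Agent.P348

open Matrix Finset Filter Topology

noncomputable section

/-- the list `A` placed on the sites `x, x + 1, …` of the ring -/
def SF {n : ℕ} (x : Fin (n + 1)) (A : List M3) : Fin (n + 1) → M3 :=
  fun i => A.getD ((i - x : Fin (n + 1)) : ℕ) 1

lemma nice_getD {A : List M3} (hA : ∀ X ∈ A, Nice X) (k : ℕ) : Nice (A.getD k 1) := by
  by_cases h : k < A.length
  · rw [List.getD_eq_getElem _ _ h]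
    exact hA _ (List.getElem_mem h)
  · rw [List.getD_eq_default _ _ (by omega)]
    exact nice_one

lemma SF_nice {n : ℕ} (x : Fin (n + 1)) {A : List M3} (hA : ∀ X ∈ A, Nice X)
    (i : Fin (n + 1)) : Nice (SF x A i) := nice_getD hA _

section
variable (N : ℕ) (t : ℝ)

lemma trace_rotate (l : List M3) (k : ℕ) (hk : k ≤ l.length) :
    (PK N t (l.rotate k)).trace = (PK N t l).trace := by
  rw [List.rotate_eq_drop_append_take hk, PK_append, Matrix.trace_mul_comm, ← PK_append,
    List.take_append_drop]

end

lemma ofFn_rotate {n : ℕ} (U : Fin (n + 1) → M3) (x : Fin (n + 1)) :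
    (List.ofFn U).rotate x = List.ofFn (fun i => U (i + x)) := by
  refine List.ext_getElem (by simp) fun k h1 h2 => ?_
  rw [List.getElem_rotate, List.getElem_ofFn, List.getElem_ofFn]
  congr 1
  apply Fin.ext
  rw [Fin.val_add]
  simp

lemma ofFn_SF {n : ℕ} (x : Fin (n + 1)) (A : List M3) (hA : A.length ≤ n + 1) :
    List.ofFn (fun i => SF x A (i + x)) = A ++ List.replicate (n + 1 - A.length) 1 := by
  refine List.ext_getElem (by simp; omega) fun k h1 h2 => ?_
  rw [List.getElem_ofFn]
  unfold SF
  rw [add_sub_cancel_right]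
  simp only
  by_cases h : k < A.length
  · rw [List.getD_eq_getElem _ _ h, List.getElem_append_left h]
  · rw [List.getD_eq_default _ _ (by omega), List.getElem_append_right (by omega),
      List.getElem_replicate]

lemma ofFn_SF2 {n : ℕ} (x y : Fin (n + 1)) (A B : List M3)
    (h1 : A.length ≤ ((y - x : Fin (n + 1)) : ℕ))
    (h2 : ((y - x : Fin (n + 1)) : ℕ) + B.length ≤ n + 1) :
    List.ofFn (fun i => SF x A (i + x) * SF y B (i + x)) =
      A ++ List.replicate (((y - x : Fin (n + 1)) : ℕ) - A.length) 1 ++ B ++
        List.replicate (n + 1 - (((y - x : Fin (n + 1)) : ℕ) + B.length)) 1 := by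
  set e := ((y - x : Fin (n + 1)) : ℕ) with he
  refine List.ext_getElem (by simp; omega) fun k h3 h4 => ?_
  rw [List.getElem_ofFn]
  unfold SF
  rw [add_sub_cancel_right]
  have hk : k < n + 1 := by simpa using h3
  have e1 : ((⟨k, hk⟩ + x - y : Fin (n + 1)) : ℕ) = if e ≤ k then k - e else k + (n + 1) - e := by
    have e2 : (⟨k, hk⟩ + x - y : Fin (n + 1)) = ⟨k, hk⟩ - (y - x) := by
      rw [sub_sub_eq_add_sub, add_sub_assoc]
    have hen : e < n + 1 := (y - x).isLt
    rw [e2, Fin.val_sub, ← he]
    simp only
    split_ifs with h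
    · have : n + 1 - e + k = (k - e) + (n + 1) := by omega
      rw [this, Nat.add_mod_right, Nat.mod_eq_of_lt (by omega)]
    · rw [Nat.mod_eq_of_lt (by omega)]
      omega
  simp only [e1]
  by_cases c1 : k < A.length
  · rw [List.getD_eq_getElem _ _ c1]
    have : ¬ e ≤ k := by omega
    rw [if_neg this, List.getD_eq_default _ _ (by omega), mul_one]
    rw [List.getElem_append_left (by simp; omega), List.getElem_append_left (by simp; omega),
      List.getElem_append_left c1]
  · rw [List.getD_eq_default _ _ (show A.length ≤ k by omega), one_mul]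
    by_cases c2 : k < e
    · rw [if_neg (by omega), List.getD_eq_default _ _ (by omega)]
      rw [List.getElem_append_left (by simp; omega), List.getElem_append_left (by simp; omega),
        List.getElem_append_right (by omega), List.getElem_replicate]
    · rw [if_pos (by omega)]
      by_cases c3 : k < e + B.length
      · rw [List.getD_eq_getElem _ _ (show k - e < B.length by omega)]
        rw [List.getElem_append_left (by simp; omega), List.getElem_append_right (by simp; omega)]
        congr 1
        simp
        omega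
      · rw [List.getD_eq_default _ _ (by omega)]
        rw [List.getElem_append_right (by simp; omega), List.getElem_replicate]

/-- limit for a one-arc product -/
lemma lim_one {n : ℕ} (hn : 1 ≤ n) {T : ℝ} (hT : 0 ≤ T) (x : Fin (n + 1)) {A : List M3}
    (hA : A.length ≤ n + 1) :
    Tendsto (fun N : ℕ => (PK N (T / N) (A ++ List.replicate (n + 1 - A.length) 1)).trace) atTop
      (𝓝 (Th n (SF x A) T)) := by
  refine (lim_Th hn (SF x A) hT).congr fun N => ?_
  rw [← ofFn_SF x A hA, ← ofFn_rotate, trace_rotate]
  simp

/-- limit for a two-arc product -/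
lemma lim_two {n : ℕ} (hn : 1 ≤ n) {T : ℝ} (hT : 0 ≤ T) (x y : Fin (n + 1)) {A B : List M3}
    (h1 : A.length ≤ ((y - x : Fin (n + 1)) : ℕ))
    (h2 : ((y - x : Fin (n + 1)) : ℕ) + B.length ≤ n + 1) :
    Tendsto (fun N : ℕ => (PK N (T / N) (A ++
      List.replicate (((y - x : Fin (n + 1)) : ℕ) - A.length) 1 ++ B ++
        List.replicate (n + 1 - (((y - x : Fin (n + 1)) : ℕ) + B.length)) 1)).trace) atTop
      (𝓝 (Th n (fun i => SF x A i * SF y B i) T)) := by
  refine (lim_Th hn (fun i => SF x A i * SF y B i) hT).congr fun N => ?_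
  rw [← ofFn_SF2 x y A B h1 h2, ← ofFn_rotate (fun i => SF x A i * SF y B i), trace_rotate]
  simp

end

end Vale.Agent.P348
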