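import Vale.Agent.P348.H997.G5

/-! Clustering of the ground state for products of site matrices (real form). -/

namespace Vale.Agent.P348

open Matrix Finset Filter Topology

noncomputable section

/-- ground state against thermal state -/
lemma ground_diff {L : ℕ} [NeZero L] {m : ℕ} (hL : L = Lk (m + 1)) {i₀ : Fin L → Fin 3}
    (h0 : (ringH_isHermitian L u1).eigenvalues i₀ = E0 L)
    {X : Matrix (Fin L → Fin 3) (Fin L → Fin 3) ℝ} (hX : ∀ v, |v ⬝ᵥ X.mulVec v| ≤ v ⬝ᵥ v)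
    (T : ℝ) :
    |(vcol L i₀ ⬝ᵥ X.mulVec (vcol L i₀)) * zF L T -
      (X * NormedSpace.exp ((-T) • ringH L u1)).trace| ≤ 2 * DD.b T (m + 1) * zF L T := by
  have h1 := trace_exp_expand _ (ringH_isHermitian L u1) X T
  have h2 := sum_exp_eq hL T
  have hz : zF L T = ∑ i, Real.exp (-(T * (ringH_isHermitian L u1).eigenvalues i)) :=
    zF_eq_sum L T
  set lam := (ringH_isHermitian L u1).eigenvalues with hlam
  have h3 : (X * NormedSpace.exp ((-T) • ringH L u1)).trace =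
      ∑ i, (vcol L i ⬝ᵥ X.mulVec (vcol L i)) * Real.exp (-(T * lam i)) := h1
  have hb := DD.b_nonneg T (m + 1)
  have he : 0 < Real.exp (-(T * E0 L)) := Real.exp_pos _
  have hX1 : ∀ i, |vcol L i ⬝ᵥ X.mulVec (vcol L i)| ≤ 1 := by
    intro i
    have h5 := hX (vcol L i)
    rwa [vcol_norm] at h5
  have h4 : (vcol L i₀ ⬝ᵥ X.mulVec (vcol L i₀)) * zF L T -
      (X * NormedSpace.exp ((-T) • ringH L u1)).trace =
      ∑ i ∈ univ.erase i₀, ((vcol L i₀ ⬝ᵥ X.mulVec (vcol L i₀)) -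
        (vcol L i ⬝ᵥ X.mulVec (vcol L i))) * Real.exp (-(T * lam i)) := by
    have h6 : (vcol L i₀ ⬝ᵥ X.mulVec (vcol L i₀)) * zF L T -
      (X * NormedSpace.exp ((-T) • ringH L u1)).trace =
      ∑ i, ((vcol L i₀ ⬝ᵥ X.mulVec (vcol L i₀)) -
        (vcol L i ⬝ᵥ X.mulVec (vcol L i))) * Real.exp (-(T * lam i)) := by
      rw [h3, hz, Finset.mul_sum, ← Finset.sum_sub_distrib]
      refine Finset.sum_congr rfl fun i _ => by ring
    rw [h6, ← Finset.add_sum_erase _ _ (Finset.mem_univ i₀), sub_self, zero_mul, zero_add]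
  have h5 : ∑ i ∈ univ.erase i₀, Real.exp (-(T * lam i)) =
      Real.exp (-(T * E0 L)) * DD.b T (m + 1) := by
    rw [← Finset.add_sum_erase _ _ (Finset.mem_univ i₀), h0] at h2
    linarith
  rw [h4]
  refine (Finset.abs_sum_le_sum_abs _ _).trans ?_
  have h7 : ∑ i ∈ univ.erase i₀, |((vcol L i₀ ⬝ᵥ X.mulVec (vcol L i₀)) -
        (vcol L i ⬝ᵥ X.mulVec (vcol L i))) * Real.exp (-(T * lam i))| ≤
      ∑ i ∈ univ.erase i₀, 2 * Real.exp (-(T * lam i)) := by
    refine Finset.sum_le_sum fun i _ => ?_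
    rw [abs_mul, abs_of_pos (Real.exp_pos _)]
    refine mul_le_mul_of_nonneg_right ?_ (Real.exp_pos _).le
    refine (abs_sub _ _).trans ?_
    have := hX1 i₀
    have := hX1 i
    linarith
  refine h7.trans ?_
  rw [← Finset.mul_sum, h5, hz, h2]
  have h8 : 0 ≤ DD.b T (m + 1) * DD.b T (m + 1) := by positivity
  nlinarith

/-- expectation of a product of site matrices in the real ground vector -/
def gex {n : ℕ} (i₀ : Fin (n + 1) → Fin 3) (U : Fin (n + 1) → M3) : ℝ :=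
  vcol (n + 1) i₀ ⬝ᵥ (tens U).mulVec (vcol (n + 1) i₀)

lemma gex_le {n : ℕ} (i₀ : Fin (n + 1) → Fin 3) {U : Fin (n + 1) → M3} (hU : ∀ x, Nice (U x)) :
    |gex i₀ U| ≤ 1 := by
  have h := tens_quad U hU (vcol (n + 1) i₀)
  rwa [vcol_norm] at h

lemma gex_diff {n m : ℕ} (hn : 1 ≤ n) (hL : n + 1 = Lk (m + 1)) {i₀ : Fin (n + 1) → Fin 3}
    (h0 : (ringH_isHermitian (n + 1) u1).eigenvalues i₀ = E0 (n + 1)) {U : Fin (n + 1) → M3}
    (hU : ∀ x, Nice (U x)) (T : ℝ) :
    |gex i₀ U * zF (n + 1) T - Th n U T| ≤ 2 * DD.b T (m + 1) * zF (n + 1) T := by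
  have h := ground_diff hL h0 (tens_quad U hU) T
  rw [← exp_XR hn] at h
  exact h

lemma abstract_diff {X Y W z b fAB fA fB E : ℝ} (hz : 0 < z) (hb : 0 ≤ b)
    (h1 : |X * z - fAB| ≤ 2 * b * z) (h2 : |Y * z - fA| ≤ 2 * b * z)
    (h3 : |W * z - fB| ≤ 2 * b * z) (hY : |Y| ≤ 1) (hfB : |fB| ≤ z)
    (h4 : |fAB * z - fA * fB| ≤ E * z ^ 2) : |X - Y * W| ≤ E + 6 * b := by
  have key : (X - Y * W) * z ^ 2 = (X * z - fAB) * z + (fAB * z - fA * fB) -
      (Y * z - fA) * fB - Y * z * (W * z - fB) := by ring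
  have t1 : |(X * z - fAB) * z| ≤ 2 * b * z * z := by
    rw [abs_mul, abs_of_pos hz]; exact mul_le_mul_of_nonneg_right h1 hz.le
  have t3 : |(Y * z - fA) * fB| ≤ 2 * b * z * z := by
    rw [abs_mul]; exact mul_le_mul h2 hfB (abs_nonneg _) (by positivity)
  have t4 : |Y * z * (W * z - fB)| ≤ z * (2 * b * z) := by
    rw [abs_mul, abs_mul, abs_of_pos hz]
    exact mul_le_mul (by nlinarith) h3 (abs_nonneg _) hz.le
  have h5 : |X - Y * W| * z ^ 2 ≤ (E + 6 * b) * z ^ 2 := by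
    have e : |X - Y * W| * z ^ 2 = |(X - Y * W) * z ^ 2| := by
      rw [abs_mul, abs_of_pos (pow_pos hz 2)]
    rw [e, key]
    have a1 := abs_sub ((X * z - fAB) * z + (fAB * z - fA * fB) - (Y * z - fA) * fB)
      (Y * z * (W * z - fB))
    have a2 := abs_sub ((X * z - fAB) * z + (fAB * z - fA * fB)) ((Y * z - fA) * fB)
    have a3 := abs_add_le ((X * z - fAB) * z) (fAB * z - fA * fB)
    nlinarith
  exact le_of_mul_le_mul_right h5 (pow_pos hz 2)

/-- constant for long rings -/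
def Cg (r s : ℕ) : ℝ := (2 * Real.exp (27 * 69)) ^ 3 * (1 + 4 * Real.exp ((r : ℝ) + s)) + 6

/-- long rings, second arc at least as long as the first -/
theorem prod_cluster_le {n m : ℕ} (hL : n + 1 = Lk (m + 1)) {A B : List M3}
    (hm : 20736 + A.length + B.length ≤ m + 1) {i₀ : Fin (n + 1) → Fin 3}
    (h0 : (ringH_isHermitian (n + 1) u1).eigenvalues i₀ = E0 (n + 1))
    (hA : ∀ X ∈ A, Nice X) (hB : ∀ X ∈ B, Nice X) (x y : Fin (n + 1))
    (h1 : A.length ≤ ((y - x : Fin (n + 1)) : ℕ))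
    (h2 : ((y - x : Fin (n + 1)) : ℕ) + B.length ≤ n + 1)
    (hab : ((y - x : Fin (n + 1)) : ℕ) - A.length ≤
      n + 1 - (((y - x : Fin (n + 1)) : ℕ) + B.length)) :
    |gex i₀ (fun i => SF x A i * SF y B i) - gex i₀ (SF x A) * gex i₀ (SF y B)| ≤
      Cg A.length B.length *
        Real.exp (-((((y - x : Fin (n + 1)) : ℕ) - A.length : ℕ) : ℝ) / 54) := by
  have hL2 : n + 1 = 2 * (m + 1) := by rw [hL]; unfold Lk; omega
  set k := m + 1 with hk
  set e := ((y - x : Fin (n + 1)) : ℕ) with he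
  set a := e - A.length with ha
  set b := n + 1 - (e + B.length) with hb
  have hn : 1 ≤ n := by omega
  have hak : a ≤ k := by omega
  have hkn : 20736 ≤ k := by omega
  have hkr : (20736 : ℝ) ≤ k := by exact_mod_cast hkn
  have har : (a : ℝ) ≤ k := by exact_mod_cast hak
  set T : ℝ := 5 / 4 * k with hT
  have hT480 : 480 ≤ T := by rw [hT]; linarith
  have hT0 : 0 < T := by linarith
  set c := k / 54 with hc
  have hc1 : 384 ≤ c := by omega
  have hc2 : 54 * c ≤ k := by omega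
  have hc3 : k < 54 * (c + 1) := by omega
  have hc2r : 54 * (c : ℝ) ≤ k := by exact_mod_cast hc2
  have hc3r : (k : ℝ) < 54 * (c + 1) := by exact_mod_cast hc3
  obtain ⟨m₁, hm₁, hcm⟩ := DD_c_exp hT480
  set ρ : ℝ := Real.exp (-(1 / 52)) with hρ
  have hρ0 : 0 < ρ := Real.exp_pos _
  have hρ1 : ρ ≤ 1 := by rw [hρ, Real.exp_le_one_iff]; norm_num
  have hρ2 : ∀ x : ℕ, ρ ^ x = Real.exp (-((x : ℝ) / 52)) := by
    intro x
    rw [hρ, ← Real.exp_nat_mul]
    congr 1; ring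
  have hcρ : DD.c T m₁ ≤ ρ ^ (2 * m₁) := by
    have h2 : ρ ^ (2 * m₁) = Real.exp (-(1 / 26 * m₁)) := by
      rw [hρ2]; congr 1; push_cast; ring
    rw [h2]
    exact hcm
  have hcb : 2 * c ≤ b := by omega
  have hsum : 2 * k = A.length + a + B.length + b := by omega
  have l1 := lim_two hn hT0.le x y h1 h2
  have l2 := lim_one hn hT0.le x (A := A) (by omega)
  have l3 := lim_one hn hT0.le y (A := B) (by omega)
  rw [hL2] at l2 l3
  have hmain := cluster_lim hT0 hm₁ hρ0 hρ1 hcρ hA hB (show 1 ≤ c by omega) hcb hsum l1 l2 l3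
  -- the constant
  have hc0 := DD.c_nonneg hT0 (show 1 ≤ c by omega)
  have hz : 1 + DD.c T c ≤ 2 * Real.exp (27 * 69) := by
    have h1 := DD_z_le (j := c) hc1 (T := T) (M := 69) (by rw [hT]; linarith)
      (by rw [hT]; linarith)
    have h3 := DD.z_eq_c T c
    have h4 : 1 ≤ Real.exp (c * DD.ph T) :=
      Real.one_le_exp (mul_nonneg (Nat.cast_nonneg _) (DD.ph_nonneg hT0))
    nlinarith only [h1, hc0, h3, h4]
  have hbb := DD_b_exp (k := k) (by omega) (T := T) (by rw [hT]; linarith)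
  have hb0 := DD.b_nonneg T k
  have hb1 : DD.b T k ≤ Real.exp (-(a : ℝ) / 54) := by
    refine hbb.trans (Real.exp_le_exp.2 ?_)
    rw [hT]; linarith
  -- normalisation
  have hzk : zF (n + 1) T = gt T ^ (2 * k) * (1 + DD.c T k) := by rw [zF_cast hL, zF_gt]
  have hck := DD.c_nonneg hT0 (show 1 ≤ k by omega)
  have hg := gt_pos T
  have hzpos : 0 < zF (n + 1) T := by rw [hzk]; positivity
  have hzg : gt T ^ (2 * (2 * k)) ≤ zF (n + 1) T ^ 2 := by
    rw [hzk, mul_comm 2 (2 * k), pow_mul]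
    refine pow_le_pow_left₀ (by positivity) ?_ 2
    exact le_mul_of_one_le_right (by positivity) (by linarith)
  -- the rates
  have hr1 : ρ ^ a ≤ Real.exp (-(a : ℝ) / 54) := by
    rw [hρ2]
    refine Real.exp_le_exp.2 ?_
    have : (0 : ℝ) ≤ a := Nat.cast_nonneg _
    linarith
  have hr2 : ρ ^ (b - 2 * c) ≤ Real.exp ((A.length : ℝ) + B.length) * Real.exp (-(a : ℝ) / 54) := by
    rw [hρ2, ← Real.exp_add]
    refine Real.exp_le_exp.2 ?_
    have h3 : 2 * k ≤ A.length + B.length + 2 * b := by omega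
    have h3r : 2 * (k : ℝ) ≤ A.length + B.length + 2 * b := by exact_mod_cast h3
    rw [Nat.cast_sub hcb]
    push_cast
    have h4 : (0 : ℝ) ≤ A.length := Nat.cast_nonneg _
    have h5 : (0 : ℝ) ≤ B.length := Nat.cast_nonneg _
    linarith
  have hE : |Th n (fun i => SF x A i * SF y B i) T * zF (n + 1) T - Th n (SF x A) T *
      Th n (SF y B) T| ≤ ((2 * Real.exp (27 * 69)) ^ 3 * ((1 + 4 * Real.exp ((A.length : ℝ) +
        B.length)) * Real.exp (-(a : ℝ) / 54))) * zF (n + 1) T ^ 2 := by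
    rw [zF_cast hL]
    refine hmain.trans ?_
    rw [← zF_cast hL]
    have h6 : ρ ^ a + 4 * ρ ^ (b - 2 * c) ≤ (1 + 4 * Real.exp ((A.length : ℝ) + B.length)) *
        Real.exp (-(a : ℝ) / 54) := by
      rw [add_mul, one_mul, mul_assoc]
      linarith
    have h7 : (1 + DD.c T c) ^ 3 ≤ (2 * Real.exp (27 * 69)) ^ 3 :=
      pow_le_pow_left₀ (by linarith) hz 3
    have h8 : 0 ≤ ρ ^ a + 4 * ρ ^ (b - 2 * c) := by positivity
    calc (1 + DD.c T c) ^ 3 * gt T ^ (2 * (2 * k)) * (ρ ^ a + 4 * ρ ^ (b - 2 * c)) ≤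
        (2 * Real.exp (27 * 69)) ^ 3 * zF (n + 1) T ^ 2 *
          ((1 + 4 * Real.exp ((A.length : ℝ) + B.length)) * Real.exp (-(a : ℝ) / 54)) := by
          refine mul_le_mul (mul_le_mul h7 hzg (by positivity) (by positivity)) h6 h8
            (by positivity)
      _ = _ := by ring
  have hUAB : ∀ i, Nice (SF x A i * SF y B i) := by
    intro i
    have hi : SF x A i * SF y B i ∈ List.ofFn (fun i => SF x A (i + x) * SF y B (i + x)) := by
      rw [List.mem_ofFn']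
      exact ⟨i - x, by simp⟩
    rw [ofFn_SF2 x y A B h1 h2] at hi
    simp only [List.mem_append, List.mem_replicate] at hi
    rcases hi with ((h | h) | h) | h
    · exact hA _ h
    · rw [h.2]; exact nice_one
    · exact hB _ h
    · rw [h.2]; exact nice_one
  have hfin := abstract_diff hzpos hb0 (gex_diff hn hL h0 hUAB T)
    (gex_diff hn hL h0 (SF_nice x hA) T) (gex_diff hn hL h0 (SF_nice y hB) T)
    (gex_le i₀ (SF_nice x hA)) (Th_le hn (SF y B) (SF_nice y hB) T) hE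
  refine hfin.trans ?_
  unfold Cg
  have he := Real.exp_pos (-(a : ℝ) / 54)
  rw [add_mul, mul_assoc]
  linarith

end

end Vale.Agent.P348
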