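import Vale.Agent.P348.H997.G6

/-! Clustering for products of site matrices: all positions and all lengths. -/

namespace Vale.Agent.P348

open Matrix Finset Filter Topology

noncomputable section

lemma sub_val_eq {n : ℕ} (x y i : Fin (n + 1)) :
    ((i - y : Fin (n + 1)) : ℕ) =
      if ((y - x : Fin (n + 1)) : ℕ) ≤ ((i - x : Fin (n + 1)) : ℕ) then
        ((i - x : Fin (n + 1)) : ℕ) - ((y - x : Fin (n + 1)) : ℕ)
      else ((i - x : Fin (n + 1)) : ℕ) + (n + 1) - ((y - x : Fin (n + 1)) : ℕ) := by
  have e2 : (i - y : Fin (n + 1)) = (i - x) - (y - x) := by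
    rw [sub_sub_sub_cancel_right]
  have hen : ((y - x : Fin (n + 1)) : ℕ) < n + 1 := (y - x).isLt
  have hk : ((i - x : Fin (n + 1)) : ℕ) < n + 1 := (i - x).isLt
  rw [e2, Fin.val_sub]
  split_ifs with h
  · have : n + 1 - ((y - x : Fin (n + 1)) : ℕ) + ((i - x : Fin (n + 1)) : ℕ) =
      (((i - x : Fin (n + 1)) : ℕ) - ((y - x : Fin (n + 1)) : ℕ)) + (n + 1) := by omega
    rw [this, Nat.add_mod_right, Nat.mod_eq_of_lt (by omega)]
  · rw [Nat.mod_eq_of_lt (by omega)]
    omega

lemma SF_one_or {n : ℕ} (x y : Fin (n + 1)) (A B : List M3)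
    (h1 : A.length ≤ ((y - x : Fin (n + 1)) : ℕ))
    (h2 : ((y - x : Fin (n + 1)) : ℕ) + B.length ≤ n + 1) (i : Fin (n + 1)) :
    SF x A i = 1 ∨ SF y B i = 1 := by
  unfold SF
  by_cases h : ((i - x : Fin (n + 1)) : ℕ) < A.length
  · right
    rw [sub_val_eq x y i, if_neg (by omega), List.getD_eq_default _ _ (by omega)]
  · left
    rw [List.getD_eq_default _ _ (by omega)]

lemma SF_nil {n : ℕ} (x : Fin (n + 1)) : SF x [] = fun _ => 1 := by
  funext i; simp [SF]

lemma gex_one {n : ℕ} (i₀ : Fin (n + 1) → Fin 3) : gex i₀ (fun _ => 1) = 1 := by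
  have h : tens (fun _ : Fin (n + 1) => (1 : M3)) = 1 := by
    ext s t
    simp only [tens, Matrix.one_apply]
    by_cases hst : s = t
    · subst hst; simp
    · rw [if_neg hst]
      obtain ⟨x, hx⟩ : ∃ x, s x ≠ t x := by
        by_contra hh
        push Not at hh
        exact hst (funext hh)
      exact Finset.prod_eq_zero (Finset.mem_univ x) (if_neg hx)
  unfold gex
  rw [h, Matrix.one_mulVec, vcol_norm]

/-- constant for all rings -/
def Cn (r s : ℕ) : ℝ := Cg r s + 2 * Real.exp ((20736 + (r : ℝ) + s) / 54)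

lemma Cg_comm (r s : ℕ) : Cg r s = Cg s r := by
  unfold Cg; rw [add_comm (r : ℝ)]

lemma Cg_nonneg (r s : ℕ) : 0 ≤ Cg r s := by unfold Cg; positivity

/-- clustering for products of site matrices -/
theorem prod_cluster {n m : ℕ} (hL : n + 1 = Lk (m + 1)) {A B : List M3}
    {i₀ : Fin (n + 1) → Fin 3}
    (h0 : (ringH_isHermitian (n + 1) u1).eigenvalues i₀ = E0 (n + 1))
    (hA : ∀ X ∈ A, Nice X) (hB : ∀ X ∈ B, Nice X) (x y : Fin (n + 1))
    (h1 : A.length ≤ ((y - x : Fin (n + 1)) : ℕ))
    (h2 : ((y - x : Fin (n + 1)) : ℕ) + B.length ≤ n + 1) :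
    |gex i₀ (fun i => SF x A i * SF y B i) - gex i₀ (SF x A) * gex i₀ (SF y B)| ≤
      Cn A.length B.length *
        Real.exp (-((min (((y - x : Fin (n + 1)) : ℕ) - A.length)
          (n + 1 - (((y - x : Fin (n + 1)) : ℕ) + B.length)) : ℕ) : ℝ) / 54) := by
  have hL2 : n + 1 = 2 * (m + 1) := by rw [hL]; unfold Lk; omega
  set e := ((y - x : Fin (n + 1)) : ℕ) with he
  set d := min (e - A.length) (n + 1 - (e + B.length)) with hd
  have hex := Real.exp_pos (-(d : ℝ) / 54)
  have hcn : Cg A.length B.length * Real.exp (-(d : ℝ) / 54) ≤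
      Cn A.length B.length * Real.exp (-(d : ℝ) / 54) := by
    refine mul_le_mul_of_nonneg_right ?_ hex.le
    unfold Cn
    have := Real.exp_pos ((20736 + (A.length : ℝ) + B.length) / 54)
    linarith
  by_cases hm : 20736 + A.length + B.length ≤ m + 1
  · by_cases hA0 : A.length = 0
    · have hAn : A = [] := List.eq_nil_of_length_eq_zero hA0
      subst hAn
      rw [SF_nil, gex_one]
      simp only [one_mul]
      rw [show (fun i => SF y B i) = SF y B from rfl, sub_self, abs_zero]
      have h3 : 0 ≤ Cg ([] : List M3).length B.length := Cg_nonneg _ _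
      exact (mul_nonneg h3 hex.le).trans hcn
    · by_cases hab : e - A.length ≤ n + 1 - (e + B.length)
      · have h3 := prod_cluster_le hL hm h0 hA hB x y h1 h2 hab
        refine h3.trans ?_
        rw [← he]
        have : e - A.length = d := by omega
        rw [this]
        exact hcn
      · have hen : e < n + 1 := (y - x).isLt
        have hxy : ((x - y : Fin (n + 1)) : ℕ) = n + 1 - e := by
          have h4 : (x - y : Fin (n + 1)) = 0 - (y - x) := by rw [zero_sub, neg_sub]
          rw [h4, Fin.val_sub, ← he]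
          have : n + 1 - e + ((0 : Fin (n + 1)) : ℕ) = n + 1 - e := by simp
          rw [this, Nat.mod_eq_of_lt (by omega)]
        have h3 := prod_cluster_le hL (A := B) (B := A) (by omega) h0 hB hA y x
          (by rw [hxy]; omega) (by rw [hxy]; omega) (by rw [hxy]; omega)
        have hcomm : (fun i => SF y B i * SF x A i) = fun i => SF x A i * SF y B i := by
          funext i
          rcases SF_one_or x y A B h1 h2 i with h | h
          · rw [h, Matrix.one_mul, Matrix.mul_one]
          · rw [h, Matrix.one_mul, Matrix.mul_one]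
        rw [hcomm, mul_comm (gex i₀ (SF y B)), hxy, Cg_comm] at h3
        refine h3.trans ?_
        have : n + 1 - e - B.length = d := by omega
        rw [this]
        exact hcn
  · have hUAB : ∀ i, Nice (SF x A i * SF y B i) := by
      intro i
      rcases SF_one_or x y A B h1 h2 i with h | h
      · rw [h, Matrix.one_mul]; exact SF_nice y hB i
      · rw [h, Matrix.mul_one]; exact SF_nice x hA i
    have g1 := gex_le i₀ hUAB
    have g2 := gex_le i₀ (SF_nice x hA)
    have g3 := gex_le i₀ (SF_nice y hB)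
    have g4 : |gex i₀ (SF x A) * gex i₀ (SF y B)| ≤ 1 := by
      rw [abs_mul]
      exact mul_le_one₀ g2 (abs_nonneg _) g3
    have g5 := abs_sub (gex i₀ (fun i => SF x A i * SF y B i))
      (gex i₀ (SF x A) * gex i₀ (SF y B))
    have h3 : d ≤ 20736 + A.length + B.length := by omega
    have h4 : (d : ℝ) ≤ 20736 + A.length + B.length := by exact_mod_cast h3
    have h5 : 1 ≤ Real.exp ((20736 + (A.length : ℝ) + B.length) / 54) *
        Real.exp (-(d : ℝ) / 54) := by
      rw [← Real.exp_add]
      exact Real.one_le_exp (by linarith)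
    unfold Cn
    have h6 := mul_nonneg (Cg_nonneg A.length B.length) hex.le
    rw [add_mul]
    linarith

end

end Vale.Agent.P348
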