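import Vale.Agent.P348.Defs
import Vale.Agent.P348.H997.Defs

/-! Local observables and states of the infinite chain, used by the statement of
`Vale.Agent.Results.P348.HaldaneState`. -/

namespace Vale.Agent.P348

open Matrix

noncomputable section

/-- The observable `A` of `r` consecutive sites, placed on the sites `x, x + 1, …, x + r - 1` of
the ring of length `L` (indices mod `L`); it acts as the identity on the other sites. -/
def localOp (L r : ℕ) [NeZero L] (x : Fin L) (A : Matrix (Fin r → Fin 3) (Fin r → Fin 3) ℂ) :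
    Matrix (Fin L → Fin 3) (Fin L → Fin 3) ℂ :=
  fun s t => if ∀ i : Fin L, r ≤ ((i - x : Fin L) : ℕ) → s i = t i then
    A (fun k => s (x + Fin.ofNat L k)) (fun k => t (x + Fin.ofNat L k)) else 0

/-- The Heisenberg Hamiltonian of the open chain with the sites `0, …, r` and `r` bonds. -/
def openH (r : ℕ) : Matrix (Fin (r + 1) → Fin 3) (Fin (r + 1) → Fin 3) ℂ :=
  ∑ j : Fin r, ∑ a : Fin 3, onSite j.castSucc (spin a) * onSite j.succ (spin a)

/-- `ω r A` is the expectation of the observable `A` of `r` consecutive sites in a translation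
and rotation invariant state of the infinite chain: `ω` is normalised and positive, it does not
depend on the window `0, …, q` and the position `x` in which the observable is looked at, and it
is invariant under the rotations generated by the spins. -/
structure IsInvariantState (ω : ∀ r : ℕ, Matrix (Fin r → Fin 3) (Fin r → Fin 3) ℂ →ₗ[ℂ] ℂ) :
    Prop where
  one : ∀ r : ℕ, ω r 1 = 1
  pos : ∀ (r : ℕ) (A : Matrix (Fin r → Fin 3) (Fin r → Fin 3) ℂ),
    0 ≤ (ω r (Aᴴ * A)).re ∧ (ω r (Aᴴ * A)).im = 0
  window : ∀ (q r : ℕ) (x : Fin (q + 1)) (A : Matrix (Fin r → Fin 3) (Fin r → Fin 3) ℂ),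
    (x : ℕ) + r ≤ q + 1 → ω (q + 1) (localOp (q + 1) r x A) = ω r A
  rotation : ∀ (r : ℕ) (a : Fin 3) (A : Matrix (Fin r → Fin 3) (Fin r → Fin 3) ℂ),
    ω r (totalSpin r a * A - A * totalSpin r a) = 0

end

end Vale.Agent.P348
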