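import Vale.Agent.P348.H997.G7
import Vale.Agent.P348.H997.Local

/-! Local observables: expansion and intertwining. -/

namespace Vale.Agent.P348

open Matrix Finset Filter Topology

noncomputable section

abbrev C3 : Type := Matrix (Fin 3) (Fin 3) ℂ

/-- site matrices of a local product observable -/
def pad {n r : ℕ} (x : Fin (n + 1)) (U : Fin r → C3) : Fin (n + 1) → C3 :=
  fun i => if h : ((i - x : Fin (n + 1)) : ℕ) < r then U ⟨_, h⟩ else 1

section
variable {n r : ℕ} (x : Fin (n + 1))

lemma add_ofNat_sub {k : ℕ} (hk : k < n + 1) :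
    ((x + Fin.ofNat (n + 1) k - x : Fin (n + 1)) : ℕ) = k := by
  rw [add_sub_cancel_left]
  simp [Fin.ofNat, Nat.mod_eq_of_lt hk]

lemma add_ofNat_of_sub (i : Fin (n + 1)) :
    x + Fin.ofNat (n + 1) ((i - x : Fin (n + 1)) : ℕ) = i := by
  have : Fin.ofNat (n + 1) ((i - x : Fin (n + 1)) : ℕ) = i - x := by
    apply Fin.ext
    simp [Fin.ofNat, Nat.mod_eq_of_lt (i - x).isLt]
  rw [this, add_sub_cancel]

theorem localOp_tensC (hr : r ≤ n + 1) (U : Fin r → C3) :
    localOp (n + 1) r x (tensC U) = tensC (pad x U) := by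
  ext s t
  have h1 : tensC (pad x U) s t = (∏ i ∈ univ.filter (fun i : Fin (n + 1) =>
      ((i - x : Fin (n + 1)) : ℕ) < r), pad x U i (s i) (t i)) *
      ∏ i ∈ univ.filter (fun i : Fin (n + 1) => ¬ ((i - x : Fin (n + 1)) : ℕ) < r),
        pad x U i (s i) (t i) := by
    rw [Finset.prod_filter_mul_prod_filter_not]
    rfl
  have h2 : ∏ i ∈ univ.filter (fun i : Fin (n + 1) => ((i - x : Fin (n + 1)) : ℕ) < r),
      pad x U i (s i) (t i) =
      ∏ k : Fin r, U k (s (x + Fin.ofNat (n + 1) k)) (t (x + Fin.ofNat (n + 1) k)) := by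
    symm
    refine Finset.prod_nbij (fun k : Fin r => x + Fin.ofNat (n + 1) (k : ℕ)) ?_ ?_ ?_ ?_
    · intro k _
      rw [Finset.mem_filter]
      refine ⟨Finset.mem_univ _, ?_⟩
      rw [add_ofNat_sub x (by have := k.isLt; omega)]
      exact k.isLt
    · intro k _ l _ hkl
      have h3 := congrArg (fun i : Fin (n + 1) => ((i - x : Fin (n + 1)) : ℕ)) hkl
      simp only at h3
      rw [add_ofNat_sub x (by have := k.isLt; omega),
        add_ofNat_sub x (by have := l.isLt; omega)] at h3
      exact Fin.ext h3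
    · intro i hi
      have hi' : ((i - x : Fin (n + 1)) : ℕ) < r := by simpa using hi
      exact ⟨⟨_, hi'⟩, Finset.mem_coe.2 (Finset.mem_univ _), add_ofNat_of_sub x i⟩
    · intro k _
      have hk := add_ofNat_sub x (k := k) (by have := k.isLt; omega)
      unfold pad
      rw [dif_pos (by rw [hk]; exact k.isLt)]
      congr 3
      · apply Fin.ext
        exact hk.symm
  have h3 : ∏ i ∈ univ.filter (fun i : Fin (n + 1) => ¬ ((i - x : Fin (n + 1)) : ℕ) < r),
        pad x U i (s i) (t i) =
      if ∀ i : Fin (n + 1), r ≤ ((i - x : Fin (n + 1)) : ℕ) → s i = t i then 1 else 0 := by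
    have h4 : ∀ i ∈ univ.filter (fun i : Fin (n + 1) => ¬ ((i - x : Fin (n + 1)) : ℕ) < r),
        pad x U i (s i) (t i) = if s i = t i then 1 else 0 := by
      intro i hi
      rw [Finset.mem_filter] at hi
      unfold pad
      rw [dif_neg hi.2, Matrix.one_apply]
    rw [Finset.prod_congr rfl h4, Finset.prod_ite_zero]
    simp only [Finset.mem_filter, Finset.mem_univ, true_and, not_lt, Finset.prod_const_one]
  rw [h1, h2, h3]
  unfold localOp
  split_ifs
  · rw [mul_one]; rfl
  · rw [mul_zero]

lemma localOp_add (A B : Matrix (Fin r → Fin 3) (Fin r → Fin 3) ℂ) :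
    localOp (n + 1) r x (A + B) = localOp (n + 1) r x A + localOp (n + 1) r x B := by
  ext s t
  simp only [localOp, Matrix.add_apply]
  split_ifs <;> simp

lemma localOp_zero : localOp (n + 1) r x 0 = 0 := by
  ext s t
  simp [localOp]

lemma localOp_smul (c : ℂ) (A : Matrix (Fin r → Fin 3) (Fin r → Fin 3) ℂ) :
    localOp (n + 1) r x (c • A) = c • localOp (n + 1) r x A := by
  ext s t
  simp only [localOp, Matrix.smul_apply]
  split_ifs <;> simp

lemma localOp_sum {ι : Type} (σ : Finset ι)
    (F : ι → Matrix (Fin r → Fin 3) (Fin r → Fin 3) ℂ) :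
    localOp (n + 1) r x (∑ i ∈ σ, F i) = ∑ i ∈ σ, localOp (n + 1) r x (F i) := by
  classical
  induction σ using Finset.induction_on with
  | empty => simp [localOp_zero]
  | insert a σ ha ih => rw [Finset.sum_insert ha, Finset.sum_insert ha, localOp_add, ih]

lemma single_eq_tensC (s t : Fin r → Fin 3) :
    Matrix.single s t (1 : ℂ) = tensC (fun k => Matrix.single (s k) (t k) (1 : ℂ)) := by
  ext p q
  simp only [tensC, Matrix.single_apply]
  rw [Finset.prod_ite_zero]
  simp only [Finset.mem_univ, true_implies, Finset.prod_const_one]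
  congr 1
  simp only [funext_iff, eq_iff_iff]
  exact ⟨fun h k => ⟨h.1 k, h.2 k⟩, fun h => ⟨fun k => (h k).1, fun k => (h k).2⟩⟩

lemma single_smul_one (s t : Fin r → Fin 3) (c : ℂ) :
    Matrix.single s t c = c • Matrix.single s t (1 : ℂ) := by
  rw [Matrix.smul_single, smul_eq_mul, mul_one]

/-- the observable in the Cartesian basis -/
def cart (A : Matrix (Fin r → Fin 3) (Fin r → Fin 3) ℂ) :
    Matrix (Fin r → Fin 3) (Fin r → Fin 3) ℂ :=
  tensC (fun _ : Fin r => W) * A * tensC (fun _ : Fin r => W')

theorem localOp_intertwine (hr : r ≤ n + 1) (A : Matrix (Fin r → Fin 3) (Fin r → Fin 3) ℂ) :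
    tensC (fun _ : Fin (n + 1) => W) * localOp (n + 1) r x A =
      localOp (n + 1) r x (cart A) * tensC (fun _ : Fin (n + 1) => W) := by
  induction A using Matrix.induction_on' with
  | h_zero => simp [cart, localOp_zero]
  | h_add A B hA hB =>
    have h : cart (A + B) = cart A + cart B := by
      unfold cart; rw [Matrix.mul_add, Matrix.add_mul]
    rw [h, localOp_add, localOp_add, Matrix.mul_add, Matrix.add_mul, hA, hB]
  | h_std_basis s t c =>
    have h : cart (Matrix.single s t c) =
        c • tensC (fun k => W * Matrix.single (s k) (t k) (1 : ℂ) * W') := by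
      unfold cart
      rw [single_smul_one, Matrix.mul_smul, Matrix.smul_mul, single_eq_tensC, tensC_mul,
        tensC_mul]
    rw [h, single_smul_one, localOp_smul, localOp_smul, Matrix.mul_smul, Matrix.smul_mul,
      single_eq_tensC, localOp_tensC x hr, localOp_tensC x hr, tensC_mul, tensC_mul]
    congr 2
    funext i
    unfold pad
    split_ifs with hi
    · rw [Matrix.mul_assoc, W'_mul_W, Matrix.mul_one]
    · rw [Matrix.mul_one, Matrix.one_mul]

end

/-! ### the real units -/

/-- real matrix units of `r` sites as a list -/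
def units {r : ℕ} (p : (Fin r → Fin 3) × (Fin r → Fin 3)) : List M3 :=
  List.ofFn (fun k => Matrix.single (p.1 k) (p.2 k) (1 : ℝ))

lemma nice_single (b c : Fin 3) : Nice (Matrix.single b c (1 : ℝ)) := by
  have habs : ∀ P : Prop, [Decidable P] → |(if P then (1 : ℝ) else 0)| = if P then 1 else 0 := by
    intro P _
    split_ifs <;> simp
  constructor
  · intro b'
    simp only [Matrix.single_apply, habs]
    by_cases h : b = b'
    · subst h
      simp
    · simp [h]
  · intro c'
    simp only [Matrix.single_apply, habs]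
    by_cases h : c = c'
    · subst h
      simp
    · simp [h]

lemma units_nice {r : ℕ} (p : (Fin r → Fin 3) × (Fin r → Fin 3)) : ∀ X ∈ units p, Nice X := by
  intro X hX
  unfold units at hX
  rw [List.mem_ofFn'] at hX
  obtain ⟨k, rfl⟩ := hX
  exact nice_single _ _

lemma units_length {r : ℕ} (p : (Fin r → Fin 3) × (Fin r → Fin 3)) :
    (units p).length = r := by simp [units]

lemma pad_units {n r : ℕ} (x : Fin (n + 1)) (p : (Fin r → Fin 3) × (Fin r → Fin 3)) :
    pad x (fun k => Matrix.single (p.1 k) (p.2 k) (1 : ℂ)) =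
      fun i => (SF x (units p) i).map (fun a : ℝ => (a : ℂ)) := by
  funext i
  unfold pad SF
  split_ifs with h
  · rw [List.getD_eq_getElem _ _ (by rw [units_length]; exact h)]
    unfold units
    rw [List.getElem_ofFn]
    ext a b
    simp only [Matrix.single_apply, Matrix.map_apply]
    split_ifs <;> simp
  · rw [List.getD_eq_default _ _ (by rw [units_length]; omega)]
    ext a b
    simp only [Matrix.one_apply, Matrix.map_apply]
    split_ifs <;> simp

lemma tensC_map {ι : Type} [Fintype ι] (U : ι → M3) :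
    tensC (fun i => (U i).map (fun a : ℝ => (a : ℂ))) =
      (tens U).map (fun a : ℝ => (a : ℂ)) := by
  ext s t
  simp [tensC, tens]

theorem localOp_expand {n r : ℕ} (x : Fin (n + 1)) (hr : r ≤ n + 1)
    (A : Matrix (Fin r → Fin 3) (Fin r → Fin 3) ℂ) :
    localOp (n + 1) r x A = ∑ p : (Fin r → Fin 3) × (Fin r → Fin 3),
      A p.1 p.2 • (tens (SF x (units p))).map (fun a : ℝ => (a : ℂ)) := by
  conv_lhs => rw [Matrix.matrix_eq_sum_single A]
  rw [Fintype.sum_prod_type, localOp_sum]
  refine Finset.sum_congr rfl fun s _ => ?_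
  rw [localOp_sum]
  refine Finset.sum_congr rfl fun t _ => ?_
  rw [single_smul_one, localOp_smul, single_eq_tensC, localOp_tensC x hr,
    pad_units x (s, t), tensC_map]

end

end Vale.Agent.P348
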