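import Vale.Agent.P348.H997.G8

/-! Exponential clustering for all local observables. -/

namespace Vale.Agent.P348

open Matrix Finset Filter Topology

noncomputable section

section
variable {n : ℕ} (i₀ : Fin (n + 1) → Fin 3)

/-- complex expectation in the real ground vector -/
def cex (Y : Matrix (Fin (n + 1) → Fin 3) (Fin (n + 1) → Fin 3) ℂ) : ℂ :=
  wcol (n + 1) i₀ ⬝ᵥ Y.mulVec (wcol (n + 1) i₀)

lemma cex_smul (c : ℂ) (Y : Matrix (Fin (n + 1) → Fin 3) (Fin (n + 1) → Fin 3) ℂ) :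
    cex i₀ (c • Y) = c * cex i₀ Y := by
  unfold cex
  rw [Matrix.smul_mulVec, dotProduct_smul, smul_eq_mul]

lemma cex_sum {ι : Type} (σ : Finset ι)
    (F : ι → Matrix (Fin (n + 1) → Fin 3) (Fin (n + 1) → Fin 3) ℂ) :
    cex i₀ (∑ i ∈ σ, F i) = ∑ i ∈ σ, cex i₀ (F i) := by
  classical
  induction σ using Finset.induction_on with
  | empty => simp [cex]
  | insert a σ ha ih =>
    rw [Finset.sum_insert ha, Finset.sum_insert ha, ← ih]
    unfold cex
    rw [Matrix.add_mulVec, dotProduct_add]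

lemma cex_map (U : Fin (n + 1) → M3) :
    cex i₀ ((tens U).map (fun a : ℝ => (a : ℂ))) = ((gex i₀ U : ℝ) : ℂ) := by
  unfold cex gex wcol
  rw [map_mulVec, map_dot]

lemma tens_mul' (U V : Fin (n + 1) → M3) :
    (tens U).map (fun a : ℝ => (a : ℂ)) * (tens V).map (fun a : ℝ => (a : ℂ)) =
      (tens (fun i => U i * V i)).map (fun a : ℝ => (a : ℂ)) := by
  rw [← tensC_map, ← tensC_map, ← tensC_map, tensC_mul]
  congr 1
  funext i
  exact (Matrix.map_mul (f := Complex.ofRealHom)).symm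

lemma cex_local {r : ℕ} (x : Fin (n + 1)) (hr : r ≤ n + 1)
    (A : Matrix (Fin r → Fin 3) (Fin r → Fin 3) ℂ) :
    cex i₀ (localOp (n + 1) r x A) = ∑ p : (Fin r → Fin 3) × (Fin r → Fin 3),
      A p.1 p.2 * ((gex i₀ (SF x (units p)) : ℝ) : ℂ) := by
  rw [localOp_expand x hr, cex_sum]
  refine Finset.sum_congr rfl fun p _ => ?_
  rw [cex_smul, cex_map]

lemma cex_local2 {r s : ℕ} (x y : Fin (n + 1)) (hr : r ≤ n + 1) (hs : s ≤ n + 1)
    (A : Matrix (Fin r → Fin 3) (Fin r → Fin 3) ℂ)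
    (B : Matrix (Fin s → Fin 3) (Fin s → Fin 3) ℂ) :
    cex i₀ (localOp (n + 1) r x A * localOp (n + 1) s y B) =
      ∑ p : (Fin r → Fin 3) × (Fin r → Fin 3), ∑ q : (Fin s → Fin 3) × (Fin s → Fin 3),
        A p.1 p.2 * B q.1 q.2 *
          ((gex i₀ (fun i => SF x (units p) i * SF y (units q) i) : ℝ) : ℂ) := by
  rw [localOp_expand x hr, localOp_expand y hs, Finset.sum_mul, cex_sum]
  refine Finset.sum_congr rfl fun p _ => ?_
  rw [Finset.mul_sum, cex_sum]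
  refine Finset.sum_congr rfl fun q _ => ?_
  rw [Matrix.smul_mul, Matrix.mul_smul, smul_smul, cex_smul, tens_mul', cex_map]

end

/-! ### the Cartesian coefficients -/

lemma norm_W (i j : Fin 3) : ‖W i j‖ ≤ 1 := by
  have h : ‖(((Real.sqrt 2 : ℝ) : ℂ))⁻¹‖ ≤ 1 := by
    rw [norm_inv, Complex.norm_real, Real.norm_of_nonneg (Real.sqrt_nonneg _)]
    refine inv_le_one_of_one_le₀ ?_
    rw [Real.one_le_sqrt]; norm_num
  fin_cases i <;> fin_cases j <;>
    simp only [W, Matrix.of_apply, Matrix.cons_val', Matrix.cons_val, Matrix.cons_val_zero,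
      Matrix.cons_val_one, Fin.zero_eta, Fin.mk_one, Fin.reduceFinMk, Matrix.cons_val_fin_one,
      norm_neg, norm_mul, norm_zero, norm_one, Complex.norm_I, one_mul] <;>
    first | exact h | norm_num

lemma norm_W' (i j : Fin 3) : ‖W' i j‖ ≤ 1 := by
  have h : W' i j = star (W j i) := by
    rw [← W'_conj, Matrix.conjTranspose_apply, star_star]
  rw [h, norm_star]
  exact norm_W j i

lemma norm_tensC_le {r : ℕ} {M : C3} (hM : ∀ i j, ‖M i j‖ ≤ 1) (s t : Fin r → Fin 3) :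
    ‖tensC (fun _ : Fin r => M) s t‖ ≤ 1 := by
  unfold tensC
  rw [norm_prod]
  exact Finset.prod_le_one (fun _ _ => norm_nonneg _) fun k _ => hM _ _

lemma norm_cart {r : ℕ} {A : Matrix (Fin r → Fin 3) (Fin r → Fin 3) ℂ}
    (hA : ∀ u v, ‖A u v‖ ≤ 1) (s t : Fin r → Fin 3) : ‖cart A s t‖ ≤ 9 ^ r := by
  have hcard : ((Finset.univ : Finset (Fin r → Fin 3)).card : ℝ) = 3 ^ r := by
    rw [Finset.card_univ, Fintype.card_fun, Fintype.card_fin, Fintype.card_fin]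
    push_cast; rfl
  unfold cart
  rw [Matrix.mul_apply]
  refine (norm_sum_le _ _).trans ?_
  have h1 : ∀ v ∈ (Finset.univ : Finset (Fin r → Fin 3)),
      ‖(tensC (fun _ : Fin r => W) * A) s v * tensC (fun _ : Fin r => W') v t‖ ≤ 3 ^ r := by
    intro v _
    rw [norm_mul]
    have h2 : ‖(tensC (fun _ : Fin r => W) * A) s v‖ ≤ 3 ^ r := by
      rw [Matrix.mul_apply]
      refine (norm_sum_le _ _).trans ?_
      have h3 : ∀ u ∈ (Finset.univ : Finset (Fin r → Fin 3)),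
          ‖tensC (fun _ : Fin r => W) s u * A u v‖ ≤ 1 := by
        intro u _
        rw [norm_mul]
        exact mul_le_one₀ (norm_tensC_le norm_W s u) (norm_nonneg _) (hA u v)
      refine (Finset.sum_le_sum h3).trans ?_
      rw [Finset.sum_const, nsmul_eq_mul, mul_one, hcard]
    calc _ ≤ 3 ^ r * (1 : ℝ) := mul_le_mul h2 (norm_tensC_le norm_W' v t) (norm_nonneg _)
          (by positivity)
      _ = _ := mul_one _
  refine (Finset.sum_le_sum h1).trans ?_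
  rw [Finset.sum_const, nsmul_eq_mul, hcard, ← mul_pow]
  norm_num

lemma sum_cart {r : ℕ} {A : Matrix (Fin r → Fin 3) (Fin r → Fin 3) ℂ}
    (hA : ∀ u v, ‖A u v‖ ≤ 1) :
    ∑ p : (Fin r → Fin 3) × (Fin r → Fin 3), ‖cart A p.1 p.2‖ ≤ 81 ^ r := by
  refine (Finset.sum_le_sum fun p _ => norm_cart hA p.1 p.2).trans ?_
  rw [Finset.sum_const, nsmul_eq_mul, Finset.card_univ, Fintype.card_prod, Fintype.card_fun,
    Fintype.card_fin, Fintype.card_fin]
  push_cast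
  rw [← mul_pow, ← mul_pow]
  norm_num

/-- clustering in Cartesian form -/
theorem cex_cluster {n m : ℕ} (hL : n + 1 = Lk (m + 1)) {i₀ : Fin (n + 1) → Fin 3}
    (h0 : (ringH_isHermitian (n + 1) u1).eigenvalues i₀ = E0 (n + 1)) {r s : ℕ}
    (x y : Fin (n + 1)) (h1 : r ≤ ((y - x : Fin (n + 1)) : ℕ))
    (h2 : ((y - x : Fin (n + 1)) : ℕ) + s ≤ n + 1)
    (A : Matrix (Fin r → Fin 3) (Fin r → Fin 3) ℂ)
    (B : Matrix (Fin s → Fin 3) (Fin s → Fin 3) ℂ) :
    ‖cex i₀ (localOp (n + 1) r x A * localOp (n + 1) s y B) -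
      cex i₀ (localOp (n + 1) r x A) * cex i₀ (localOp (n + 1) s y B)‖ ≤
      (∑ p : (Fin r → Fin 3) × (Fin r → Fin 3), ‖A p.1 p.2‖) *
        (∑ q : (Fin s → Fin 3) × (Fin s → Fin 3), ‖B q.1 q.2‖) *
        (Cn r s * Real.exp (-((min (((y - x : Fin (n + 1)) : ℕ) - r)
          (n + 1 - (((y - x : Fin (n + 1)) : ℕ) + s)) : ℕ) : ℝ) / 54)) := by
  have hrn : r ≤ n + 1 := by omega
  have hsn : s ≤ n + 1 := by omega
  rw [cex_local2 i₀ x y hrn hsn, cex_local i₀ x hrn, cex_local i₀ y hsn, Finset.sum_mul,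
    ← Finset.sum_sub_distrib, Finset.sum_mul, Finset.sum_mul]
  refine (norm_sum_le _ _).trans (Finset.sum_le_sum fun p _ => ?_)
  rw [Finset.mul_sum, ← Finset.sum_sub_distrib, mul_comm ‖A p.1 p.2‖, Finset.sum_mul,
    Finset.sum_mul]
  refine (norm_sum_le _ _).trans (Finset.sum_le_sum fun q _ => ?_)
  have e : A p.1 p.2 * B q.1 q.2 *
        ((gex i₀ (fun i => SF x (units p) i * SF y (units q) i) : ℝ) : ℂ) -
      A p.1 p.2 * ((gex i₀ (SF x (units p)) : ℝ) : ℂ) *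
        (B q.1 q.2 * ((gex i₀ (SF y (units q)) : ℝ) : ℂ)) =
      A p.1 p.2 * B q.1 q.2 *
        ((gex i₀ (fun i => SF x (units p) i * SF y (units q) i) -
          gex i₀ (SF x (units p)) * gex i₀ (SF y (units q)) : ℝ) : ℂ) := by
    push_cast; ring
  rw [e, norm_mul, norm_mul, Complex.norm_real, Real.norm_eq_abs, mul_comm ‖A p.1 p.2‖]
  refine mul_le_mul_of_nonneg_left ?_ (by positivity)
  have h3 := prod_cluster hL (A := units p) (B := units q) h0 (units_nice p) (units_nice q) x y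
    (by rw [units_length]; exact h1) (by rw [units_length]; exact h2)
  rw [units_length, units_length] at h3
  exact h3

/-- expectations of a ground state -/
lemma ground_expect {n m : ℕ} (hL : n + 1 = Lk (m + 1)) (hm : 6 ≤ m + 1)
    {ψ : (Fin (n + 1) → Fin 3) → ℂ}
    (hψ : (haldaneH (n + 1)).mulVec ψ = (E0 (n + 1) : ℂ) • ψ) :
    ∃ i₀, (ringH_isHermitian (n + 1) u1).eigenvalues i₀ = E0 (n + 1) ∧ ∃ c : ℂ,
      ∀ X Y : Matrix (Fin (n + 1) → Fin 3) (Fin (n + 1) → Fin 3) ℂ,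
        tensC (fun _ : Fin (n + 1) => W) * X = Y * tensC (fun _ : Fin (n + 1) => W) →
        star ψ ⬝ᵥ X.mulVec ψ = (‖c‖ ^ 2 : ℝ) * cex i₀ Y := by
  obtain ⟨i₀, h0, c, hc⟩ := ground_form hL hm hψ
  refine ⟨i₀, h0, c, fun X Y hXY => ?_⟩
  have h1 := expect_form (wcol (n + 1) i₀) c hXY
  rw [← hc, wcol_star] at h1
  exact h1

lemma ground_norm {n : ℕ} {ψ : (Fin (n + 1) → Fin 3) → ℂ} {i₀ : Fin (n + 1) → Fin 3} {c : ℂ}
    (h : ∀ X Y : Matrix (Fin (n + 1) → Fin 3) (Fin (n + 1) → Fin 3) ℂ,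
        tensC (fun _ : Fin (n + 1) => W) * X = Y * tensC (fun _ : Fin (n + 1) => W) →
        star ψ ⬝ᵥ X.mulVec ψ = (‖c‖ ^ 2 : ℝ) * cex i₀ Y) :
    star ψ ⬝ᵥ ψ = ((‖c‖ ^ 2 : ℝ) : ℂ) := by
  have h1 := h 1 1 (by rw [Matrix.mul_one, Matrix.one_mul])
  rw [Matrix.one_mulVec] at h1
  rw [h1]
  unfold cex
  rw [Matrix.one_mulVec, wcol_norm, mul_one]

/-- exponential clustering of all local observables, uniformly in the length -/
theorem cluster_state (r s : ℕ) : ∃ C : ℝ, ∀ (L : ℕ) [NeZero L], Even L → 12 ≤ L →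
    ∀ ψ : (Fin L → Fin 3) → ℂ, (haldaneH L).mulVec ψ = (E0 L : ℂ) • ψ →
      ∀ (A : Matrix (Fin r → Fin 3) (Fin r → Fin 3) ℂ)
        (B : Matrix (Fin s → Fin 3) (Fin s → Fin 3) ℂ),
        (∀ u v, ‖A u v‖ ≤ 1) → (∀ u v, ‖B u v‖ ≤ 1) →
        ∀ x y : Fin L, r ≤ ((y - x : Fin L) : ℕ) → ((y - x : Fin L) : ℕ) + s ≤ L →
          ‖(star ψ ⬝ᵥ (localOp L r x A * localOp L s y B).mulVec ψ) * (star ψ ⬝ᵥ ψ) -
            (star ψ ⬝ᵥ (localOp L r x A).mulVec ψ) * (star ψ ⬝ᵥ (localOp L s y B).mulVec ψ)‖ ≤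
            C * Real.exp (-((min (((y - x : Fin L) : ℕ) - r)
              (L - (((y - x : Fin L) : ℕ) + s)) : ℕ) : ℝ) / 54) * (star ψ ⬝ᵥ ψ).re ^ 2 := by
  refine ⟨81 ^ r * 81 ^ s * Cn r s, fun L _ hev hL ψ hψ A B hA hB x y h1 h2 => ?_⟩
  obtain ⟨n, rfl⟩ : ∃ n, L = n + 1 := ⟨L - 1, by omega⟩
  obtain ⟨m, hLk, hm⟩ := even_Lk hev (by omega)
  obtain ⟨i₀, h0, c, hc⟩ := ground_expect hLk (by omega) hψ
  have hrn : r ≤ n + 1 := by omega
  have hsn : s ≤ n + 1 := by omega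
  have tA := localOp_intertwine x hrn A
  have tB := localOp_intertwine y hsn B
  have tAB : tensC (fun _ : Fin (n + 1) => W) * (localOp (n + 1) r x A * localOp (n + 1) s y B) =
      (localOp (n + 1) r x (cart A) * localOp (n + 1) s y (cart B)) *
        tensC (fun _ : Fin (n + 1) => W) := by
    rw [← Matrix.mul_assoc, tA, Matrix.mul_assoc, tB, ← Matrix.mul_assoc]
  rw [hc _ _ tA, hc _ _ tB, hc _ _ tAB, ground_norm hc, Complex.ofReal_re]
  have h3 := cex_cluster hLk h0 x y h1 h2 (cart A) (cart B)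
  set d := min (((y - x : Fin (n + 1)) : ℕ) - r) (n + 1 - (((y - x : Fin (n + 1)) : ℕ) + s))
  set X := cex i₀ (localOp (n + 1) r x (cart A) * localOp (n + 1) s y (cart B))
  set Y := cex i₀ (localOp (n + 1) r x (cart A))
  set Z := cex i₀ (localOp (n + 1) s y (cart B))
  have e : ((‖c‖ ^ 2 : ℝ) : ℂ) * X * ((‖c‖ ^ 2 : ℝ) : ℂ) -
      ((‖c‖ ^ 2 : ℝ) : ℂ) * Y * (((‖c‖ ^ 2 : ℝ) : ℂ) * Z) =
      (((‖c‖ ^ 2) ^ 2 : ℝ) : ℂ) * (X - Y * Z) := by push_cast; ring
  rw [e, norm_mul, Complex.norm_real, Real.norm_of_nonneg (by positivity), mul_comm]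
  refine mul_le_mul_of_nonneg_right ?_ (by positivity)
  refine h3.trans ?_
  have hcn : 0 ≤ Cn r s := by
    unfold Cn
    have := Cg_nonneg r s
    positivity
  have s1 := sum_cart hA
  have s2 := sum_cart hB
  calc _ ≤ 81 ^ r * 81 ^ s * (Cn r s * Real.exp (-(d : ℝ) / 54)) := by
        refine mul_le_mul_of_nonneg_right ?_ (by positivity)
        exact mul_le_mul s1 s2 (Finset.sum_nonneg fun _ _ => norm_nonneg _) (by positivity)
    _ = _ := by ring

end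

end Vale.Agent.P348
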