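import Vale.Agent.P348.H997.Chan

/-! The doubling recursion in the regime where the time channel dominates. -/

namespace Vale.Agent.P348

open Filter Finset

namespace TwoChannel

variable (D : TwoChannel)

/-- a good node: all four scalar quantities are small, those of the other channel much smaller -/
structure St (T : ℝ) (k : ℕ) (P : ℝ) : Prop where
  hT : 0 < T
  hk : 1 ≤ k
  hP : P ≤ 1 / 10000
  hp : k * D.ph T ≤ P
  hb : D.b T k ≤ P
  hf : 20 * (T * D.f k) ≤ P
  hc : 20 * D.c T k ≤ P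

variable {D}

lemma log_one_add_le {x : ℝ} (hx : 0 ≤ x) : Real.log (1 + x) ≤ x := by
  have := Real.log_le_sub_one_of_pos (show 0 < 1 + x by linarith)
  linarith

namespace St

variable {T P : ℝ} {k : ℕ}

lemma P_nonneg (h : D.St T k P) : 0 ≤ P := (D.b_nonneg T k).trans h.hb

/-- bounds up to twice the length -/
lemma b_le_of {l : ℕ} (h : D.St T k P) (hl : k ≤ l) (hl2 : l ≤ 2 * k) :
    D.b T l ≤ 206 / 100 * P := by
  have hP0 := h.P_nonneg
  have hP := h.hP
  have hT := h.hT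
  have hk := h.hk
  have h1 : (l : ℝ) * D.ph T ≤ 2 * P := by
    have h2 := D.ph_nonneg hT
    have h3 : (l : ℝ) ≤ 2 * k := by exact_mod_cast hl2
    have := mul_le_mul_of_nonneg_right h3 h2
    linarith [h.hp]
  have h4 : D.c T l ≤ P / 20 := (D.c_anti hT hk hl).trans (by linarith [h.hc])
  have hkl : 1 ≤ l := hk.trans hl
  have h5 : D.z T l ≤ 1 + 206 / 100 * P := by
    rw [z_eq_c]
    have h6 : Real.exp (l * D.ph T) ≤ ex (2 * P) :=
      (Real.exp_le_exp.2 h1).trans (exp_le_ex (by linarith) (by linarith))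
    have h7 := D.c_nonneg hT hkl
    refine (mul_le_mul h6 (show 1 + D.c T l ≤ 1 + P / 20 by linarith) (by linarith)
      ((Real.exp_pos _).le.trans h6)).trans ?_
    have e2 : P ^ 2 ≤ P / 10000 := by nlinarith
    have e3 : P ^ 3 ≤ P / 10000 := by nlinarith [mul_nonneg hP0 hP0]
    have e4 : P ^ 4 ≤ P / 10000 := by nlinarith [mul_nonneg hP0 hP0, mul_nonneg (mul_nonneg hP0 hP0) hP0]
    unfold ex
    nlinarith
  exact s_zb _ h5 hT hkl

/-- the value at twice the length -/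
lemma b_two (h : D.St T k P) : D.b T (2 * k) ≤ 2001 / 1000 * P := by
  have hP0 := h.P_nonneg
  have hP := h.hP
  have hT := h.hT
  have hk := h.hk
  have h4 : D.c T (2 * k) ≤ P / 10000 := by
    have h5 := D.c_mul_le hT hk (m := 2) (by norm_num)
    have h6 : D.c T k ≤ P / 20 := by linarith [h.hc]
    have h7 : D.c T k ^ 2 ≤ (P / 20) ^ 2 := pow_le_pow_left₀ (D.c_nonneg hT hk) h6 2
    nlinarith
  have h1 : ((2 * k : ℕ) : ℝ) * D.ph T ≤ 2 * P := by push_cast; linarith [h.hp]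
  have hkl : 1 ≤ 2 * k := by omega
  have h5 : D.z T (2 * k) ≤ 1 + 2001 / 1000 * P := by
    rw [z_eq_c]
    have h6 : Real.exp ((2 * k : ℕ) * D.ph T) ≤ ex (2 * P) :=
      (Real.exp_le_exp.2 h1).trans (exp_le_ex (by linarith) (by linarith))
    have h7 := D.c_nonneg hT hkl
    refine (mul_le_mul h6 (show 1 + D.c T (2 * k) ≤ 1 + P / 10000 by linarith) (by linarith)
      ((Real.exp_pos _).le.trans h6)).trans ?_
    have e2 : P ^ 2 ≤ P / 10000 := by nlinarith
    have e3 : P ^ 3 ≤ P / 10000 := by nlinarith [mul_nonneg hP0 hP0]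
    have e4 : P ^ 4 ≤ P / 10000 := by nlinarith [mul_nonneg hP0 hP0, mul_nonneg (mul_nonneg hP0 hP0) hP0]
    unfold ex
    nlinarith
  exact s_zb _ h5 hT hkl

/-- the other channel, up to six times the time -/
lemma c_le_of (h : D.St T k P) {m : ℝ} (hm2 : 2 ≤ m) (hm : m ≤ 6) :
    D.c (m * T) k ≤ 31 / 100 * P := by
  have hP0 := h.P_nonneg
  have hP := h.hP
  have hT := h.hT
  have hk := h.hk
  have hmT : 0 < m * T := by positivity
  have hb2 : D.b (m * T) k ≤ P / 10000 := by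
    have h1 : D.b (m * T) k ≤ D.b (2 * T) k :=
      D.b_anti (mul_le_mul_of_nonneg_right hm2 hT.le) k
    have h2 := D.b_two_mul_le T k
    have h3 : D.b T k ^ 2 ≤ P ^ 2 := pow_le_pow_left₀ (D.b_nonneg T k) h.hb 2
    nlinarith
  have h1 : m * T * D.f k ≤ 30 / 100 * P := by
    have h2 := D.f_nonneg hk
    have h3 : m * (T * D.f k) ≤ 6 * (T * D.f k) :=
      mul_le_mul_of_nonneg_right hm (mul_nonneg hT.le h2)
    have := h.hf
    nlinarith
  have h5 : D.z (m * T) k ≤ 1 + 31 / 100 * P := by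
    rw [z_eq]
    have h6 : Real.exp (m * T * D.f k) ≤ ex (30 / 100 * P) :=
      (Real.exp_le_exp.2 h1).trans (exp_le_ex (by linarith) (by linarith))
    have h7 := D.b_nonneg (m * T) k
    refine (mul_le_mul h6 (show 1 + D.b (m * T) k ≤ 1 + P / 10000 by linarith) (by linarith)
      ((Real.exp_pos _).le.trans h6)).trans ?_
    have e2 : P ^ 2 ≤ P / 10000 := by nlinarith
    have e3 : P ^ 3 ≤ P / 10000 := by nlinarith [mul_nonneg hP0 hP0]
    have e4 : P ^ 4 ≤ P / 10000 := by nlinarith [mul_nonneg hP0 hP0, mul_nonneg (mul_nonneg hP0 hP0) hP0]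
    unfold ex
    nlinarith
  exact s_zc _ h5 hmT hk

/-- finite-size energy at twice the length -/
lemma f_two (h : D.St T k P) : 2 * T * D.f (2 * k) ≤ 1 / 10 * P ^ 2 := by
  have hP0 := h.P_nonneg
  have hP := h.hP
  have hT := h.hT
  have hk := h.hk
  have hk2 : 1 ≤ 2 * k := by omega
  have h1 := D.f_le_I1 (T := 4 * T) (S := 6 * T) (by linarith) (by linarith) hk2
  have h2 : D.b (4 * T) (2 * k) ≤ (2001 / 1000 * P) ^ 4 := by
    have := D.b_mul_le T (2 * k) (m := 4) (by norm_num)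
    exact this.trans (pow_le_pow_left₀ (D.b_nonneg _ _) h.b_two 4)
  have h3 : D.c (6 * T) (2 * k) ≤ (31 / 100 * P) ^ 2 := by
    have := D.c_mul_le (T := 6 * T) (by linarith) hk (m := 2) (by norm_num)
    exact this.trans (pow_le_pow_left₀ (D.c_nonneg (by linarith) hk)
      (h.c_le_of (by norm_num) le_rfl) 2)
  have h4 := log_one_add_le (D.b_nonneg (4 * T) (2 * k))
  have h5 := log_one_add_le (D.c_nonneg (T := 6 * T) (by linarith) hk2)
  have e2 : P ^ 4 ≤ P ^ 2 / 10 ^ 8 := by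
    have : P ^ 2 ≤ 1 / 10 ^ 8 := by nlinarith
    nlinarith [sq_nonneg P]
  have e3 : 6 * T - 4 * T = 2 * T := by ring
  rw [e3] at h1
  nlinarith [sq_nonneg P]

/-- the doubling step -/
theorem step (h : D.St T k P) : D.St (2 * T) (2 * k) (9 / 2 * P ^ 2) := by
  have hP0 := h.P_nonneg
  have hP := h.hP
  have hT := h.hT
  have hk := h.hk
  have hk2 : 1 ≤ 2 * k := by omega
  have hT2 : 0 < 2 * T := by linarith
  have hf := h.f_two
  have hb : D.b (2 * T) (2 * k) ≤ 401 / 100 * P ^ 2 := by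
    have h1 := D.b_two_mul_le T (2 * k)
    have h2 := pow_le_pow_left₀ (D.b_nonneg T (2 * k)) h.b_two 2
    nlinarith [sq_nonneg P]
  refine ⟨hT2, hk2, by nlinarith, ?_, by nlinarith [sq_nonneg P], by nlinarith [sq_nonneg P], ?_⟩
  · have h1 := D.log_z_c hT2 hk2
    have h2 := D.log_z_b (T := 2 * T) (k := 2 * k)
    have h3 := log_one_add_le (D.b_nonneg (2 * T) (2 * k))
    have h4 : 0 ≤ Real.log (1 + D.c (2 * T) (2 * k)) :=
      Real.log_nonneg (by have := D.c_nonneg hT2 hk2; linarith)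
    nlinarith [sq_nonneg P]
  · have h1 := D.c_mul_le (T := 2 * T) hT2 hk (m := 2) (by norm_num)
    have h2 := pow_le_pow_left₀ (D.c_nonneg hT2 hk) (h.c_le_of (m := 2) le_rfl (by norm_num)) 2
    nlinarith [sq_nonneg P]

/-- iteration -/
theorem iter (h : D.St T k P) (n : ℕ) :
    D.St (2 ^ n * T) (2 ^ n * k) ((9 / 2 * P) ^ (2 ^ n) * (2 / 9)) := by
  induction n with
  | zero =>
    have : (9 / 2 * P) ^ (2 ^ 0) * (2 / 9) = P := by ring
    rw [this]
    simpa using h
  | succ n ih =>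
    have h1 := ih.step
    have e1 : 2 * (2 ^ n * T) = 2 ^ (n + 1) * T := by ring
    have e2 : 2 * (2 ^ n * k) = 2 ^ (n + 1) * k := by ring
    have e3 : 9 / 2 * ((9 / 2 * P) ^ (2 ^ n) * (2 / 9)) ^ 2 =
        (9 / 2 * P) ^ (2 ^ (n + 1)) * (2 / 9) := by
      rw [pow_succ 2 n, pow_mul]
      ring
    rw [e1, e2, e3] at h1
    exact h1

/-- dyadic decomposition of a length -/
lemma exists_dyadic {k₀ k : ℕ} (hk : 1 ≤ k₀) (hkk : k₀ ≤ k) :
    ∃ n : ℕ, 2 ^ n * k₀ ≤ k ∧ k ≤ 2 * (2 ^ n * k₀) := by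
  refine ⟨Nat.log 2 (k / k₀), ?_, ?_⟩
  · have h1 : k / k₀ ≠ 0 := (Nat.div_pos hkk hk).ne'
    have := Nat.pow_log_le_self 2 h1
    calc 2 ^ Nat.log 2 (k / k₀) * k₀ ≤ k / k₀ * k₀ := Nat.mul_le_mul_right _ this
      _ ≤ k := Nat.div_mul_le_self _ _
  · have h2 := Nat.lt_pow_succ_log_self (b := 2) (by norm_num) (k / k₀)
    have h3 : k < (k / k₀ + 1) * k₀ := by
      have := Nat.lt_div_mul_add (a := k) (b := k₀) hk
      rw [add_mul, one_mul]; exact this
    have h4 : (k / k₀ + 1) * k₀ ≤ 2 ^ (Nat.log 2 (k / k₀)).succ * k₀ :=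
      Nat.mul_le_mul_right _ h2
    have h5 : 2 ^ (Nat.log 2 (k / k₀)).succ * k₀ = 2 * (2 ^ Nat.log 2 (k / k₀) * k₀) := by
      rw [Nat.succ_eq_add_one, pow_succ]; ring
    omega

/-- at every length beyond `k` there is a time `2 ^ n T` at which the excited part is at most
`(9 P / 2) ^ (2 ^ n)` -/
theorem exists_b_le (h : D.St T k P) {l : ℕ} (hl : k ≤ l) :
    ∃ n : ℕ, 2 ^ n * k ≤ l ∧ l ≤ 2 * (2 ^ n * k) ∧
      D.b (2 ^ n * T) l ≤ 1 / 2 * (9 / 2 * P) ^ (2 ^ n) := by
  obtain ⟨n, hn1, hn2⟩ := exists_dyadic h.hk hl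
  refine ⟨n, hn1, hn2, ?_⟩
  have h1 := h.iter n
  have h2 := h1.b_le_of hn1 hn2
  have h3 := h1.P_nonneg
  linarith

end St

/-- from a bound of the excited part to the gap -/
lemma gap_of_b {T r : ℝ} (hT : 0 < T) {k : ℕ} (hb : D.b T k ≤ Real.exp (-(r * T))) (i : D.ι k)
    (hi : D.E k i ≠ D.E0 k) : D.E0 k + r ≤ D.E k i := by
  have h1 := (D.exp_le_b T i hi).trans hb
  rw [Real.exp_le_exp] at h1
  have h2 : T * r ≤ T * (D.E k i - D.E0 k) := by linarith
  have := le_of_mul_le_mul_left h2 hT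
  linarith

/-- the excited part is the sum over all other energies; if it is less than one, the ground state
is unique -/
lemma unique_of_b {T : ℝ} {k : ℕ} (hb : D.b T k < 1) {i j : D.ι k} (hi : D.E k i = D.E0 k)
    (hj : D.E k j = D.E0 k) : i = j := by
  classical
  by_contra hij
  have h1 : D.z T k * Real.exp (-(T * D.f k)) = ∑ l, Real.exp (-(T * (D.E k l - D.E0 k))) := by
    rw [z_eq_sum, Finset.sum_mul]
    refine Finset.sum_congr rfl fun l _ => ?_
    rw [← Real.exp_add]; congr 1; unfold f; ring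
  have h2 : ∑ l ∈ ({i, j} : Finset (D.ι k)), Real.exp (-(T * (D.E k l - D.E0 k))) ≤
      ∑ l, Real.exp (-(T * (D.E k l - D.E0 k))) :=
    Finset.sum_le_sum_of_subset_of_nonneg (Finset.subset_univ _)
      (fun _ _ _ => (Real.exp_pos _).le)
  rw [Finset.sum_pair hij, hi, hj] at h2
  unfold b at hb
  rw [h1] at hb
  simp only [sub_self, mul_zero, neg_zero, Real.exp_zero] at h2
  linarith

end TwoChannel

end Vale.Agent.P348
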