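import Vale.Agent.P348.H997.Cross

/-! Two-point functions in the crossed channel: spectral bounds at fixed discretisation. -/

namespace Vale.Agent.P348

open Matrix Finset Filter Topology

noncomputable section

/-- the matrix `A` at the sites `i` and `j` -/
def U2 {n : ℕ} (i j : Fin (n + 1)) (A : Matrix (Fin 3) (Fin 3) ℝ) :
    Fin (n + 1) → Matrix (Fin 3) (Fin 3) ℝ := fun x => if x = i ∨ x = j then A else 1

theorem trace_two (n N : ℕ) (t : ℝ) (A : Matrix (Fin 3) (Fin 3) ℝ) {i j : Fin (n + 1)}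
    (hij : i < j) :
    ((List.ofFn (fun l : Fin n => Kr N t (U2 i j A l.succ))).prod * Kr N t (U2 i j A 0)).trace =
      (Kr N t A * Kr N t 1 ^ ((j : ℕ) - i - 1) * Kr N t A * Kr N t 1 ^ (n + i - j)).trace := by
  set K := Kr N t 1 with hK
  set M := Kr N t A with hM
  have hij' : (i : ℕ) < j := hij
  have hj : (j : ℕ) < n + 1 := j.isLt
  rcases Nat.eq_zero_or_pos (i : ℕ) with h0 | h0
  · have hi : i = 0 := Fin.ext h0
    have e0 : U2 i j A 0 = A := by
      unfold U2; rw [if_pos (Or.inl hi.symm)]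
    have e1 : (fun l : Fin n => Kr N t (U2 i j A l.succ)) =
        fun l : Fin n => if (l : ℕ) = (j : ℕ) - 1 then M else K := by
      funext l
      unfold U2
      have h1 : (l.succ = i) ↔ False := by
        rw [hi]; simp [Fin.succ_ne_zero]
      have h2 : (l.succ = j) ↔ (l : ℕ) = (j : ℕ) - 1 := by
        rw [Fin.ext_iff, Fin.val_succ]; omega
      by_cases h3 : (l : ℕ) = (j : ℕ) - 1
      · rw [if_pos (Or.inr (h2.2 h3)), if_pos h3]
      · rw [if_neg (by rw [h1, h2]; tauto), if_neg h3]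
    rw [e0, e1, ofFn_one M K n _ (by omega), ← hM, Matrix.trace_mul_comm]
    have e2 : n - 1 - ((j : ℕ) - 1) = n + i - j := by omega
    have e3 : (j : ℕ) - i - 1 = j - 1 := by omega
    rw [e2, e3]
    simp only [Matrix.mul_assoc]
  · have e0 : U2 i j A 0 = 1 := by
      unfold U2; rw [if_neg]
      rintro (h | h)
      · rw [← h] at h0; simp at h0
      · have := congrArg Fin.val h; simp at this; omega
    have e1 : (fun l : Fin n => Kr N t (U2 i j A l.succ)) =
        fun l : Fin n => if (l : ℕ) = (i : ℕ) - 1 ∨ (l : ℕ) = (j : ℕ) - 1 then M else K := by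
      funext l
      unfold U2
      have h1 : (l.succ = i) ↔ (l : ℕ) = (i : ℕ) - 1 := by
        rw [Fin.ext_iff, Fin.val_succ]; omega
      have h2 : (l.succ = j) ↔ (l : ℕ) = (j : ℕ) - 1 := by
        rw [Fin.ext_iff, Fin.val_succ]; omega
      by_cases h3 : l.succ = i ∨ l.succ = j
      · rw [if_pos h3, if_pos (by rw [← h1, ← h2]; exact h3)]
      · rw [if_neg h3, if_neg (by rw [← h1, ← h2]; exact h3)]
    rw [e0, e1, ofFn_two M K n _ _ (by omega) (by omega), ← hK]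
    have e2 : (j : ℕ) - 1 - (i - 1) - 1 = j - i - 1 := by omega
    rw [e2]
    have e3 : n + (i : ℕ) - j = (n - 1 - ((j : ℕ) - 1)) + 1 + (i - 1) := by omega
    rw [e3, pow_add, pow_succ]
    rw [Matrix.mul_assoc (K ^ _), Matrix.trace_mul_comm (K ^ ((i : ℕ) - 1))]
    simp only [Matrix.mul_assoc]

section spectral
variable {m : Type} [Fintype m] [DecidableEq m]

/-- two-point sum formula in the eigenbases -/
theorem two_point_sum {M X Y : Matrix m m ℝ} (hM : Mᵀ = M) (hX : X.IsHermitian)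
    (hY : Y.IsHermitian) : ∃ C : m → m → ℝ, ∀ a b : ℕ,
      (M * X ^ a * M * Y ^ b).trace =
        ∑ j, ∑ i, C i j ^ 2 * hX.eigenvalues i ^ a * hY.eigenvalues j ^ b := by
  have key : ∀ {Z : Matrix m m ℝ} (hZ : Z.IsHermitian), ∃ U : Matrix m m ℝ,
      ∀ k : ℕ, Z ^ k = U * diagonal (fun i => hZ.eigenvalues i ^ k) * Uᵀ := by
    intro Z hZ
    refine ⟨(hZ.eigenvectorUnitary : Matrix m m ℝ), fun k => ?_⟩
    have h := hZ.spectral_theorem
    have h2 : Z ^ k = Unitary.conjStarAlgAut ℝ _ hZ.eigenvectorUnitary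
        (diagonal (fun i => hZ.eigenvalues i ^ k)) := by
      conv_lhs => rw [h]
      rw [← map_pow, Matrix.diagonal_pow]
      rfl
    rw [h2, Unitary.conjStarAlgAut_apply, Matrix.star_eq_conjTranspose,
      Matrix.conjTranspose_eq_transpose_of_trivial]
  obtain ⟨U, hU⟩ := key hX
  obtain ⟨V, hV⟩ := key hY
  refine ⟨fun i j => (Uᵀ * M * V) i j, fun a b => ?_⟩
  rw [hU a, hV b]
  have h1 : M * (U * diagonal (fun i => hX.eigenvalues i ^ a) * Uᵀ) * M *
      (V * diagonal (fun i => hY.eigenvalues i ^ b) * Vᵀ) =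
      (M * U * diagonal (fun i => hX.eigenvalues i ^ a) * (Uᵀ * M * V) *
        diagonal (fun i => hY.eigenvalues i ^ b)) * Vᵀ := by
    simp only [Matrix.mul_assoc]
  rw [h1, Matrix.trace_mul_comm]
  have h2 : Vᵀ * (M * U * diagonal (fun i => hX.eigenvalues i ^ a) * (Uᵀ * M * V) *
        diagonal (fun i => hY.eigenvalues i ^ b)) =
      ((Uᵀ * M * V)ᵀ * diagonal (fun i => hX.eigenvalues i ^ a)) * ((Uᵀ * M * V) *
        diagonal (fun i => hY.eigenvalues i ^ b)) := by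
    rw [Matrix.transpose_mul, Matrix.transpose_mul, Matrix.transpose_transpose, hM]
    simp only [Matrix.mul_assoc]
  rw [h2]
  simp only [Matrix.trace, Matrix.diag_apply]
  refine Finset.sum_congr rfl fun j _ => ?_
  rw [Matrix.mul_apply]
  refine Finset.sum_congr rfl fun i _ => ?_
  rw [Matrix.mul_diagonal, Matrix.mul_diagonal, Matrix.transpose_apply]
  ring

theorem two_point_bound {M X Y : Matrix m m ℝ} (hM : Mᵀ = M) (hX : X.IsHermitian)
    (hY : Y.IsHermitian) {μ l : ℝ} (hμ : ∀ i, |hX.eigenvalues i| ≤ μ)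
    (hl : ∀ i, |hY.eigenvalues i| ≤ l) (_hl0 : 0 ≤ l) (hμ0 : 0 ≤ μ) {a b b₁ : ℕ} (hb : b₁ ≤ b)
    (hev : Even b₁) :
    |(M * X ^ a * M * Y ^ b).trace| ≤ μ ^ a * l ^ (b - b₁) * (M * M * Y ^ b₁).trace := by
  obtain ⟨C, hC⟩ := two_point_sum hM hX hY
  have h0 : (M * M * Y ^ b₁).trace = ∑ j, ∑ i, C i j ^ 2 * hY.eigenvalues j ^ b₁ := by
    have := hC 0 b₁
    simp only [pow_zero, Matrix.mul_one, mul_one] at this
    exact this
  rw [hC a b, h0, Finset.mul_sum]
  refine (Finset.abs_sum_le_sum_abs _ _).trans (Finset.sum_le_sum fun j _ => ?_)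
  rw [Finset.mul_sum]
  refine (Finset.abs_sum_le_sum_abs _ _).trans (Finset.sum_le_sum fun i _ => ?_)
  rw [abs_mul, abs_mul, abs_of_nonneg (sq_nonneg (C i j)), abs_pow, abs_pow]
  have h1 : |hX.eigenvalues i| ^ a ≤ μ ^ a := pow_le_pow_left₀ (abs_nonneg _) (hμ i) a
  have h2 : |hY.eigenvalues j| ^ b ≤ l ^ (b - b₁) * hY.eigenvalues j ^ b₁ := by
    obtain ⟨d, rfl⟩ := Nat.exists_eq_add_of_le hb
    rw [Nat.add_sub_cancel_left, pow_add, mul_comm, ← hev.pow_abs (hY.eigenvalues j)]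
    exact mul_le_mul_of_nonneg_right (pow_le_pow_left₀ (abs_nonneg _) (hl j) d)
      (pow_nonneg (abs_nonneg _) _)
  have h3 : 0 ≤ hY.eigenvalues j ^ b₁ := hev.pow_nonneg _
  calc C i j ^ 2 * |hX.eigenvalues i| ^ a * |hY.eigenvalues j| ^ b
      ≤ C i j ^ 2 * μ ^ a * (l ^ (b - b₁) * hY.eigenvalues j ^ b₁) :=
        mul_le_mul (mul_le_mul_of_nonneg_left h1 (sq_nonneg _)) h2
          (pow_nonneg (abs_nonneg _) _) (mul_nonneg (sq_nonneg _) (pow_nonneg hμ0 _))
    _ = μ ^ a * l ^ (b - b₁) * (C i j ^ 2 * hY.eigenvalues j ^ b₁) := by ring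

lemma trace_even_nonneg {M Y : Matrix m m ℝ} (hM : Mᵀ = M) (hY : Y.IsHermitian) {b : ℕ}
    (hev : Even b) : 0 ≤ (M * M * Y ^ b).trace := by
  obtain ⟨C, hC⟩ := two_point_sum hM hY hY
  have h0 := hC 0 b
  simp only [pow_zero, Matrix.mul_one, mul_one] at h0
  rw [h0]
  exact Finset.sum_nonneg fun j _ => Finset.sum_nonneg fun i _ =>
    mul_nonneg (sq_nonneg _) (hev.pow_nonneg _)

lemma abs_eig_le {Y : Matrix m m ℝ} (hY : Y.IsHermitian) {l : ℝ} (hl : 0 ≤ l) {k : ℕ} (hk : 1 ≤ k)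
    (h : (Y ^ (2 * k)).trace ≤ l ^ (2 * k)) (i : m) : |hY.eigenvalues i| ≤ l := by
  rw [trace_pow_eq_sum_eigenvalues hY] at h
  have h1 : hY.eigenvalues i ^ (2 * k) ≤ ∑ j, hY.eigenvalues j ^ (2 * k) :=
    Finset.single_le_sum (f := fun j => hY.eigenvalues j ^ (2 * k))
      (fun j _ => (even_two_mul k).pow_nonneg _) (mem_univ i)
  have h2 := h1.trans h
  rw [← (even_two_mul k).pow_abs (hY.eigenvalues i)] at h2
  exact le_of_pow_le_pow_left₀ (by omega) hl h2

/-- splitting along a reflection commuting with `K` and anticommuting with `M` -/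
theorem two_point_split {M K V : Matrix m m ℝ} (hM : Mᵀ = M) (hK : Kᵀ = K) (hVt : Vᵀ = V)
    (hV : V * V = 1) (hKV : K * V = V * K) (hMV : M * V = -(V * M)) {μ l : ℝ} (hμ0 : 0 ≤ μ)
    (hl0 : 0 ≤ l) {k₁ k₂ : ℕ} (hk₁ : 1 ≤ k₁) (hk₂ : 1 ≤ k₂)
    (hμ : ((K ^ (2 * k₁)).trace - (K ^ (2 * k₁) * V).trace) / 2 ≤ μ ^ (2 * k₁))
    (hl : (K ^ (2 * k₂)).trace ≤ l ^ (2 * k₂))
    {a b b₁ b₂ : ℕ} (ha : 1 ≤ a) (hb : 1 ≤ b) (hb₁ : b₁ ≤ b) (hb₂ : b₂ ≤ b)
    (h₁ : 1 ≤ b₁) (h₂ : 1 ≤ b₂) (hev₁ : Even b₁) (hev₂ : Even b₂) :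
    |(M * K ^ a * M * K ^ b).trace| ≤ μ ^ a * l ^ (b - b₁) * (M * M * K ^ b₁).trace +
      l ^ a * μ ^ (b - b₂) * (M * M * K ^ b₂).trace := by
  set P : Matrix m m ℝ := (1 / 2 : ℝ) • (1 + V) with hP
  set Q : Matrix m m ℝ := (1 / 2 : ℝ) • (1 - V) with hQ
  have hPt : Pᵀ = P := by rw [hP, Matrix.transpose_smul, Matrix.transpose_add, hVt,
    Matrix.transpose_one]
  have hQt : Qᵀ = Q := by rw [hQ, Matrix.transpose_smul, Matrix.transpose_sub, hVt,
    Matrix.transpose_one]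
  have hPP : P * P = P := by
    have e : (1 + V) * (1 + V) = (2 : ℝ) • (1 + V) := by
      rw [Matrix.add_mul, Matrix.one_mul, Matrix.mul_add V, Matrix.mul_one, hV, two_smul]; abel
    rw [hP, Matrix.smul_mul, Matrix.mul_smul, smul_smul, e, smul_smul]
    norm_num
  have hQQ : Q * Q = Q := by
    have e : (1 - V) * (1 - V) = (2 : ℝ) • (1 - V) := by
      rw [Matrix.sub_mul, Matrix.one_mul, Matrix.mul_sub V, Matrix.mul_one, hV, two_smul]; abel
    rw [hQ, Matrix.smul_mul, Matrix.mul_smul, smul_smul, e, smul_smul]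
    norm_num
  have hPQ : P * Q = 0 := by
    have e : (1 + V) * (1 - V) = 0 := by
      rw [Matrix.add_mul, Matrix.one_mul, Matrix.mul_sub V, Matrix.mul_one, hV]; abel
    rw [hP, hQ, Matrix.smul_mul, Matrix.mul_smul, smul_smul, e, smul_zero]
  have hPpQ : P + Q = 1 := by
    rw [hP, hQ, ← smul_add, show (1 : Matrix m m ℝ) + V + (1 - V) = (2 : ℝ) • 1 by
      rw [two_smul]; abel, smul_smul]
    norm_num
  have hKP : K * P = P * K := by
    rw [hP, Matrix.mul_smul, Matrix.smul_mul, Matrix.mul_add, Matrix.add_mul, hKV]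
    simp
  have hKQ : K * Q = Q * K := by
    rw [hQ, Matrix.mul_smul, Matrix.smul_mul, Matrix.mul_sub, Matrix.sub_mul, hKV]
    simp
  have hMP : M * P = Q * M := by
    rw [hP, hQ, Matrix.mul_smul, Matrix.smul_mul, Matrix.mul_add, Matrix.sub_mul, hMV]
    simp [sub_eq_add_neg]
  have hMQ : M * Q = P * M := by
    rw [hP, hQ, Matrix.mul_smul, Matrix.smul_mul, Matrix.mul_sub, Matrix.add_mul, hMV]
    simp
  -- powers
  have hpP : ∀ c, 1 ≤ c → (P * K * P) ^ c = K ^ c * P := by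
    intro c hc
    obtain ⟨d, rfl⟩ : ∃ d, c = d + 1 := ⟨c - 1, by omega⟩
    exact idem_pow hPP hKP d
  have hpQ : ∀ c, 1 ≤ c → (Q * K * Q) ^ c = K ^ c * Q := by
    intro c hc
    obtain ⟨d, rfl⟩ : ∃ d, c = d + 1 := ⟨c - 1, by omega⟩
    exact idem_pow hQQ hKQ d
  have hcP : ∀ c : ℕ, K ^ c * P = P * K ^ c := fun c => ((show Commute K P from hKP).pow_left c)
  have hcQ : ∀ c : ℕ, K ^ c * Q = Q * K ^ c := fun c => ((show Commute K Q from hKQ).pow_left c)
  have hHP : (P * K * P).IsHermitian := by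
    unfold Matrix.IsHermitian
    rw [Matrix.conjTranspose_eq_transpose_of_trivial, Matrix.transpose_mul, Matrix.transpose_mul,
      hK, hPt, Matrix.mul_assoc]
  have hHQ : (Q * K * Q).IsHermitian := by
    unfold Matrix.IsHermitian
    rw [Matrix.conjTranspose_eq_transpose_of_trivial, Matrix.transpose_mul, Matrix.transpose_mul,
      hK, hQt, Matrix.mul_assoc]
  have hQP : Q * P = 0 := by
    have := congrArg Matrix.transpose hPQ
    rw [Matrix.transpose_mul, hPt, hQt, Matrix.transpose_zero] at this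
    exact this
  -- split
  have hsplit : (M * K ^ a * M * K ^ b).trace =
      (M * (Q * K * Q) ^ a * M * (P * K * P) ^ b).trace +
      (M * (P * K * P) ^ a * M * (Q * K * Q) ^ b).trace := by
    rw [hpP _ ha, hpP _ hb, hpQ _ ha, hpQ _ hb, ← Matrix.trace_add]
    congr 1
    have e1 : K ^ a = K ^ a * Q + K ^ a * P := by
      rw [← Matrix.mul_add, add_comm, hPpQ, Matrix.mul_one]
    have e2 : K ^ b = K ^ b * Q + K ^ b * P := by
      rw [← Matrix.mul_add, add_comm, hPpQ, Matrix.mul_one]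
    have e3 : M * (K ^ a * Q) * M * (K ^ b * Q) = 0 := by
      rw [hcQ b]
      calc M * (K ^ a * Q) * M * (Q * K ^ b) = M * K ^ a * (Q * (M * Q)) * K ^ b := by
            simp only [Matrix.mul_assoc]
        _ = 0 := by rw [hMQ, ← Matrix.mul_assoc Q, hQP]; simp
    have e4 : M * (K ^ a * P) * M * (K ^ b * P) = 0 := by
      rw [hcP b]
      calc M * (K ^ a * P) * M * (P * K ^ b) = M * K ^ a * (P * (M * P)) * K ^ b := by
            simp only [Matrix.mul_assoc]
        _ = 0 := by rw [hMP, ← Matrix.mul_assoc P, hPQ]; simp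
    have e5 : M * (K ^ a * Q + K ^ a * P) * M * (K ^ b * Q + K ^ b * P) =
        M * (K ^ a * Q) * M * (K ^ b * Q) + M * (K ^ a * Q) * M * (K ^ b * P) +
          (M * (K ^ a * P) * M * (K ^ b * Q) + M * (K ^ a * P) * M * (K ^ b * P)) := by
      rw [Matrix.mul_add M, Matrix.add_mul _ _ M, Matrix.add_mul, Matrix.mul_add, Matrix.mul_add]
    rw [← e1, ← e2, e3, e4] at e5
    rw [e5]
    abel
  -- eigenvalue bounds
  have hμe : ∀ i, |hHQ.eigenvalues i| ≤ μ := by
    refine abs_eig_le hHQ hμ0 hk₁ ?_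
    rw [hpQ _ (by omega), hQ, Matrix.mul_smul, Matrix.mul_sub, Matrix.mul_one,
      Matrix.trace_smul, Matrix.trace_sub, smul_eq_mul]
    linarith
  have hQ0 : 0 ≤ ((Q * K * Q) ^ (2 * k₂)).trace := by
    rw [trace_pow_eq_sum_eigenvalues hHQ]
    exact Finset.sum_nonneg fun j _ => (even_two_mul k₂).pow_nonneg _
  have hle : ∀ i, |hHP.eigenvalues i| ≤ l := by
    refine abs_eig_le hHP hl0 hk₂ ?_
    refine le_trans ?_ hl
    have e1 : (K ^ (2 * k₂)).trace = ((Q * K * Q) ^ (2 * k₂)).trace +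
        ((P * K * P) ^ (2 * k₂)).trace := by
      rw [hpP _ (by omega), hpQ _ (by omega), ← Matrix.trace_add, ← Matrix.mul_add, add_comm Q,
        hPpQ, Matrix.mul_one]
    linarith
  -- the two reduced traces
  have hredP : ∀ c, 1 ≤ c → Even c → (M * M * (P * K * P) ^ c).trace ≤ (M * M * K ^ c).trace := by
    intro c hc hev
    have e1 : (M * M * K ^ c).trace = (M * M * (Q * K * Q) ^ c).trace +
        (M * M * (P * K * P) ^ c).trace := by
      rw [hpP _ hc, hpQ _ hc, ← Matrix.trace_add, ← Matrix.mul_add, ← Matrix.mul_add, add_comm Q,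
        hPpQ, Matrix.mul_one]
    have := trace_even_nonneg hM hHQ hev
    linarith
  have hredQ : ∀ c, 1 ≤ c → Even c → (M * M * (Q * K * Q) ^ c).trace ≤ (M * M * K ^ c).trace := by
    intro c hc hev
    have e1 : (M * M * K ^ c).trace = (M * M * (Q * K * Q) ^ c).trace +
        (M * M * (P * K * P) ^ c).trace := by
      rw [hpP _ hc, hpQ _ hc, ← Matrix.trace_add, ← Matrix.mul_add, ← Matrix.mul_add, add_comm Q,
        hPpQ, Matrix.mul_one]
    have := trace_even_nonneg hM hHP hev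
    linarith
  rw [hsplit]
  refine (abs_add_le _ _).trans (add_le_add ?_ ?_)
  · refine (two_point_bound hM hHQ hHP hμe hle hl0 hμ0 hb₁ hev₁).trans ?_
    exact mul_le_mul_of_nonneg_left (hredP _ h₁ hev₁) (by positivity)
  · refine (two_point_bound hM hHP hHQ hle hμe hμ0 hl0 hb₂ hev₂).trans ?_
    exact mul_le_mul_of_nonneg_left (hredQ _ h₂ hev₂) (by positivity)

end spectral

end

end Vale.Agent.P348
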