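import Vale.Agent.P348.H997.Defs
import Vale.Agent.P348.H997.Fin

/-! From the real symmetric ring matrix to the complex spin-one Hamiltonian. -/

namespace Vale.Agent.P348

open Matrix Finset Filter

noncomputable section

/-- trace of the exponential of a complexified real symmetric matrix -/
theorem trace_exp_map {m : Type} [Fintype m] [DecidableEq m] (A : Matrix m m ℝ)
    (hA : A.IsHermitian) (T : ℝ) :
    (NormedSpace.exp ((-(T : ℂ)) • A.map (fun x : ℝ => (x : ℂ)))).trace =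
      ((∑ i, Real.exp (-(T * hA.eigenvalues i)) : ℝ) : ℂ) := by
  set U : Matrix m m ℝ := (hA.eigenvectorUnitary : Matrix m m ℝ) with hU
  have hUU : U * star U = 1 := Unitary.coe_mul_star_self hA.eigenvectorUnitary
  have hUU' : star U * U = 1 := Unitary.coe_star_mul_self hA.eigenvectorUnitary
  have hspec : A = U * diagonal hA.eigenvalues * star U := by
    have h := hA.spectral_theorem
    rw [Unitary.conjStarAlgAut_apply] at h
    exact h
  let f : Matrix m m ℝ →+* Matrix m m ℂ := Complex.ofRealHom.mapMatrix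
  have hf : ∀ M : Matrix m m ℝ, f M = M.map (fun x : ℝ => (x : ℂ)) := fun M => rfl
  set V : Matrix m m ℂ := f U with hV
  set V' : Matrix m m ℂ := f (star U) with hV'
  have hVV : V * V' = 1 := by rw [hV, hV', ← map_mul, hUU, map_one]
  have hVV' : V' * V = 1 := by rw [hV, hV', ← map_mul, hUU', map_one]
  have hinv : V⁻¹ = V' := Matrix.inv_eq_right_inv hVV
  have hunit : IsUnit V := ⟨⟨V, V', hVV, hVV'⟩, rfl⟩
  have hd : f (diagonal hA.eigenvalues) = diagonal (fun i => ((hA.eigenvalues i : ℝ) : ℂ)) := by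
    rw [hf, Matrix.diagonal_map (by simp)]
  have h1 : A.map (fun x : ℝ => (x : ℂ)) =
      V * diagonal (fun i => ((hA.eigenvalues i : ℝ) : ℂ)) * V⁻¹ := by
    rw [← hf, hinv, ← hd, hV, hV', ← map_mul, ← map_mul, ← hspec]
  have h2 : (-(T : ℂ)) • A.map (fun x : ℝ => (x : ℂ)) =
      V * ((-(T : ℂ)) • diagonal (fun i => ((hA.eigenvalues i : ℝ) : ℂ))) * V⁻¹ := by
    rw [h1, Matrix.mul_smul, Matrix.smul_mul]
  rw [h2, Matrix.exp_conj V _ hunit, Matrix.trace_mul_cycle, hinv, hVV', Matrix.one_mul,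
    ← Matrix.diagonal_smul, Matrix.exp_diagonal, Matrix.trace_diagonal]
  push_cast
  refine Finset.sum_congr rfl fun i _ => ?_
  rw [Pi.coe_exp, Complex.exp_eq_exp_ℂ]
  simp only [Pi.smul_apply, smul_eq_mul, neg_mul]

/-- complexified ring matrix -/
def AC (L : ℕ) [NeZero L] : Matrix (Fin L → Fin 3) (Fin L → Fin 3) ℂ :=
  (ringH L u1).map (fun x : ℝ => (x : ℂ))

lemma TW_mul (L : ℕ) : tensC (fun _ : Fin L => W) * tensC (fun _ : Fin L => W') = 1 := by
  rw [tensC_mul]; simp only [W_mul_W']; exact tensC_one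

lemma TW_mul' (L : ℕ) : tensC (fun _ : Fin L => W') * tensC (fun _ : Fin L => W) = 1 := by
  rw [tensC_mul]; simp only [W'_mul_W]; exact tensC_one

lemma haldaneH_conj (L : ℕ) [NeZero L] (hL : 2 ≤ L) :
    haldaneH L = tensC (fun _ : Fin L => W') * AC L * tensC (fun _ : Fin L => W) := by
  have h := tens_W_mul_haldaneH L
  rw [HC_eq L hL] at h
  unfold AC
  rw [Matrix.mul_assoc, ← h, ← Matrix.mul_assoc, TW_mul', Matrix.one_mul]

lemma partitionFn_eq (L : ℕ) [NeZero L] (hL : 2 ≤ L) (β : ℝ) :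
    partitionFn L β = ((∑ i, Real.exp (-(β * (ringH_isHermitian L u1).eigenvalues i)) : ℝ) : ℂ) := by
  rw [← trace_exp_map]
  unfold partitionFn
  have hU : IsUnit (tensC (fun _ : Fin L => W')) :=
    ⟨⟨_, _, TW_mul' L, TW_mul L⟩, rfl⟩
  have hinv : (tensC (fun _ : Fin L => W'))⁻¹ = tensC (fun _ : Fin L => W) :=
    Matrix.inv_eq_right_inv (TW_mul' L)
  have h2 : (-(β : ℂ)) • haldaneH L =
      tensC (fun _ : Fin L => W') * ((-(β : ℂ)) • AC L) * (tensC (fun _ : Fin L => W'))⁻¹ := by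
    rw [hinv, haldaneH_conj L hL, Matrix.mul_smul, Matrix.smul_mul]
  rw [h2, Matrix.exp_conj _ _ hU, Matrix.trace_mul_cycle, hinv, TW_mul, Matrix.one_mul]
  rfl

end

end Vale.Agent.P348
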