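import Vale.Agent.P348.H997.G17

/-! The infinite-volume ground state: summary. -/

namespace Vale.Agent.P348

open Matrix Finset Filter Topology

noncomputable section

theorem omega_state : IsInvariantState omega where
  one := omega_one
  pos := omega_pos
  window := fun _ _ x A hx => omega_window x hx A
  rotation := omega_spin

end

end Vale.Agent.P348
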