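import Vale.Agent.P348.H997.Spec
import Vale.Agent.P348.H997.RecU

/-! Two-point functions of the rings: trivial bound, crossed-channel bound in the limit. -/

namespace Vale.Agent.P348

open Matrix Finset Filter Topology

noncomputable section

/-- general intertwining of the kernel and the twist -/
theorem Kr_Vc {R U U' : Matrix (Fin 3) (Fin 3) ℝ} (h : IsRot R) (hU : R * U' * Rᵀ = U)
    (N : ℕ) (t : ℝ) : Kr N t U * Vc N R = Vc N R * Kr N t U' := by
  ext p q
  have hL : (Kr N t U * Vc N R) p q =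
      (U * (List.ofFn (fun j => slotR R t (p j) (q j))).prod).trace := by
    rw [Matrix.mul_apply]
    have : ∀ e, Kr N t U p e * Vc N R e q = (∏ j, Rh R (e j) (q j)) *
        (U * (List.ofFn (fun j => slot t (p j) (e j))).prod).trace := by
      intro e; rw [mul_comm]; rfl
    rw [Finset.sum_congr rfl (fun e _ => this e),
      trace_U_prod_sum N U (fun j c => Rh R c (q j)) (fun j c => slot t (p j) c)]
    rfl
  have hR : (Vc N R * Kr N t U') p q =
      (U' * (List.ofFn (fun j => Rᵀ * slotR R t (p j) (q j) * R)).prod).trace := by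
    rw [Matrix.mul_apply]
    have : ∀ o', Vc N R p o' * Kr N t U' o' q = (∏ j, Rh R (p j) (o' j)) *
        (U' * (List.ofFn (fun j => slot t (o' j) (q j))).prod).trace := by
      intro e; rfl
    rw [Finset.sum_congr rfl (fun e _ => this e),
      trace_U_prod_sum N U' (fun j c => Rh R (p j) c) (fun j c => slot t c (q j))]
    congr 4
    funext j
    rw [slotR_conj h]
  rw [hL, hR]
  set A : Fin N → Matrix (Fin 3) (Fin 3) ℝ := fun j => slotR R t (p j) (q j) with hA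
  have h2 := prod_ofFn_conj N A R h.orth
  have h3 : (List.ofFn (fun j => Rᵀ * A j * R)).prod = Rᵀ * (List.ofFn A).prod * R := by
    rw [← h2, Matrix.mul_assoc, h.orth', Matrix.mul_one]
  rw [h3]
  have h4 : U' * (Rᵀ * (List.ofFn A).prod * R) = (U' * Rᵀ * (List.ofFn A).prod) * R := by
    simp only [Matrix.mul_assoc]
  rw [h4, Matrix.trace_mul_comm (U' * Rᵀ * (List.ofFn A).prod) R, ← hU]
  simp only [Matrix.mul_assoc]

lemma Kr_neg (N : ℕ) (t : ℝ) (U : Matrix (Fin 3) (Fin 3) ℝ) : Kr N t (-U) = -Kr N t U := by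
  ext p q
  simp [Kr]

/-- the sign vector reversing `J a` -/
def uo (a : Fin 3) : Fin 3 → ℤ := if a = 0 then uy else ux

lemma uo_J (a : Fin 3) : dg (uo a) * (-J a) * (dg (uo a))ᵀ = J a := by
  unfold dg
  rw [Matrix.diagonal_transpose]
  ext b c
  rw [Matrix.mul_diagonal, Matrix.diagonal_mul, Matrix.neg_apply, J_int]
  have key : ∀ a b c : Fin 3, uo a b * -(if b = a + 1 ∧ c = a + 2 then 1 else
      if b = a + 2 ∧ c = a + 1 then -1 else 0 : ℤ) * uo a c =
      (if b = a + 1 ∧ c = a + 2 then 1 else if b = a + 2 ∧ c = a + 1 then -1 else 0 : ℤ) := by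
    decide
  exact_mod_cast key a b c

lemma uo_rot (a : Fin 3) : IsRot (dg (uo a)) := by
  unfold uo
  split_ifs
  · rw [← rhoD_y]; exact rhoD_isRot _
  · rw [← rhoD_x]; exact rhoD_isRot _

lemma uo_sgn (a : Fin 3) : IsSgn (uo a) := by
  unfold uo
  split_ifs
  · exact isSgn_uy
  · exact isSgn_ux

lemma dg_mul_self (a : Fin 3) : dg (uo a) * dg (uo a) = 1 := by
  have h := (uo_rot a).orth
  have : (dg (uo a))ᵀ = dg (uo a) := by unfold dg; rw [Matrix.diagonal_transpose]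
  rwa [this] at h

lemma dg_tr (a : Fin 3) : (dg (uo a))ᵀ = dg (uo a) := by unfold dg; rw [Matrix.diagonal_transpose]

lemma dg_u1 : dg u1 = 1 := by rw [← rhoD_one, ← map_one rhoD]; rfl

lemma Zuv_uo (L : ℕ) [NeZero L] (a : Fin 3) (T : ℝ) : Zuv L u1 (uo a) T = zsF L T := by
  unfold uo zsF
  split_ifs
  · have := ZL_u1_uy T L
    rwa [ZL_eq, ZL_eq] at this
  · rfl

section limits
variable {T : ℝ} (hT : 0 ≤ T)
include hT

lemma lim_K {m : ℕ} (hm : 1 ≤ m) :
    Tendsto (fun N : ℕ => ((Kr N (T / N) 1) ^ (2 * m)).trace) atTop (𝓝 (zF (Lk m) T)) := by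
  have h := cross_limit (n := 2 * m - 1) (by omega) 1 1 hT
  have e : 2 * m - 1 + 1 = 2 * m := by omega
  simp only [Vc_one, Matrix.mul_one, e] at h
  convert h using 2
  have h2 := Ztw_eq (n := 2 * m - 1) (by omega) u1 isSgn_u1 T
  rw [dg_u1] at h2
  unfold Ztw at h2
  rw [h2]
  have e3 : Lk m = 2 * m - 1 + 1 := by unfold Lk; omega
  have : ZL u1 u1 T (Lk m) = ZL u1 u1 T (2 * m - 1 + 1) := by rw [e3]
  rw [ZL_eq, ZL_eq] at this
  exact this

lemma lim_KV {m : ℕ} (hm : 1 ≤ m) (a : Fin 3) :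
    Tendsto (fun N : ℕ => ((Kr N (T / N) 1) ^ (2 * m) * Vc N (dg (uo a))).trace) atTop
      (𝓝 (zsF (Lk m) T)) := by
  have h := cross_limit (n := 2 * m - 1) (by omega) 1 (dg (uo a)) hT
  have e : 2 * m - 1 + 1 = 2 * m := by omega
  simp only [e] at h
  convert h using 2
  have h2 := Ztw_eq (n := 2 * m - 1) (by omega) u1 (uo_sgn a) T
  rw [dg_u1] at h2
  unfold Ztw at h2
  rw [h2, Zuv_uo]
  have e3 : Lk m = 2 * m - 1 + 1 := by unfold Lk; omega
  have : ZL u1 ux T (Lk m) = ZL u1 ux T (2 * m - 1 + 1) := by rw [e3]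
  rw [ZL_eq, ZL_eq] at this
  exact this

end limits

/-- unnormalised two-point function of `J a` -/
def Gf (n : ℕ) (i j : Fin (n + 1)) (a : Fin 3) (T : ℝ) : ℝ :=
  (tens (U2 i j (J a)) * NormedSpace.exp (T • XR n 1)).trace

lemma lim_G {T : ℝ} (hT : 0 ≤ T) {n : ℕ} (hn : 1 ≤ n) {i j : Fin (n + 1)} (hij : i < j)
    (a : Fin 3) :
    Tendsto (fun N : ℕ => (Kr N (T / N) (J a) * Kr N (T / N) 1 ^ ((j : ℕ) - i - 1) *
      Kr N (T / N) (J a) * Kr N (T / N) 1 ^ (n + i - j)).trace) atTop (𝓝 (Gf n i j a T)) := by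
  have h := cross_limit_site hn (U2 i j (J a)) hT
  refine h.congr fun N => ?_
  exact trace_two n N (T / N) (J a) hij

/-! ### the trivial bound -/

lemma quad_le {ι : Type} [Fintype ι] (M : Matrix ι ι ℝ) (hr : ∀ i, ∑ j, |M i j| ≤ 1)
    (hc : ∀ j, ∑ i, |M i j| ≤ 1) (v : ι → ℝ) : |v ⬝ᵥ M.mulVec v| ≤ v ⬝ᵥ v := by
  have h1 : |v ⬝ᵥ M.mulVec v| ≤ ∑ i, ∑ j, |M i j| * ((v i ^ 2 + v j ^ 2) / 2) := by
    unfold dotProduct Matrix.mulVec dotProduct
    refine (Finset.abs_sum_le_sum_abs _ _).trans (Finset.sum_le_sum fun i _ => ?_)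
    rw [Finset.mul_sum]
    refine (Finset.abs_sum_le_sum_abs _ _).trans (Finset.sum_le_sum fun j _ => ?_)
    have e : v i * (M i j * v j) = M i j * (v i * v j) := by ring
    rw [e, abs_mul]
    refine mul_le_mul_of_nonneg_left ?_ (abs_nonneg _)
    rw [abs_le]
    constructor <;> nlinarith [sq_nonneg (v i - v j), sq_nonneg (v i + v j)]
  refine h1.trans ?_
  have h2 : ∑ i, ∑ j, |M i j| * ((v i ^ 2 + v j ^ 2) / 2) =
      (∑ i, (∑ j, |M i j|) * (v i ^ 2 / 2)) + ∑ j, (∑ i, |M i j|) * (v j ^ 2 / 2) := by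
    simp only [Finset.sum_mul]
    rw [Finset.sum_comm (f := fun j i => |M i j| * (v j ^ 2 / 2)), ← Finset.sum_add_distrib]
    refine Finset.sum_congr rfl fun i _ => ?_
    rw [← Finset.sum_add_distrib]
    refine Finset.sum_congr rfl fun j _ => ?_
    ring
  rw [h2]
  have h3 : ∑ i, (∑ j, |M i j|) * (v i ^ 2 / 2) ≤ ∑ i, v i ^ 2 / 2 :=
    Finset.sum_le_sum fun i _ => by
      have := mul_le_mul_of_nonneg_right (hr i) (show 0 ≤ v i ^ 2 / 2 by positivity)
      linarith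
  have h4 : ∑ j, (∑ i, |M i j|) * (v j ^ 2 / 2) ≤ ∑ j, v j ^ 2 / 2 :=
    Finset.sum_le_sum fun i _ => by
      have := mul_le_mul_of_nonneg_right (hc i) (show 0 ≤ v i ^ 2 / 2 by positivity)
      linarith
  have h5 : v ⬝ᵥ v = ∑ i, v i ^ 2 / 2 + ∑ j, v j ^ 2 / 2 := by
    unfold dotProduct
    rw [← Finset.sum_add_distrib]
    refine Finset.sum_congr rfl fun i _ => ?_
    ring
  rw [h5]
  exact add_le_add h3 h4

lemma tens_rowsum {ι : Type} [Fintype ι] [DecidableEq ι] (U : ι → Matrix (Fin 3) (Fin 3) ℝ)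
    (h : ∀ x b, ∑ c, |U x b c| ≤ 1) (s : ι → Fin 3) : ∑ t, |tens U s t| ≤ 1 := by
  unfold tens
  simp only [Finset.abs_prod]
  have : ∑ t : ι → Fin 3, ∏ x, |U x (s x) (t x)| = ∏ x, ∑ c, |U x (s x) c| := by
    rw [Finset.prod_univ_sum]; simp only [Fintype.piFinset_univ]
  rw [this]
  exact Finset.prod_le_one (fun x _ => Finset.sum_nonneg fun c _ => abs_nonneg _)
    (fun x _ => h x (s x))

lemma tens_transpose {ι : Type} [Fintype ι] (U : ι → Matrix (Fin 3) (Fin 3) ℝ) :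
    (tens U)ᵀ = tens (fun x => (U x)ᵀ) := rfl

lemma J_row (a b : Fin 3) : ∑ c, |J a b c| ≤ 1 := by
  simp only [J_int]
  have key : ∀ a b : Fin 3, ∑ c : Fin 3, |(if b = a + 1 ∧ c = a + 2 then 1 else
      if b = a + 2 ∧ c = a + 1 then -1 else 0 : ℤ)| ≤ 1 := by decide
  exact_mod_cast key a b

lemma J_col (a c : Fin 3) : ∑ b, |J a b c| ≤ 1 := by
  simp only [J_int]
  have key : ∀ a c : Fin 3, ∑ b : Fin 3, |(if b = a + 1 ∧ c = a + 2 then 1 else
      if b = a + 2 ∧ c = a + 1 then -1 else 0 : ℤ)| ≤ 1 := by decide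
  exact_mod_cast key a c

lemma one_row (b : Fin 3) : ∑ c, |(1 : Matrix (Fin 3) (Fin 3) ℝ) b c| ≤ 1 := by
  simp [Matrix.one_apply, apply_ite abs]

lemma one_col (c : Fin 3) : ∑ b, |(1 : Matrix (Fin 3) (Fin 3) ℝ) b c| ≤ 1 := by
  simp [Matrix.one_apply, apply_ite abs]

lemma U2_quad {n : ℕ} (i j : Fin (n + 1)) (a : Fin 3) (v : (Fin (n + 1) → Fin 3) → ℝ) :
    |v ⬝ᵥ (tens (U2 i j (J a))).mulVec v| ≤ v ⬝ᵥ v := by
  refine quad_le _ (fun s => tens_rowsum _ (fun x b => ?_) s) (fun t => ?_) v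
  · unfold U2; split_ifs
    · exact J_row a b
    · exact one_row b
  · have := tens_rowsum (fun x => (U2 i j (J a) x)ᵀ) (fun x b => ?_) t
    · rw [← tens_transpose] at this
      exact this
    · unfold U2; split_ifs
      · exact J_col a b
      · exact one_col b

/-- expansion of `tr (X exp (-T H))` in the eigenbasis of `H` -/
theorem trace_exp_expand {m : Type} [Fintype m] [DecidableEq m] (A : Matrix m m ℝ)
    (hA : A.IsHermitian) (X : Matrix m m ℝ) (T : ℝ) :
    (X * NormedSpace.exp ((-T) • A)).trace = ∑ i, ((fun s =>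
      (hA.eigenvectorUnitary : Matrix m m ℝ) s i) ⬝ᵥ X.mulVec (fun s =>
        (hA.eigenvectorUnitary : Matrix m m ℝ) s i)) * Real.exp (-(T * hA.eigenvalues i)) := by
  set U : Matrix m m ℝ := (hA.eigenvectorUnitary : Matrix m m ℝ) with hU
  have hUU : U * star U = 1 := Unitary.coe_mul_star_self hA.eigenvectorUnitary
  have hUU' : star U * U = 1 := Unitary.coe_star_mul_self hA.eigenvectorUnitary
  have hinv : U⁻¹ = star U := Matrix.inv_eq_right_inv hUU
  have hunit : IsUnit U := ⟨⟨U, star U, hUU, hUU'⟩, rfl⟩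
  have hspec : A = U * diagonal hA.eigenvalues * U⁻¹ := by
    have h := hA.spectral_theorem
    rw [Unitary.conjStarAlgAut_apply] at h
    rw [hinv]
    exact h
  have h2 : (-T) • A = U * ((-T) • diagonal hA.eigenvalues) * U⁻¹ := by
    conv_lhs => rw [hspec]
    rw [Matrix.mul_smul, Matrix.smul_mul]
  rw [h2, Matrix.exp_conj U _ hunit, ← Matrix.diagonal_smul, Matrix.exp_diagonal, hinv,
    ← Matrix.mul_assoc, ← Matrix.mul_assoc, Matrix.trace_mul_comm, ← Matrix.mul_assoc,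
    ← Matrix.mul_assoc, Matrix.star_eq_conjTranspose, Matrix.conjTranspose_eq_transpose_of_trivial]
  simp only [Matrix.trace, Matrix.diag_apply, Matrix.mul_diagonal]
  refine Finset.sum_congr rfl fun i _ => ?_
  congr 1
  · rw [Matrix.mul_assoc, Matrix.mul_apply]
    simp only [Matrix.transpose_apply, dotProduct, Matrix.mulVec, Matrix.mul_apply]
  · rw [Pi.coe_exp, Real.exp_eq_exp_ℝ]
    simp only [Pi.smul_apply, smul_eq_mul, neg_mul]

lemma eigvec_norm {m : Type} [Fintype m] [DecidableEq m] (A : Matrix m m ℝ)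
    (hA : A.IsHermitian) (i : m) :
    ((fun s => (hA.eigenvectorUnitary : Matrix m m ℝ) s i) ⬝ᵥ
      (fun s => (hA.eigenvectorUnitary : Matrix m m ℝ) s i)) = 1 := by
  have hUU' : star (hA.eigenvectorUnitary : Matrix m m ℝ) *
      (hA.eigenvectorUnitary : Matrix m m ℝ) = 1 :=
    Unitary.coe_star_mul_self hA.eigenvectorUnitary
  have := congrFun (congrFun hUU' i) i
  rw [Matrix.mul_apply, Matrix.one_apply_eq] at this
  simpa [dotProduct, Matrix.star_eq_conjTranspose] using this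

lemma exp_XR {n : ℕ} (hn : 1 ≤ n) (T : ℝ) :
    NormedSpace.exp (T • XR n 1) = NormedSpace.exp ((-T) • ringH (n + 1) u1) := by
  rw [← dg_u1, XR_eq hn isSgn_u1, smul_neg, neg_smul]

/-- trivial bound of the two-point function -/
lemma Gf_le {n : ℕ} (hn : 1 ≤ n) (i j : Fin (n + 1)) (a : Fin 3) (T : ℝ) :
    |Gf n i j a T| ≤ zF (n + 1) T := by
  unfold Gf
  rw [exp_XR hn, trace_exp_expand _ (ringH_isHermitian (n + 1) u1), zF_eq_sum]
  refine (Finset.abs_sum_le_sum_abs _ _).trans (Finset.sum_le_sum fun l _ => ?_)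
  rw [abs_mul, abs_of_pos (Real.exp_pos _)]
  have h1 := U2_quad i j a (fun s =>
    ((ringH_isHermitian (n + 1) u1).eigenvectorUnitary : Matrix _ _ ℝ) s l)
  rw [eigvec_norm] at h1
  have := mul_le_mul_of_nonneg_right h1
    (Real.exp_pos (-(T * (ringH_isHermitian (n + 1) u1).eigenvalues l))).le
  linarith

end

end Vale.Agent.P348
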