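import Vale.Agent.P348.H997.Stat

/-! Uniqueness of the ground state, and the singlet property. -/

namespace Vale.Agent.P348

open Matrix Finset Filter

noncomputable section

/-- a simple eigenvalue of a real symmetric matrix, over the complex numbers -/
theorem simple_of_unique {m : Type} [Fintype m] [DecidableEq m] (A : Matrix m m ℝ)
    (hA : A.IsHermitian) (i₀ : m) (hu : ∀ i, hA.eigenvalues i = hA.eigenvalues i₀ → i = i₀) :
    ∃ v : m → ℂ, v ≠ 0 ∧
      (A.map (fun x : ℝ => (x : ℂ))).mulVec v = ((hA.eigenvalues i₀ : ℝ) : ℂ) • v ∧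
      ∀ φ : m → ℂ, (A.map (fun x : ℝ => (x : ℂ))).mulVec φ = ((hA.eigenvalues i₀ : ℝ) : ℂ) • φ →
        ∃ c : ℂ, φ = c • v := by
  set U : Matrix m m ℝ := (hA.eigenvectorUnitary : Matrix m m ℝ) with hU
  have hUU : U * star U = 1 := Unitary.coe_mul_star_self hA.eigenvectorUnitary
  have hUU' : star U * U = 1 := Unitary.coe_star_mul_self hA.eigenvectorUnitary
  have hspec : A = U * diagonal hA.eigenvalues * star U := by
    have h := hA.spectral_theorem
    rw [Unitary.conjStarAlgAut_apply] at h
    exact h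
  let f : Matrix m m ℝ →+* Matrix m m ℂ := Complex.ofRealHom.mapMatrix
  have hf : ∀ M : Matrix m m ℝ, f M = M.map (fun x : ℝ => (x : ℂ)) := fun M => rfl
  set V : Matrix m m ℂ := f U with hV
  set V' : Matrix m m ℂ := f (star U) with hV'
  have hVV : V * V' = 1 := by rw [hV, hV', ← map_mul, hUU, map_one]
  have hVV' : V' * V = 1 := by rw [hV, hV', ← map_mul, hUU', map_one]
  have hd : f (diagonal hA.eigenvalues) = diagonal (fun i => ((hA.eigenvalues i : ℝ) : ℂ)) := by
    rw [hf, Matrix.diagonal_map (by simp)]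
  have h1 : A.map (fun x : ℝ => (x : ℂ)) =
      V * diagonal (fun i => ((hA.eigenvalues i : ℝ) : ℂ)) * V' := by
    rw [← hf, ← hd, hV, hV', ← map_mul, ← map_mul, ← hspec]
  set M := A.map (fun x : ℝ => (x : ℂ)) with hM
  have h2 : M * V = V * diagonal (fun i => ((hA.eigenvalues i : ℝ) : ℂ)) := by
    rw [h1, Matrix.mul_assoc, hVV', Matrix.mul_one]
  have h3 : V' * M = diagonal (fun i => ((hA.eigenvalues i : ℝ) : ℂ)) * V' := by
    rw [h1, Matrix.mul_assoc, ← Matrix.mul_assoc, hVV', Matrix.one_mul]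
  refine ⟨fun s => V s i₀, ?_, ?_, ?_⟩
  · intro h0
    have : (V' * V) i₀ i₀ = 0 := by
      rw [Matrix.mul_apply]
      refine Finset.sum_eq_zero fun s _ => ?_
      have := congrFun h0 s
      simp only [Pi.zero_apply] at this
      rw [this, mul_zero]
    rw [hVV', Matrix.one_apply_eq] at this
    exact one_ne_zero this
  · funext s
    have := congrFun (congrFun h2 s) i₀
    rw [Matrix.mul_diagonal] at this
    simp only [Matrix.mulVec, dotProduct, Pi.smul_apply, smul_eq_mul]
    rw [Matrix.mul_apply] at this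
    rw [this, mul_comm]
  · intro φ hφ
    have h4 : ∀ i, i ≠ i₀ → V'.mulVec φ i = 0 := by
      intro i hi
      have h5 : V'.mulVec (M.mulVec φ) = (diagonal (fun i => ((hA.eigenvalues i : ℝ) : ℂ))).mulVec
          (V'.mulVec φ) := by
        rw [Matrix.mulVec_mulVec, h3, ← Matrix.mulVec_mulVec]
      rw [hφ, Matrix.mulVec_smul] at h5
      have h6 := congrFun h5 i
      rw [Matrix.mulVec_diagonal] at h6
      simp only [Pi.smul_apply, smul_eq_mul] at h6
      have h7 : (((hA.eigenvalues i₀ : ℝ) : ℂ) - ((hA.eigenvalues i : ℝ) : ℂ)) *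
          V'.mulVec φ i = 0 := by rw [sub_mul, h6, sub_self]
      rcases mul_eq_zero.1 h7 with h8 | h8
      · exfalso
        apply hi
        apply hu
        have := sub_eq_zero.1 h8
        exact_mod_cast this.symm
      · exact h8
    refine ⟨V'.mulVec φ i₀, ?_⟩
    have h9 : φ = V.mulVec (V'.mulVec φ) := by
      rw [Matrix.mulVec_mulVec, hVV, Matrix.one_mulVec]
    funext s
    rw [congrFun h9 s]
    simp only [Matrix.mulVec, dotProduct, Pi.smul_apply, smul_eq_mul]
    rw [Finset.sum_eq_single i₀]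
    · rw [mul_comm]
    · intro i _ hi
      have := h4 i hi
      simp only [Matrix.mulVec, dotProduct] at this
      rw [this, mul_zero]
    · intro h; exact absurd (Finset.mem_univ _) h

/-! ### algebra of one-site operators -/

lemma onSite_mul {L : ℕ} (j : Fin L) (A B : Matrix (Fin 3) (Fin 3) ℂ) :
    onSite j A * onSite j B = onSite j (A * B) := by
  rw [onSite_eq_tensC, onSite_eq_tensC, onSite_eq_tensC, tensC_mul]
  congr 1
  funext i
  split_ifs <;> simp

lemma onSite_comm {L : ℕ} {i j : Fin L} (h : i ≠ j) (A B : Matrix (Fin 3) (Fin 3) ℂ) :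
    onSite i A * onSite j B = onSite j B * onSite i A := by
  rw [onSite_eq_tensC, onSite_eq_tensC, tensC_mul, tensC_mul]
  congr 1
  funext l
  by_cases h1 : l = i
  · subst h1
    simp [h]
  · simp [h1]

lemma onSite_sub {L : ℕ} (j : Fin L) (A B : Matrix (Fin 3) (Fin 3) ℂ) :
    onSite j (A - B) = onSite j A - onSite j B := by
  ext s t
  simp only [onSite, Matrix.sub_apply]
  split_ifs <;> simp

lemma onSite_smul {L : ℕ} (j : Fin L) (c : ℂ) (A : Matrix (Fin 3) (Fin 3) ℂ) :
    onSite j (c • A) = c • onSite j A := by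
  ext s t
  simp only [onSite, Matrix.smul_apply]
  split_ifs <;> simp

lemma onSite_zero {L : ℕ} (j : Fin L) : onSite j (0 : Matrix (Fin 3) (Fin 3) ℂ) = 0 := by
  ext s t
  simp [onSite]

lemma spin_comm (a : Fin 3) : spin a * spin (a + 1) - spin (a + 1) * spin a =
    Complex.I • spin (a + 2) := by
  have h := sqrt2_inv_sq
  have hI : Complex.I * Complex.I = -1 := Complex.I_mul_I
  unfold spin
  generalize ((Real.sqrt 2 : ℝ) : ℂ)⁻¹ = r at h ⊢
  fin_cases a <;> ext i j <;> fin_cases i <;> fin_cases j <;>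
      simp [Matrix.mul_apply, Fin.sum_univ_three, -neg_mul]
  all_goals first
    | (ring1)
    | linear_combination (2 * Complex.I) * h
    | linear_combination (-2 * Complex.I) * h
    | linear_combination (Complex.I) * h
    | linear_combination r * hI
    | linear_combination (-r) * hI

lemma two_site_alg {R : Type} [Ring R] (x u w y v z : R) (i : R → R)
    (i1 : i w * v = i (w * v)) (i2 : i u * z = i (u * z)) (i3 : u * i z = i (u * z)) (i4 : w * i v = i (w * v))
    (cxy : y * x = x * y) (cxv : v * x = x * v) (cxz : z * x = x * z)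
    (cuy : y * u = u * y) (cwy : y * w = w * y)
    (x1 : x * u - u * x = i w) (x2 : w * x - x * w = i u)
    (y1 : y * v - v * y = i z) (y2 : z * y - y * z = i v) :
    (x + y) * (x * y + u * v + w * z) - (x * y + u * v + w * z) * (x + y) = 0 := by
  have e1 : x * u = u * x + i w := by rw [← x1]; abel
  have e2 : w * x = x * w + i u := by rw [← x2]; abel
  have e3 : y * v = v * y + i z := by rw [← y1]; abel
  have e4 : z * y = y * z + i v := by rw [← y2]; abel
  have t1 : x * (x * y) = (x * y) * x := by rw [mul_assoc, cxy]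
  have t2 : y * (x * y) = (x * y) * y := by rw [← mul_assoc, cxy]
  have t3 : x * (u * v) = (u * v) * x + i (w * v) := by
    rw [← mul_assoc, e1, add_mul, mul_assoc u v x, cxv, mul_assoc, i1]
  have t4 : (w * z) * x = x * (w * z) + i (u * z) := by
    rw [mul_assoc, cxz, ← mul_assoc, e2, add_mul, mul_assoc, i2]
  have t5 : y * (u * v) = (u * v) * y + i (u * z) := by
    rw [← mul_assoc, cuy, mul_assoc, e3, mul_add, i3, mul_assoc]
  have t6 : (w * z) * y = y * (w * z) + i (w * v) := by
    rw [mul_assoc, e4, mul_add, i4, ← mul_assoc, ← cwy, mul_assoc]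
  have : (x + y) * (x * y + u * v + w * z) - (x * y + u * v + w * z) * (x + y) =
      (x * (x * y) + x * (u * v) + x * (w * z) + (y * (x * y) + y * (u * v) + y * (w * z))) -
      ((x * y) * x + (u * v) * x + (w * z) * x + ((x * y) * y + (u * v) * y + (w * z) * y)) := by
    noncomm_ring
  rw [this, t1, t2, t3, t4, t5, t6]
  abel

lemma f21 (a : Fin 3) : a + 2 + 1 = a := by revert a; decide
lemma f22 (a : Fin 3) : a + 2 + 2 = a + 1 := by revert a; decide
lemma f12' (a : Fin 3) : a + 1 + 2 = a := by revert a; decide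

/-- the two-site invariance -/
lemma two_site {R : Type} [Ring R] [Algebra ℂ R] (X Y : Fin 3 → R)
    (hXY : ∀ b c, Y c * X b = X b * Y c)
    (hX : ∀ a, X a * X (a + 1) - X (a + 1) * X a = Complex.I • X (a + 2))
    (hY : ∀ a, Y a * Y (a + 1) - Y (a + 1) * Y a = Complex.I • Y (a + 2)) (a : Fin 3) :
    (X a + Y a) * (∑ b, X b * Y b) - (∑ b, X b * Y b) * (X a + Y a) = 0 := by
  have hs : ∑ b, X b * Y b = X a * Y a + X (a + 1) * Y (a + 1) + X (a + 2) * Y (a + 2) := by
    rw [Fin.sum_univ_three]
    fin_cases a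
    · rfl
    · show _ = X 1 * Y 1 + X 2 * Y 2 + X 0 * Y 0
      abel
    · show _ = X 2 * Y 2 + X 0 * Y 0 + X 1 * Y 1
      abel
  have e3 := f21 a
  have e4 := f22 a
  have x1 := hX a
  have x2 := hX (a + 2)
  have y1 := hY a
  have y2 := hY (a + 2)
  rw [e3, e4] at x2 y2
  rw [hs]
  exact two_site_alg (X a) (X (a + 1)) (X (a + 2)) (Y a) (Y (a + 1)) (Y (a + 2))
    (fun r => Complex.I • r) (by simp) (by simp) (by simp) (by simp) (hXY _ _) (hXY _ _)
    (hXY _ _) (hXY _ _) (hXY _ _) x1 x2 y1 y2

/-- the total spin commutes with the Hamiltonian -/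
theorem totalSpin_comm (L : ℕ) [NeZero L] (hL : 2 ≤ L) (a : Fin 3) :
    totalSpin L a * haldaneH L = haldaneH L * totalSpin L a := by
  rw [← sub_eq_zero]
  unfold haldaneH
  rw [Finset.mul_sum, Finset.sum_mul, ← Finset.sum_sub_distrib]
  refine Finset.sum_eq_zero fun j _ => ?_
  have hne := succ_ne hL j
  set q := ∑ b : Fin 3, onSite j (spin b) * onSite (j + 1) (spin b) with hq
  have h2 := two_site (fun b => onSite j (spin b)) (fun b => onSite (j + 1) (spin b))
    (fun b c => onSite_comm hne _ _)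
    (fun a => by rw [onSite_mul, onSite_mul, ← onSite_sub, spin_comm, onSite_smul])
    (fun a => by rw [onSite_mul, onSite_mul, ← onSite_sub, spin_comm, onSite_smul]) a
  have h3 : ∀ i : Fin L, i ≠ j → i ≠ j + 1 → onSite i (spin a) * q - q * onSite i (spin a) = 0 := by
    intro i h1 h2
    rw [hq, Finset.mul_sum, Finset.sum_mul, ← Finset.sum_sub_distrib]
    refine Finset.sum_eq_zero fun b _ => ?_
    rw [← Matrix.mul_assoc, onSite_comm h1, Matrix.mul_assoc, onSite_comm h2,
      ← Matrix.mul_assoc, sub_self]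
  unfold totalSpin
  rw [Finset.sum_mul, Finset.mul_sum, ← Finset.sum_sub_distrib,
    ← Finset.sum_subset (Finset.subset_univ {j, j + 1})]
  · rw [Finset.sum_pair hne.symm]
    rw [← hq] at h2
    rw [add_mul, mul_add] at h2
    rw [← h2]
    abel
  · intro i _ hi
    rw [Finset.mem_insert, Finset.mem_singleton, not_or] at hi
    exact h3 i hi.1 hi.2

lemma totalSpin_lie (L : ℕ) (a : Fin 3) :
    totalSpin L a * totalSpin L (a + 1) - totalSpin L (a + 1) * totalSpin L a =
      Complex.I • totalSpin L (a + 2) := by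
  unfold totalSpin
  simp only [Finset.sum_mul, Finset.mul_sum]
  rw [Finset.sum_comm (γ := Fin L) (f := fun i j => onSite j (spin (a + 1)) * onSite i (spin a)),
    ← Finset.sum_sub_distrib, Finset.smul_sum]
  refine Finset.sum_congr rfl fun i _ => ?_
  rw [← Finset.sum_sub_distrib, Finset.sum_eq_single i]
  · rw [onSite_mul, onSite_mul, ← onSite_sub, spin_comm, onSite_smul]
  · intro j _ hj
    rw [onSite_comm hj, sub_self]
  · intro h; exact absurd (Finset.mem_univ _) h

/-- a nondegenerate eigenvector is a spin singlet -/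
theorem singlet_of_simple (L : ℕ) [NeZero L] (hL : 2 ≤ L) {E : ℂ} {ψ : (Fin L → Fin 3) → ℂ}
    (hψ : ψ ≠ 0) (hE : (haldaneH L).mulVec ψ = E • ψ)
    (hu : ∀ φ : (Fin L → Fin 3) → ℂ, (haldaneH L).mulVec φ = E • φ → ∃ c : ℂ, φ = c • ψ)
    (a : Fin 3) : (totalSpin L a).mulVec ψ = 0 := by
  have h1 : ∀ b : Fin 3, ∃ c : ℂ, (totalSpin L b).mulVec ψ = c • ψ := by
    intro b
    apply hu
    rw [Matrix.mulVec_mulVec, ← totalSpin_comm L hL, ← Matrix.mulVec_mulVec, hE,
      Matrix.mulVec_smul]
  choose c hc using h1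
  have h2 := congrArg (fun M => Matrix.mulVec M ψ) (totalSpin_lie L (a + 1))
  have e1 := f12' a
  rw [e1] at h2
  simp only [Matrix.sub_mulVec, ← Matrix.mulVec_mulVec, Matrix.smul_mulVec] at h2
  rw [hc, hc, Matrix.mulVec_smul, Matrix.mulVec_smul, hc, hc, smul_smul, smul_smul,
    mul_comm (c (a + 1 + 1)), sub_self] at h2
  rcases smul_eq_zero.1 h2.symm with h3 | h3
  · exact absurd h3 Complex.I_ne_zero
  · rw [hc] at h3 ⊢
    exact h3

end

end Vale.Agent.P348
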